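import Crest.Agent.Lead.ZT3

/-! Proof of `T1b`. -/

namespace Crest.Agent.Lead.ZT

open unitInterval NNReal Set Crest.Agent.H9.ZD MP

section words
variable {S R : Type} {rel : R → S × S × S} {E : Type} [TopologicalSpace E]
  (χ : CM (fun s => (PresentedGroup.of s : Grp rel)) rel E)

/-- the Moore path of a letter -/
noncomputable def lp (g : Grp rel) (d : S × Bool) : MP E :=
  if d.2 then eg χ g d.1 1 else (eg χ (g * (PresentedGroup.of d.1)⁻¹) d.1 1).rev

theorem ev_false (s : S) : ev rel [(s, false)] = (PresentedGroup.of s)⁻¹ := rfl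

theorem lp_mem (g : Grp rel) (d : S × Bool) : lp χ g d ∈ MP.S (χ.pt g) (χ.pt (g * ev rel [d])) := by
  obtain ⟨s, b⟩ := d
  cases b
  · have := rev_mem (eg_one_mem χ (g * (PresentedGroup.of s)⁻¹) s)
    simpa [lp, ev_false] using this
  · exact eg_one_mem χ g s

theorem lp_inv (g : Grp rel) (d : S × Bool) : lp χ (g * ev rel [d]) (inv d) = (lp χ g d).rev := by
  obtain ⟨s, b⟩ := d
  cases b
  · simp [lp, inv, ev_false, rev_rev]
  · simp [lp, inv, ev_of]

/-- the Moore path of a word -/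
noncomputable def wp : Grp rel → List (S × Bool) → MP E
  | g, [] => one (χ.pt g)
  | g, d :: w => (lp χ g d).mul (wp (g * ev rel [d]) w)

theorem ev_cons (d : S × Bool) (w : List (S × Bool)) : ev rel (d :: w) = ev rel [d] * ev rel w :=
  ev_append [d] w

theorem wp_mem : ∀ (w : List (S × Bool)) (g : Grp rel),
    wp χ g w ∈ MP.S (χ.pt g) (χ.pt (g * ev rel w))
  | [], g => by simpa [wp, ev_nil] using one_mem (χ.pt g)
  | d :: w, g => by
    rw [ev_cons, ← _root_.mul_assoc]
    exact MP.mul_mem (lp_mem χ g d) (wp_mem w _)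

theorem assoc' {x y z w : E} {p q r : MP E} (hp : p ∈ MP.S x y) (hq : q ∈ MP.S y z)
    (hr : r ∈ MP.S z w) : (p.mul q).mul r = p.mul (q.mul r) :=
  MP.mul_assoc (hp.2.trans hq.1.symm) (hq.2.trans hr.1.symm)

theorem wp_append : ∀ (u v : List (S × Bool)) (g : Grp rel),
    wp χ g (u ++ v) = (wp χ g u).mul (wp χ (g * ev rel u) v)
  | [], v, g => by
    simp only [List.nil_append, wp, ev_nil, _root_.mul_one]
    exact (MP.one_mul (wp_mem χ v g).1).symm
  | d :: u, v, g => by
    simp only [List.cons_append, wp]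
    rw [wp_append u v, ev_cons d u, ← _root_.mul_assoc,
      assoc' (lp_mem χ g d) (wp_mem χ u _) (wp_mem χ v _)]

theorem Der.ev_eq {w w' : List (S × Bool)} {ζ} (h : Der rel w w' ζ) : ev rel w = ev rel w' := by
  induction h with
  | refl w => rfl
  | ins u v d =>
    have : ev rel [d] * ev rel [inv d] = 1 := by
      obtain ⟨s, b⟩ := d
      cases b <;> simp [inv, ev_false, ev_of]
    rw [ev_append, ev_append, ev_cons d, ev_cons (inv d), ← _root_.mul_assoc (ev rel [d]), this,
      _root_.one_mul]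
  | tri u v r =>
    rw [ev_append, ev_append, ev_cons, ev_cons ((rel r).2.1, true), ev_cons ((rel r).2.2, true),
      ev_of, ev_of, ev_of, ← of_rel, _root_.mul_assoc]
  | symm _ ih => exact ih.symm
  | trans _ _ ih ih' => exact ih.trans ih'

theorem joined_tri (g : Grp rel) (r : R) :
    JoinedIn (MP.S (χ.pt g) (χ.pt (g * PresentedGroup.of (rel r).2.2)))
      ((eg χ g (rel r).1 1).mul (eg χ (g * PresentedGroup.of (rel r).1) (rel r).2.1 1))
      (eg χ g (rel r).2.2 1) :=
  joinedIn_of (fun u => Dm χ g r (1, u)) ((continuous_Dm χ g r).comp (by fun_prop))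
    (Dm_right_mem χ g r) (Dm_one_zero χ g r) (Dm_top χ g r 1)

theorem joined_of_der {w w' : List (S × Bool)} {ζ} (h : Der rel w w' ζ) (g : Grp rel) :
    JoinedIn (MP.S (χ.pt g) (χ.pt (g * ev rel w))) (wp χ g w) (wp χ g w') := by
  induction h with
  | refl w => exact JoinedIn.refl (wp_mem χ w g)
  | ins u v d =>
    have e : g * ev rel u * ev rel [d] * ev rel [inv d] = g * ev rel u := by
      obtain ⟨s, b⟩ := d
      cases b <;> simp [inv, ev_false, ev_of]
    rw [wp_append, wp_append, ev_append, ← _root_.mul_assoc]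
    refine joinedIn_mul_left (wp_mem χ u g) ?_
    simp only [wp]
    rw [e, lp_inv, ← assoc' (lp_mem χ _ d) (rev_mem (lp_mem χ _ d)) (wp_mem χ v _)]
    have := joinedIn_mul_right (joinedIn_mul_rev (lp_mem χ (g * ev rel u) d)) (wp_mem χ v _)
    rw [MP.one_mul (wp_mem χ v _).1] at this
    exact this.symm
  | tri u v r =>
    rw [Der.ev_eq (Der.tri u v r), wp_append, wp_append, ev_append, ← _root_.mul_assoc]
    refine joinedIn_mul_left (wp_mem χ u g) ?_
    have e : g * ev rel u * ev rel [((rel r).1, true)] * ev rel [((rel r).2.1, true)] =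
        g * ev rel u * ev rel [((rel r).2.2, true)] := by
      rw [ev_of, ev_of, ev_of, ← of_rel, _root_.mul_assoc]
    simp only [wp]
    rw [← assoc' (lp_mem χ _ _) (lp_mem χ _ _) (wp_mem χ v _), e, ev_cons, ← _root_.mul_assoc]
    exact joinedIn_mul_right (joined_tri χ _ r) (wp_mem χ v _)
  | symm h ih => rw [← Der.ev_eq h]; exact ih.symm
  | trans h _ ih ih' => rw [← Der.ev_eq h] at ih'; exact ih.trans ih'

end words

theorem φp_lo (t τ : I) (h : (τ : ℝ) = 2 * t) : φp t = τ := trans_lo _ _ t τ h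
theorem φp_hi (t τ : I) (h : (τ : ℝ) = 2 * t - 1) : φp t = 1 := trans_hi _ _ t τ h

theorem t1b : T1b := by
  intro S R rel E _ χ hU hA
  obtain ⟨ρ, hρ⟩ := exists_rho hA
  choose ω hω using ev_surj (rel := rel)
  let sg : ∀ g, F (χ.pt 1) (χ.pt g) := fun g => ⟨wp χ 1 (ω g), by
    simpa [hω] using wp_mem χ (ω g) 1⟩
  have hj : ∀ g s h hh, Joined ((sg g).mul (ep χ g s h hh)) (sg h) := by
    intro g s h hh
    subst hh
    obtain ⟨ζ, hζ⟩ := der_of_ev_eq (rel := rel) (w := ω g ++ [(s, true)])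
      (w' := ω (g * PresentedGroup.of s)) (by rw [ev_append, hω, hω, ev_of])
    have := joined_of_der χ hζ 1
    rw [wp_append, ev_append, hω, _root_.one_mul, _root_.one_mul, ev_of] at this
    simp only [wp] at this
    rw [MP.mul_one (lp_mem χ g (s, true)).2] at this
    exact this.joined_subtype
  have hh : ∀ (g : Grp rel) r, g * PresentedGroup.of (rel r).1 * PresentedGroup.of (rel r).2.1 =
      g * PresentedGroup.of (rel r).2.2 := fun g r => by rw [_root_.mul_assoc, of_rel]
  let δ : ∀ g r, Path (((sg g).mul (ep χ g (rel r).1 _ rfl)).mul (ep χ _ (rel r).2.1 _ (hh g r)))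
      ((sg g).mul (ep χ g (rel r).2.2 _ rfl)) := fun g r =>
    ⟨⟨fun u => (sg g).mul ⟨Dm χ g r (1, u), Dm_right_mem χ g r u⟩,
      F.continuous_mul continuous_const (continuous_induced_rng.2
        ((continuous_Dm χ g r).comp (by fun_prop)))⟩,
      by rw [F.massoc]; exact congrArg (sg g).mul (Subtype.ext (Dm_one_zero χ g r)),
      congrArg (sg g).mul (Subtype.ext (Dm_top χ g r 1))⟩
  obtain ⟨θ, hθ⟩ := exists_coherent _ rel of_rel ρ hρ χ.pt sg (ep χ) hj δ
  choose W w0 w1 wa wa' wb wb' wc wc' using fun g r =>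
    fill χ g r (hh g r) _ _ _ _ _ _ (δ g r) (fun _ => rfl) (hθ g r)
  have hθ' : ∀ g s h hh t, (θ g s h hh t).1 = (θ g s _ rfl t).1 := by
    intro g s h hh t; subst hh; rfl
  -- the section over the edges
  let gr : ∀ g s, Path (sg g).1 ((sg g).mul (ep χ g s _ rfl)).1 := fun g s =>
    ⟨⟨fun t => (sg g).1.mul (eg χ g s t), MP.continuous_mul continuous_const (continuous_eg χ g s)
      fun t => (sg g).2.2.trans (eg_mem χ g s t).1.symm⟩,
      mul_zero_len ((sg g).2.2.trans (eg_mem χ g s 0).1.symm) rfl, rfl⟩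
  let S1 : ∀ g s, Path (sg g).1 (sg (g * PresentedGroup.of s)).1 := fun g s =>
    (gr g s).trans ((θ g s _ rfl).map continuous_subtype_val)
  have s_lo : ∀ g s (t τ : I), (τ : ℝ) = 2 * t → S1 g s t = (sg g).1.mul (eg χ g s τ) :=
    fun g s t τ h => trans_lo _ _ t τ h
  have s_hi : ∀ g s (t τ : I), (τ : ℝ) = 2 * t - 1 → S1 g s t = (θ g s _ rfl τ).1 :=
    fun g s t τ h => trans_hi _ _ t τ h
  have s_mem : ∀ g s t, S1 g s t ∈ MP.S (χ.pt 1) (χ.c1 g s (φp t)) := by
    intro g s t
    rcases lo_or_hi t with ⟨τ, h⟩ | ⟨τ, h⟩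
    · rw [s_lo g s t τ h, φp_lo t τ h]; exact MP.mul_mem (sg g).2 (eg_mem χ g s τ)
    · rw [s_hi g s t τ h, φp_hi t τ h, χ.c1_one]; exact (θ g s _ rfl τ).2
  have v1 : ∀ g r (a t : I), (t : ℝ) = 2 * a →
      (W g r (a, 0)).1 = (S1 g (rel r).1 t, (h1 (φp t), 0)) := by
    intro g r a t h
    rcases lo_or_hi t with ⟨τ, k⟩ | ⟨τ, k⟩
    · rw [wa g r a t τ h k, s_lo _ _ t τ k, φp_lo t τ k]
    · rw [wa' g r a t τ h k, s_hi _ _ t τ k, φp_hi t τ k]
  have v2 : ∀ g r (a t : I), (t : ℝ) = 2 * a - 1 → (W g r (a, 0)).1 =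
      (S1 (g * PresentedGroup.of (rel r).1) (rel r).2.1 t, (h2 (φp t), 0)) := by
    intro g r a t h
    rcases lo_or_hi t with ⟨τ, k⟩ | ⟨τ, k⟩
    · rw [wb g r a t τ h k, s_lo _ _ t τ k, φp_lo t τ k]
    · rw [wb' g r a t τ h k, s_hi _ _ t τ k, φp_hi t τ k, hθ', h2_one]
  have v3 : ∀ g r (a : I), (W g r (a, 1)).1 = (S1 g (rel r).2.2 a, (φp a, 1)) := by
    intro g r a
    rcases lo_or_hi a with ⟨τ, k⟩ | ⟨τ, k⟩
    · rw [wc g r a τ k, s_lo _ _ a τ k, φp_lo a τ k]
    · rw [wc' g r a τ k, s_hi _ _ a τ k, φp_hi a τ k]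
  obtain ⟨Sg, g0, g1, g2⟩ := hU.desc (MP E)
    { pt := fun g => (sg g).1
      c1 := fun g s => S1 g s
      c2 := fun g r => ⟨fun z => (W g r z).1.1, by fun_prop⟩
      c1_zero := fun g s => (S1 g s).source
      c1_one := fun g s => (S1 g s).target
      c2_left := fun g r b => congrArg Prod.fst (w0 g r b)
      c2_right := fun g r b => congrArg Prod.fst (w1 g r b)
      c2_bot1 := fun g r a t h => congrArg Prod.fst (v1 g r a t h)
      c2_bot2 := fun g r a t h => congrArg Prod.fst (v2 g r a t h)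
      c2_top := fun g r a => congrArg Prod.fst (v3 g r a) }
  obtain ⟨K, k0, k1, k2⟩ := hU.desc C(I, E)
    { pt := fun g => ContinuousMap.const _ (χ.pt g)
      c1 := fun g s => ContinuousMap.curry ⟨fun p : I × I => χ.c1 g s (ip p.2 (φp p.1) p.1),
        (χ.c1 g s).continuous.comp (continuous_ip continuous_snd (by fun_prop) continuous_fst)⟩
      c2 := fun g r => ContinuousMap.curry ⟨fun p : (I × I) × I =>
        χ.c2 g r (ip p.2 (W g r p.1).1.2.1 p.1.1, ip p.2 (W g r p.1).1.2.2 p.1.2),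
        (χ.c2 g r).continuous.comp ((continuous_ip continuous_snd (by fun_prop)
          (by fun_prop)).prodMk (continuous_ip continuous_snd (by fun_prop) (by fun_prop)))⟩
      c1_zero := fun g s => by ext τ; simp [ip_self, χ.c1_zero]
      c1_one := fun g s => by ext τ; simp [ip_self, χ.c1_one]
      c2_left := fun g r b => by ext τ; simp [w0, ip_self, χ.c2_left]
      c2_right := fun g r b => by ext τ; simp [w1, ip_self, χ.c2_right]
      c2_bot1 := fun g r a t h => by
        ext τ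
        simp only [ContinuousMap.curry_apply, ContinuousMap.coe_mk, v1 g r a t h, ip_self]
        refine χ.c2_bot1 g r _ _ ?_
        simp only [ip, h1, h]; ring
      c2_bot2 := fun g r a t h => by
        ext τ
        simp only [ContinuousMap.curry_apply, ContinuousMap.coe_mk, v2 g r a t h, ip_self]
        refine χ.c2_bot2 g r _ _ ?_
        simp only [ip, h2, h]; ring
      c2_top := fun g r a => by
        ext τ
        simp only [ContinuousMap.curry_apply, ContinuousMap.coe_mk, v3 g r a, ip_self, χ.c2_top] }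
  have key : ∀ x, (Sg x).src = χ.pt 1 ∧ K x 0 = (Sg x).tgt ∧ K x 1 = x := by
    intro x
    rcases hU.surj x with ⟨g, rfl⟩ | ⟨g, s, t, rfl⟩ | ⟨g, r, z, rfl⟩
    · rw [g0, k0]; exact ⟨(sg g).2.1, (sg g).2.2.symm, rfl⟩
    · rw [g1, k1]
      refine ⟨(s_mem g s t).1, ?_, ?_⟩
      · simp only [ContinuousMap.curry_apply, ContinuousMap.coe_mk, ip_zero]
        exact (s_mem g s t).2.symm
      · simp only [ContinuousMap.curry_apply, ContinuousMap.coe_mk, ip_one]
    · rw [g2, k2]
      refine ⟨(W g r z).2.1, ?_, ?_⟩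
      · simp only [ContinuousMap.curry_apply, ContinuousMap.coe_mk, ip_zero]
        exact (W g r z).2.2.symm
      · simp only [ContinuousMap.curry_apply, ContinuousMap.coe_mk, ip_one]
  let f : C(E, E) := ⟨fun x => (Sg x).tgt, continuous_tgt.comp Sg.continuous⟩
  have H1 : (ContinuousMap.const E (χ.pt 1)).Homotopic f :=
    ⟨⟨⟨fun p => (Sg p.2).fn (toNNReal p.1 * (Sg p.2).len),
      continuous_fn (by fun_prop) (by fun_prop)⟩, fun x => by simpa [src] using (key x).1,
      fun x => by simp [f, tgt]⟩⟩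
  have H2 : f.Homotopic (ContinuousMap.id E) :=
    ⟨⟨⟨fun p => K p.2 p.1, by fun_prop⟩, fun x => (key x).2.1, fun x => (key x).2.2⟩⟩
  exact (contractible_iff_id_nullhomotopic E).2 ⟨χ.pt 1, (H1.trans H2).symm⟩

end Crest.Agent.Lead.ZT
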