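import Crest.Agent.H9.ZD0

/-! Interface for the topological task T1: cellular data of the Cayley complex of a triangle
presentation, and the retraction of the second boundary map obtained from `ClaimA`. -/

namespace Crest.Agent.Lead.ZT

open unitInterval Crest.Agent.H9.ZD

/-- A compatible family of maps from the closed cells `G`, `G × S × I`, `G × R × I²` of the Cayley
complex to a space `Z`.  The square of a relator `a * b = c` has `a`, `b` on the two halves of its
bottom side, `c` on its top side, and collapsed vertical sides. -/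
structure CM {G S R : Type} [Group G] (gen : S → G) (rel : R → S × S × S) (Z : Type)
    [TopologicalSpace Z] where
  pt : G → Z
  c1 : G → S → C(I, Z)
  c2 : G → R → C(I × I, Z)
  c1_zero : ∀ g s, c1 g s 0 = pt g
  c1_one : ∀ g s, c1 g s 1 = pt (g * gen s)
  c2_left : ∀ g r b, c2 g r (0, b) = pt g
  c2_right : ∀ g r b, c2 g r (1, b) = pt (g * gen (rel r).2.2)
  c2_bot1 : ∀ g r (a t : I), (t : ℝ) = 2 * a → c2 g r (a, 0) = c1 g (rel r).1 t
  c2_bot2 : ∀ g r (a t : I), (t : ℝ) = 2 * a - 1 →
    c2 g r (a, 0) = c1 (g * gen (rel r).1) (rel r).2.1 t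
  c2_top : ∀ g r a, c2 g r (a, 1) = c1 g (rel r).2.2 a

/-- the cells cover `E` and `E` has the universal property of the Cayley complex. -/
structure Univ {G S R : Type} [Group G] {gen : S → G} {rel : R → S × S × S} {E : Type}
    [TopologicalSpace E] (χ : CM gen rel E) : Prop where
  surj : ∀ x : E, (∃ g, x = χ.pt g) ∨ (∃ g s t, x = χ.c1 g s t) ∨ ∃ g r z, x = χ.c2 g r z
  desc : ∀ (Z : Type) [TopologicalSpace Z] (f : CM gen rel Z), ∃ F : C(E, Z),
    (∀ g, F (χ.pt g) = f.pt g) ∧ (∀ g s t, F (χ.c1 g s t) = f.c1 g s t) ∧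
      ∀ g r z, F (χ.c2 g r z) = f.c2 g r z

/-- construction of the Cayley complex, its quotient, the CW structure and the covering -/
def T1a : Prop := ∀ (G S R : Type) [Group G] [Finite S] [Finite R] (gen : S → G)
  (rel : R → S × S × S), (∀ r, gen (rel r).1 * gen (rel r).2.1 = gen (rel r).2.2) →
    ∃ (E : Type) (_ : TopologicalSpace E) (χ : CM gen rel E), Univ χ ∧
      (ContractibleSpace E → Crest.Topology.HasFiniteClassifyingComplex G 2)

/-- contractibility of the Cayley complex -/
def T1b : Prop := ∀ (S R : Type) (rel : R → S × S × S) (E : Type) [TopologicalSpace E]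
  (χ : CM (fun s => (PresentedGroup.of s : Grp rel)) rel E), Univ χ → ClaimA rel →
    ContractibleSpace E

section alg
variable {S R : Type} {rel : R → S × S × S}

theorem ev_append (u v : List (S × Bool)) : ev rel (u ++ v) = ev rel u * ev rel v := by
  simp [ev, ← FreeGroup.mul_mk]

theorem ev_nil : ev rel [] = 1 := by
  simp [ev, ← FreeGroup.one_eq_mk]

theorem ev_of (s : S) : ev rel [(s, true)] = PresentedGroup.of s := rfl

theorem ev_invRev (u : List (S × Bool)) : ev rel (FreeGroup.invRev u) = (ev rel u)⁻¹ := by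
  simp [ev, ← FreeGroup.inv_mk]

theorem of_rel (r : R) : (PresentedGroup.of (rel r).1 : Grp rel) * PresentedGroup.of (rel r).2.1 =
    PresentedGroup.of (rel r).2.2 := by
  have : PresentedGroup.mk (rels rel) (FreeGroup.of (rel r).1 * FreeGroup.of (rel r).2.1 *
      (FreeGroup.of (rel r).2.2)⁻¹) = 1 :=
    PresentedGroup.one_of_mem ⟨r, rfl⟩
  rw [map_mul, map_mul, map_inv, mul_inv_eq_one] at this
  exact this

theorem ev_surj (g : Grp rel) : ∃ w, ev rel w = g := by
  classical
  obtain ⟨f, rfl⟩ := PresentedGroup.mk_surjective _ g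
  exact ⟨f.toWord, by simp [ev, FreeGroup.mk_toWord]⟩

theorem Der.right {w w' ζ} (h : Der rel w w' ζ) (x : List (S × Bool)) :
    Der rel (w ++ x) (w' ++ x) ζ := by
  induction h with
  | refl w => exact .refl _
  | ins u v d => simpa using Der.ins (rel := rel) u (v ++ x) d
  | tri u v r => simpa using Der.tri (rel := rel) u (v ++ x) r
  | symm _ ih => exact .symm ih
  | trans _ _ ih ih' => exact .trans ih ih'

theorem Der.left {w w' ζ} (h : Der rel w w' ζ) (x : List (S × Bool)) :
    ∃ ξ, Der rel (x ++ w) (x ++ w') ξ := by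
  induction h with
  | refl w => exact ⟨_, .refl _⟩
  | ins u v d => exact ⟨_, by simpa using Der.ins (rel := rel) (x ++ u) v d⟩
  | tri u v r => exact ⟨_, by simpa using Der.tri (rel := rel) (x ++ u) v r⟩
  | symm _ ih => obtain ⟨_, ih⟩ := ih; exact ⟨_, .symm ih⟩
  | trans _ _ ih ih' => obtain ⟨_, ih⟩ := ih; obtain ⟨_, ih'⟩ := ih'; exact ⟨_, .trans ih ih'⟩

theorem Der.of_red {w w' : List (S × Bool)} (h : FreeGroup.Red w w') : Der rel w w' 0 := by
  induction h with
  | refl => exact .refl _
  | tail _ h ih =>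
    cases h with
    | @not L₁ L₂ x b =>
      have := Der.trans ih (Der.symm (Der.ins (rel := rel) L₁ L₂ (x, b)))
      simpa using this

theorem Der.of_mk_eq {w w' : List (S × Bool)} (h : FreeGroup.mk w = FreeGroup.mk w') :
    Der rel w w' 0 := by
  classical
  have h1 := Der.of_red (rel := rel) (FreeGroup.reduce.red (L := w))
  have h2 := Der.of_red (rel := rel) (FreeGroup.reduce.red (L := w'))
  rw [FreeGroup.reduce.sound h] at h1
  simpa using h1.trans h2.symm

theorem der_of_mem {f : FreeGroup S} (hf : f ∈ Subgroup.normalClosure (rels rel)) :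
    ∀ w, FreeGroup.mk w = f → ∃ ζ, Der rel w [] ζ := by
  classical
  have key : ∀ f : FreeGroup S, (∃ ζ, Der rel f.toWord [] ζ) →
      ∀ w, FreeGroup.mk w = f → ∃ ζ, Der rel w [] ζ := by
    rintro f ⟨ζ, h⟩ w hw
    exact ⟨_, (Der.of_mk_eq (w' := f.toWord) (by simp [hw, FreeGroup.mk_toWord])).trans h⟩
  let N : Subgroup (FreeGroup S) :=
    { carrier := {f | ∃ ζ, Der rel f.toWord [] ζ}
      one_mem' := ⟨0, .refl _⟩
      mul_mem' := by
        rintro a b ⟨ζ, h⟩ ⟨ξ, k⟩
        have h1 := Der.right h b.toWord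
        exact ⟨_, ((Der.of_mk_eq (w' := a.toWord ++ b.toWord)
          (by simp [← FreeGroup.mul_mk, FreeGroup.mk_toWord])).trans h1).trans k⟩
      inv_mem' := by
        rintro a ⟨ζ, h⟩
        have h1 := Der.right h a⁻¹.toWord
        exact ⟨_, h1.symm.trans (Der.of_mk_eq (w' := [])
          (by simp [← FreeGroup.mul_mk, ← FreeGroup.one_eq_mk, ← FreeGroup.inv_mk]))⟩ }
  have hN : N.Normal := by
    constructor
    rintro a ⟨ζ, h⟩ g
    obtain ⟨ξ, h1⟩ := Der.left (Der.right h g⁻¹.toWord) g.toWord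
    exact ⟨_, ((Der.of_mk_eq (w' := g.toWord ++ (a.toWord ++ g⁻¹.toWord))
      (by simp [← FreeGroup.mul_mk, mul_assoc, ← FreeGroup.inv_mk, FreeGroup.mk_toWord])).trans h1).trans (Der.of_mk_eq (w' := [])
        (by simp [← FreeGroup.mul_mk, ← FreeGroup.one_eq_mk, ← FreeGroup.inv_mk]))⟩
  have hle : Subgroup.normalClosure (rels rel) ≤ N := by
    refine Subgroup.normalClosure_le_normal ?_
    rintro _ ⟨r, rfl⟩
    have h1 := Der.tri (rel := rel) [] [((rel r).2.2, false)] r
    refine ⟨_, ((Der.of_mk_eq ?_).trans h1).trans (Der.of_mk_eq (w' := []) ?_)⟩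
    · rw [FreeGroup.mk_toWord]; rfl
    · rw [← FreeGroup.one_eq_mk]
      exact mul_inv_cancel (FreeGroup.of (rel r).2.2)
  exact key f (hle hf)

/-- words with the same value are joined by a derivation -/
theorem der_of_ev_eq {w w' : List (S × Bool)} (h : ev rel w = ev rel w') : ∃ ζ, Der rel w w' ζ := by
  have h1 : ev rel (w ++ FreeGroup.invRev w') = 1 := by
    rw [ev_append, ev_invRev, h, mul_inv_cancel]
  obtain ⟨ζ, h2⟩ := der_of_mem ((PresentedGroup.mk_eq_one_iff).1 h1) _ rfl
  have h3 := Der.right h2 w'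
  exact ⟨_, (Der.of_mk_eq (w' := (w ++ FreeGroup.invRev w') ++ w')
    (by simp only [← FreeGroup.mul_mk, ← FreeGroup.inv_mk]; group)).trans h3⟩

theorem der_unique (hA : ClaimA rel) {w w' ζ ξ} (h : Der rel w w' ζ) (k : Der rel w w' ξ) :
    ζ = ξ := by
  have h0 : Der rel [] (w ++ FreeGroup.invRev w) 0 := Der.of_mk_eq
    (by simp only [← FreeGroup.mul_mk, ← FreeGroup.inv_mk, ← FreeGroup.one_eq_mk]; group)
  have := hA _ ((h0.trans (Der.right (h.trans k.symm) _)).trans h0.symm)
  simpa [sub_eq_zero, ← sub_eq_add_neg] using this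

/-- the retraction of the second boundary map -/
theorem exists_rho (hA : ClaimA rel) : ∃ ρ : Grp rel → S → (Grp rel × R →₀ ℤ), ∀ g r,
    ρ g (rel r).1 + ρ (g * PresentedGroup.of (rel r).1) (rel r).2.1 - ρ g (rel r).2.2 =
      Finsupp.single (g, r) 1 := by
  choose ω hω using ev_surj (rel := rel)
  have h : ∀ g s, ∃ ζ, Der rel (ω g ++ [(s, true)]) (ω (g * PresentedGroup.of s)) ζ := fun g s =>
    der_of_ev_eq (by rw [ev_append, hω, hω, ev_of])
  choose ρ hρ using h
  refine ⟨ρ, fun g r => ?_⟩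
  have h1 := (Der.right (hρ g (rel r).1) [((rel r).2.1, true)]).trans
    (hρ (g * PresentedGroup.of (rel r).1) (rel r).2.1)
  have h2 := (Der.tri (rel := rel) (ω g) [] r).trans (hρ g (rel r).2.2)
  rw [mul_assoc, of_rel, List.append_assoc] at h1
  have := der_unique hA h1 h2
  rw [this, hω]; simp

end alg

theorem t1_of (ha : T1a) (hb : T1b) : T1 := by
  intro S R _ _ rel _ _ _ hA
  obtain ⟨E, _, χ, hU, h⟩ := ha (Grp rel) S R (fun s => PresentedGroup.of s) rel of_rel
  exact h (hb S R rel E χ hU hA)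

end Crest.Agent.Lead.ZT
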