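import Crest.Agent.Lead.BorsukLoop

set_option autoImplicit false

namespace Crest.Agent.LeadBorsuk
open Crest.Agent.LeadChains

local notation "⟪" x ", " y "⟫" => inner ℝ x y

def part (b : Bool) : List (Bool × E) → List E
  | [] => []
  | a :: s => if a.1 = b then a.2 :: part b s else part b s

lemma mem_part {b : Bool} {s : List (Bool × E)} {p : E} : p ∈ part b s ↔ (b, p) ∈ s := by
  induction s with
  | nil => simp [part]
  | cons a s ih =>
    obtain ⟨b', q⟩ := a
    simp only [part]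
    split_ifs with h
    · subst h; simp [ih]
    · simp only [ih, List.mem_cons, Prod.mk.injEq]
      constructor
      · exact Or.inr
      · rintro (⟨h1, -⟩ | h1)
        · exact absurd h1.symm h
        · exact h1

lemma length_part (s : List (Bool × E)) : (part true s).length + (part false s).length = s.length := by
  induction s with
  | nil => simp [part]
  | cons a s ih =>
    obtain ⟨b, q⟩ := a
    cases b <;> simp [part] <;> omega

def flp (a : Bool × E) : Bool × E := (!a.1, a.2)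

lemma part_flp (b : Bool) (s : List (Bool × E)) : part b (s.map flp) = part (!b) s := by
  induction s with
  | nil => simp [part]
  | cons a s ih =>
    obtain ⟨b', q⟩ := a
    cases b <;> cases b' <;> simp [part, flp] at ih ⊢ <;> exact ih

def Tn (a b : List E → ZMod 2) (s : List (Bool × E)) : ZMod 2 := a (part true s) * b (part false s)

lemma dd_Tn (a b : List E → ZMod 2) (s : List (Bool × E)) :
    dd (Tn a b) s = Tn (dd a) b s + Tn a (dd b) s := by
  induction s generalizing a b with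
  | nil => simp [Tn, part]
  | cons v s ih =>
    obtain ⟨β, q⟩ := v
    rw [dd_cons]
    cases β
    · have : (fun t => Tn a b ((false, q) :: t)) = Tn a (fun t => b (q :: t)) := by
        funext t; simp [Tn, part]
      rw [this, ih]
      simp [Tn, part]; ring
    · have : (fun t => Tn a b ((true, q) :: t)) = Tn (fun t => a (q :: t)) b := by
        funext t; simp [Tn, part]
      rw [this, ih]
      simp [Tn, part]; ring

def colM (c : E → Fin 10) (l : List E) : Multiset (Fin 10) := (l.map c : List (Fin 10))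

def eS (c : E → Fin 10) (S : Finset (Fin 10)) (l : List E) : ZMod 2 :=
  if colM c l = S.val then 1 else 0

lemma dd_eS (c : E → Fin 10) (S : Finset (Fin 10)) (l : List E) :
    dd (eS c S) l = ∑ v ∈ Sᶜ, eS c (insert v S) l := by
  have h1 : dd (eS c S) l = dd (fun t : List (Fin 10) =>
      (fun M : Multiset (Fin 10) => if M = S.val then (1 : ZMod 2) else 0) (t : Multiset (Fin 10)))
      (l.map c) := by
    rw [← dd_map]; rfl
  rw [h1, dd_multiset (fun M : Multiset (Fin 10) => if M = S.val then (1 : ZMod 2) else 0)]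
  unfold eS colM
  generalize ((l.map c : List (Fin 10)) : Multiset (Fin 10)) = M
  rw [Finset.sum_multiset_map_count,
    Finset.sum_subset (Finset.subset_univ M.toFinset) (fun x _ hx => by
      rw [Multiset.mem_toFinset] at hx
      rw [Multiset.count_eq_zero_of_notMem hx, zero_smul]),
    ← Finset.sum_add_sum_compl S]
  have e1 : ∑ u ∈ S, Multiset.count u M • (if M.erase u = S.val then (1 : ZMod 2) else 0) = 0 := by
    apply Finset.sum_eq_zero
    intro u hu
    split_ifs with h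
    · by_cases hM : u ∈ M
      · rw [← Multiset.cons_erase hM, h, Multiset.count_cons_self,
          Multiset.count_eq_one_of_mem S.nodup hu]
        rfl
      · rw [Multiset.count_eq_zero_of_notMem hM, zero_smul]
    · simp
  rw [e1, zero_add]
  apply Finset.sum_congr rfl
  intro u hu
  rw [Finset.mem_compl] at hu
  rw [Finset.insert_val_of_notMem hu]
  by_cases h : M = u ::ₘ S.val
  · rw [if_pos h, h, Multiset.erase_cons_head, if_pos rfl, Multiset.count_cons_self,
      Multiset.count_eq_zero_of_notMem hu]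
    simp
  · rw [if_neg h]
    by_cases hM : u ∈ M
    · rw [if_neg, smul_zero]
      intro h'
      exact h (by rw [← h', Multiset.cons_erase hM])
    · rw [Multiset.count_eq_zero_of_notMem hM, zero_smul]

lemma eS_ne {c : E → Fin 10} {S : Finset (Fin 10)} {l : List E} (h : eS c S l ≠ 0) :
    l.length = S.card ∧ (∀ p ∈ l, c p ∈ S) ∧ ∀ i ∈ S, ∃ p ∈ l, c p = i := by
  unfold eS at h
  split_ifs at h with h1
  · unfold colM at h1
    refine ⟨?_, ?_, ?_⟩
    · rw [Finset.card_def, ← h1]; simp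
    · intro p hp
      rw [← Finset.mem_val, ← h1]
      simp only [Multiset.mem_coe, List.mem_map]
      exact ⟨p, hp, rfl⟩
    · intro i hi
      rw [← Finset.mem_val, ← h1] at hi
      simpa using hi
  · exact absurd rfl h

/-- The Lebesgue property -/
def Leb (c : E → Fin 10) (r : ℝ) : Prop := ∀ (x : E) (σ : Finset (Fin 10)),
    ‖x‖ = 1 → (∀ i ∈ σ, ∃ y, ‖y‖ = 1 ∧ c y = i ∧ Near r x y) → Fac c σ

lemma fac_of_eS {c : E → Fin 10} {r : ℝ} (hL : Leb c r) {S : Finset (Fin 10)} {l : List E}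
    (hl : Clq r l) (h : eS c S l ≠ 0) (hS : S.Nonempty) : Fac c S := by
  obtain ⟨h1, h2, h3⟩ := eS_ne h
  obtain ⟨i, hi⟩ := hS
  obtain ⟨p, hp, -⟩ := h3 i hi
  apply hL p S (hl p hp).1
  intro j hj
  obtain ⟨q, hq, rfl⟩ := h3 j hj
  exact ⟨q, (hl q hq).1, rfl, (hl p hp).2 q hq⟩

lemma ev_key {V K : Type*} [DecidableEq K] (key : List V → K) (g : K → ZMod 2)
    (Z : Multiset (List V)) (h : ev (fun s => g (key s)) Z ≠ 0) :
    ∃ κ, g κ ≠ 0 ∧ ev (fun s => if key s = κ then 1 else 0) Z ≠ 0 := by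
  by_contra hc
  push Not at hc
  apply h
  have : ev (fun s => g (key s)) Z =
      ev (fun s => ∑ κ ∈ (Z.map key).toFinset, g κ * (if key s = κ then 1 else 0)) Z := by
    apply ev_congr
    intro s hs
    rw [Finset.sum_eq_single (key s)]
    · simp
    · intro b _ hb; simp [Ne.symm hb]
    · intro hb
      exact absurd (Multiset.mem_toFinset.2 (Multiset.mem_map_of_mem _ hs)) hb
  rw [this, ev_sum]
  apply Finset.sum_eq_zero
  intro κ _
  rw [ev_mul]
  by_cases hg : g κ = 0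
  · rw [hg, zero_mul]
  · rw [hc κ hg, mul_zero]

def labB (c : E → Fin 10) (a : Bool × E) : ℕ := 2 * (c a.2).val + if a.1 = true then 1 else 0

lemma labB_part (c : E → Fin 10) (s : List (Bool × E)) :
    ((s.map (labB c) : List ℕ) : Multiset ℕ) =
      (colM c (part true s)).map (fun i => 2 * i.val + 1) +
        (colM c (part false s)).map (fun i => 2 * i.val) := by
  induction s with
  | nil => simp [part, colM]
  | cons a s ih =>
    obtain ⟨b, q⟩ := a
    rw [List.map_cons, ← Multiset.cons_coe, ih]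
    cases b
    · simp only [part, colM, labB, Bool.false_eq_true, if_false, if_true, List.map_cons,
        ← Multiset.cons_coe, Multiset.map_cons, Multiset.add_cons, add_zero]
    · simp only [part, colM, labB, Bool.true_eq_false, if_false, if_true, List.map_cons,
        ← Multiset.cons_coe, Multiset.map_cons, Multiset.cons_add]

structure ZProp (c : E → Fin 10) (r : ℝ) (x : E) (Z : Multiset (List (Bool × E))) : Prop where
  cyc : IsCycle Z
  symm : ∀ F : List (Bool × E) → ZMod 2, ev (fun s => F (s.map flp)) Z = ev F Z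
  len : ∀ s ∈ Z, s.length = 5
  clq : ∀ s ∈ Z, ∀ b, Clq r (part b s)
  perp : ∀ s ∈ Z, ∀ b, ∀ p ∈ part b s, ⟪p, x⟫ = 0
  far : ∀ s ∈ Z, ∀ p ∈ part true s, ∀ q ∈ part false s, c p ≠ c q
  kf : ev (fun s => altM true (s.map (labB c) : List ℕ)) Z = 1

structure Ctx (c : E → Fin 10) (ε r : ℝ) (x : E) (σ : Finset (Fin 10))
    (Z : Multiset (List (Bool × E))) : Prop where
  good : Good c ε
  leb : Leb c r
  r0 : 0 < r
  r1 : r < 1 / 2
  r2 : 3 * r < ε
  fac : FacAt c x σ
  card : σ.card = 4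
  z : ZProp c r x Z

theorem no_four {c : E → Fin 10} {ε : ℝ} (h : Good c ε) {σ₁ σ₂ : Finset (Fin 10)}
    (h1 : Fac c σ₁) (h2 : Fac c σ₂) (c1 : σ₁.card = 4) (c2 : σ₂.card = 4) :
    ¬ Disjoint σ₁ σ₂ := by
  intro hd
  have : ((σ₁ ∪ σ₂)ᶜ).card = 2 := by
    rw [Finset.card_compl, Finset.card_union_of_disjoint hd, c1, c2]; rfl
  obtain ⟨u, v, huv, he⟩ := Finset.card_eq_two.1 this
  obtain ⟨i, a1, a2, a3, a4⟩ := propD h h1 h2 huv
  have : i ∈ (σ₁ ∪ σ₂)ᶜ := by simp [a1, a2]
  rw [he] at this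
  simp [a3, a4] at this

namespace Ctx
variable {c : E → Fin 10} {ε r : ℝ} {x : E} {σ : Finset (Fin 10)} {Z : Multiset (List (Bool × E))}

lemma col (H : Ctx c ε r x σ Z) {s : List (Bool × E)} (hs : s ∈ Z) {b : Bool} {p : E}
    (hp : p ∈ part b s) : c p ∉ σ :=
  facAt_perp H.good H.fac (H.z.clq s hs b p hp).1 (H.z.perp s hs b p hp)

lemma disj (H : Ctx c ε r x σ Z) {s : List (Bool × E)} (hs : s ∈ Z) {b : Bool}
    {S : Finset (Fin 10)} (h : eS c S (part b s) ≠ 0) : Disjoint σ S := by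
  rw [Finset.disjoint_right]
  intro i hi
  obtain ⟨p, hp, rfl⟩ := (eS_ne h).2.2 i hi
  exact H.col hs hp

lemma card_le (H : Ctx c ε r x σ Z) {s : List (Bool × E)} (hs : s ∈ Z) {b : Bool}
    {S : Finset (Fin 10)} (h : eS c S (part b s) ≠ 0) : S.card ≤ 3 := by
  by_contra hc
  obtain ⟨S', h1, h2⟩ := Finset.exists_subset_card_eq (s := S) (n := 4) (by omega)
  have hF := fac_of_eS H.leb (H.z.clq s hs b) h (Finset.card_pos.1 (by omega))
  exact no_four H.good ⟨x, H.fac⟩ (hF.mono h1) H.card h2 ((H.disj hs h).mono_right h1)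

/-- the link cycle -/
noncomputable def gam (c : E → Fin 10) (Z : Multiset (List (Bool × E))) (τ : Finset (Fin 10)) :
    Multiset (List E) :=
  (Z.filter (fun s => colM c (part true s) = τ.val)).map (part false)

lemma ev_gam (τ : Finset (Fin 10)) (f : List E → ZMod 2) :
    ev f (gam c Z τ) = ev (Tn (eS c τ) f) Z := by
  unfold gam
  rw [ev_map]
  induction Z using Multiset.induction_on with
  | empty => simp
  | cons s Z ih =>
    rw [← Multiset.singleton_add, Multiset.filter_add, ev_add, ev_add, ih, ev_singleton,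
      Multiset.filter_singleton]
    congr 1
    simp only [Tn, eS]
    split_ifs <;> simp [ev]

lemma gam_cycle (H : Ctx c ε r x σ Z) {τ : Finset (Fin 10)} (hτ : τ.card = 3) :
    IsCycle (gam c Z τ) := by
  intro f
  rw [ev_gam]
  have := H.z.cyc (Tn (eS c τ) f)
  rw [ev_congr _ _ _ (fun s _ => dd_Tn _ _ s), ev_fadd, ev_eq_zero, zero_add] at this
  · exact this
  · intro s hs
    simp only [Tn, dd_eS]
    rw [Finset.sum_eq_zero, zero_mul]
    intro v hv
    by_contra hne
    have := H.card_le hs hne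
    rw [Finset.card_insert_of_notMem (Finset.mem_compl.1 hv)] at this
    omega

lemma gam_edges (H : Ctx c ε r x σ Z) {τ : Finset (Fin 10)} (hτ : τ.card = 3) :
    Edges (fun p => ‖p‖ = 1 ∧ c p ∉ σ ∧ c p ∉ τ) r (gam c Z τ) := by
  intro l hl
  obtain ⟨s, hs, rfl⟩ := Multiset.mem_map.1 hl
  rw [Multiset.mem_filter] at hs
  have he : eS c τ (part true s) ≠ 0 := by simp [eS, hs.2]
  obtain ⟨h1, h2, h3⟩ := eS_ne he
  have h4 := length_part s
  rw [H.z.len s hs.1] at h4
  obtain ⟨p, q, hpq⟩ := List.length_eq_two.1 (show (part false s).length = 2 by omega)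
  have key : ∀ p ∈ part false s, ‖p‖ = 1 ∧ c p ∉ σ ∧ c p ∉ τ := by
    intro p hp
    refine ⟨(H.z.clq s hs.1 _ p hp).1, H.col hs.1 hp, fun hc => ?_⟩
    obtain ⟨q, hq, hq'⟩ := h3 _ hc
    exact H.z.far s hs.1 q hq p hp hq'
  refine ⟨p, q, hpq, key p (by simp [hpq]), key q (by simp [hpq]), ?_⟩
  exact (H.z.clq s hs.1 false p (by simp [hpq])).2 q (by simp [hpq])

noncomputable def TT (c : E → Fin 10) (Z : Multiset (List (Bool × E))) (S S' : Finset (Fin 10)) :
    ZMod 2 := ev (Tn (eS c S) (eS c S')) Z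

noncomputable def tt (c : E → Fin 10) (Z : Multiset (List (Bool × E))) (τ : Finset (Fin 10)) :
    ZMod 2 := ev (Tn (eS c τ) (mu c)) Z

noncomputable def AA (c : E → Fin 10) (Z : Multiset (List (Bool × E))) (τ : Finset (Fin 10)) :
    ZMod 2 := ev (Tn (eS c τ) om) Z

lemma TT_symm (H : Ctx c ε r x σ Z) (S S' : Finset (Fin 10)) : TT c Z S S' = TT c Z S' S := by
  unfold TT
  rw [← H.z.symm]
  apply ev_congr
  intro s _
  simp [Tn, part_flp, mul_comm]

lemma TT_supp (H : Ctx c ε r x σ Z) {S S' : Finset (Fin 10)} (h : TT c Z S S' ≠ 0) :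
    Disjoint σ S ∧ Disjoint σ S' ∧ Disjoint S S' ∧ S.card + S'.card = 5 ∧ S.card ≤ 3 ∧
      S'.card ≤ 3 := by
  obtain ⟨s, hs, hne⟩ := exists_of_ev_ne_zero _ _ h
  have h1 := left_ne_zero_of_mul hne
  have h2 := right_ne_zero_of_mul hne
  refine ⟨H.disj hs h1, H.disj hs h2, ?_, ?_, H.card_le hs h1, H.card_le hs h2⟩
  · rw [Finset.disjoint_left]
    intro i hi hi'
    obtain ⟨p, hp, rfl⟩ := (eS_ne h1).2.2 i hi
    obtain ⟨q, hq, hq'⟩ := (eS_ne h2).2.2 _ hi'
    exact H.z.far s hs p hp q hq hq'.symm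
  · rw [← (eS_ne h1).1, ← (eS_ne h2).1, length_part, H.z.len s hs]

lemma rest_three (H : Ctx c ε r x σ Z) {τ : Finset (Fin 10)} (hτ : τ.card = 3)
    (hd : Disjoint σ τ) : ((σ ∪ τ)ᶜ).card = 3 := by
  rw [Finset.card_compl, Finset.card_union_of_disjoint hd, H.card, hτ]; rfl

lemma TT_eq_tt (H : Ctx c ε r x σ Z) {τ ρ : Finset (Fin 10)} (hτ : τ.card = 3) (hρ : ρ.card = 2)
    (h1 : Disjoint σ τ) (h2 : Disjoint σ ρ) (h3 : Disjoint τ ρ) : TT c Z τ ρ = tt c Z τ := by
  have hW := H.rest_three hτ h1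
  have hsub : ρ ⊆ (σ ∪ τ)ᶜ := by
    intro i hi
    simp only [Finset.mem_compl, Finset.mem_union, not_or]
    exact ⟨Finset.disjoint_right.1 h2 hi, Finset.disjoint_right.1 h3 hi⟩
  obtain ⟨w, hw⟩ := Finset.card_eq_one.1 (show ((σ ∪ τ)ᶜ \ ρ).card = 1 by
    rw [Finset.card_sdiff_of_subset hsub, hW, hρ])
  obtain ⟨u, v, huv, rfl⟩ := Finset.card_eq_two.1 hρ
  have hw1 : w ∈ (σ ∪ τ)ᶜ \ {u, v} := by rw [hw]; simp
  have hwu : w ≠ u := by intro h; simp [h] at hw1
  have hwv : w ≠ v := by intro h; simp [h] at hw1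
  have hcol : ∀ i, i ∉ σ → i ∉ τ → i = u ∨ i = v ∨ i = w := by
    intro i a b
    by_contra hc
    push Not at hc
    have : i ∈ (σ ∪ τ)ᶜ \ {u, v} := by simp [a, b, hc.1, hc.2.1]
    rw [hw] at this
    exact hc.2.2 (by simpa using this)
  unfold TT tt
  rw [← ev_gam, ← ev_gam]
  have := cyc_edge (H.gam_cycle hτ) (H.gam_edges hτ) (fun p => if c p = w then 1 else 0)
    (fun s => eS c {u, v} s + mu c s) (fun p q hp hq _ => by
      have e : ∀ a b : Fin 10, (((a :: [b] : List (Fin 10)) : Multiset (Fin 10)) =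
          ({u, v} : Finset (Fin 10)).val) ↔ (a = u ∧ b = v) ∨ (a = v ∧ b = u) := by
        intro a b
        rw [Finset.insert_val_of_notMem (by simpa using huv), Finset.singleton_val,
          ← Multiset.cons_coe, Multiset.coe_singleton, Multiset.cons_eq_cons]
        simp only [Multiset.singleton_inj, Multiset.singleton_eq_cons_iff]
        constructor
        · rintro (h | ⟨h1, cs, ⟨h2, -⟩, h3, -⟩)
          · exact Or.inl h
          · exact Or.inr ⟨h3.symm, h2⟩
        · rintro (h | ⟨rfl, rfl⟩)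
          · exact Or.inl h
          · exact Or.inr ⟨huv.symm, 0, ⟨rfl, rfl⟩, rfl, rfl⟩
      simp only [eS, colM, mu, List.map_cons, List.map_nil, e]
      rcases hcol _ hp.2.1 hp.2.2 with a | a | a <;> rcases hcol _ hq.2.1 hq.2.2 with b | b | b <;>
        simp [a, b, huv, huv.symm, hwu, hwv, hwu.symm, hwv.symm] <;> rfl)
  rw [ev_fadd] at this
  have e := z2 (ev (mu c) (gam c Z τ))
  linear_combination this - e

lemma fac_of_tt (H : Ctx c ε r x σ Z) {τ : Finset (Fin 10)} (hτ : τ.card = 3)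
    {f : List E → ZMod 2} (h : ev (Tn (eS c τ) f) Z ≠ 0) : Fac c τ := by
  obtain ⟨s, hs, hne⟩ := exists_of_ev_ne_zero _ _ h
  exact fac_of_eS H.leb (H.z.clq s hs _) (left_ne_zero_of_mul hne) (Finset.card_pos.1 (by omega))

lemma exists_tt (H : Ctx c ε r x σ Z) : ∃ τ : Finset (Fin 10), τ.card = 3 ∧ Disjoint σ τ ∧
    tt c Z τ ≠ 0 := by
  have h1 := H.z.kf
  simp only [labB_part] at h1
  obtain ⟨⟨M, M'⟩, h2, h3⟩ := ev_key (fun s => (colM c (part true s), colM c (part false s)))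
    (fun κ => altM true (κ.1.map (fun i => 2 * i.val + 1) + κ.2.map (fun i => 2 * i.val))) Z
    (by rw [h1]; decide)
  have h4 := altM_ne_zero _ _ h2
  rw [Multiset.nodup_add] at h4
  have h5 : TT c Z ⟨M, h4.1.of_map _⟩ ⟨M', h4.2.1.of_map _⟩ ≠ 0 := by
    convert h3 using 1
    apply ev_congr
    intro s _
    simp only [Tn, eS, Prod.mk.injEq]
    by_cases a : colM c (part true s) = M <;> by_cases b : colM c (part false s) = M' <;>
      simp [a, b]
  generalize (⟨M, h4.1.of_map _⟩ : Finset (Fin 10)) = S at h5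
  generalize (⟨M', h4.2.1.of_map _⟩ : Finset (Fin 10)) = S' at h5
  obtain ⟨a1, a2, a3, a4, a5, a6⟩ := H.TT_supp h5
  by_cases h3 : S.card = 3
  · exact ⟨S, h3, a1, by rwa [← H.TT_eq_tt h3 (by omega) a1 a2 a3]⟩
  · rw [H.TT_symm] at h5
    exact ⟨S', by omega, a2, by rwa [← H.TT_eq_tt (by omega) (by omega) a2 a1 a3.symm]⟩

noncomputable def DD (c : E → Fin 10) (Z : Multiset (List (Bool × E))) (σ τ : Finset (Fin 10)) :
    ZMod 2 := tt c Z τ + tt c Z (σ ∪ τ)ᶜ

lemma DD_adj (H : Ctx c ε r x σ Z) {ρ : Finset (Fin 10)} {e f : Fin 10} (hρ : ρ.card = 2)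
    (h1 : Disjoint σ ρ) (he : e ∉ σ) (he' : e ∉ ρ) (hf : f ∉ σ) (hf' : f ∉ ρ) (hef : e ≠ f) :
    DD c Z σ (insert e ρ) = DD c Z σ (insert f ρ) := by
  set ρ' : Finset (Fin 10) := (σ ∪ insert e (insert f ρ))ᶜ with hρ'
  have m : ∀ i, i ∈ ρ' ↔ i ∉ σ ∧ i ≠ e ∧ i ≠ f ∧ i ∉ ρ := by
    intro i; simp [hρ', not_or]; tauto
  have hd := Finset.disjoint_left.1 h1
  have hc' : ρ'.card = 2 := by
    rw [hρ', Finset.card_compl, Finset.card_union_of_disjoint, Finset.card_insert_of_notMem,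
      Finset.card_insert_of_notMem hf', H.card, hρ]
    · rfl
    · simp [hef, he']
    · rw [Finset.disjoint_left]; grind
  have hcyc := H.z.cyc (Tn (eS c ρ) (eS c ρ'))
  rw [ev_congr _ _ _ (fun s _ => dd_Tn _ _ s), ev_fadd] at hcyc
  have s1 : ∀ ρ ρ' : Finset (Fin 10), ρ.card = 2 → ρ'.card = 2 → Disjoint σ ρ → Disjoint σ ρ' →
      Disjoint ρ ρ' → e ∉ ρ → e ∉ ρ' → f ∉ ρ → f ∉ ρ' →
      (∀ i, i ∉ σ → i ∉ ρ → i ∉ ρ' → i = e ∨ i = f) →
      ∑ v ∈ ρᶜ, TT c Z (insert v ρ) ρ' = tt c Z (insert e ρ) + tt c Z (insert f ρ) := by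
    intro ρ ρ' c1 c2 d1 d2 d3 e1 e2 f1 f2 hall
    rw [Finset.sum_eq_add_of_mem e f (by simpa using e1) (by simpa using f1) hef]
    · rw [H.TT_eq_tt (by rw [Finset.card_insert_of_notMem e1, c1]) c2
          (by simp [he, d1]) d2 (by simp [e2, d3]),
        H.TT_eq_tt (by rw [Finset.card_insert_of_notMem f1, c1]) c2
          (by simp [hf, d1]) d2 (by simp [f2, d3])]
    · intro v hv hne
      by_contra h0
      obtain ⟨a1, -, a3, -⟩ := H.TT_supp h0
      rw [Finset.disjoint_insert_right] at a1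
      rw [Finset.disjoint_insert_left] at a3
      have := hall v a1.1 (by simpa using hv) a3.1
      tauto
  have d2 : Disjoint σ ρ' := by rw [Finset.disjoint_left]; grind
  have d3 : Disjoint ρ ρ' := by rw [Finset.disjoint_left]; grind
  have e1 : ev (Tn (dd (eS c ρ)) (eS c ρ')) Z = tt c Z (insert e ρ) + tt c Z (insert f ρ) := by
    rw [← s1 ρ ρ' hρ hc' h1 d2 d3 he' (by grind) hf' (by grind) (by grind)]
    unfold TT
    rw [← ev_sum]
    apply ev_congr
    intro s _
    simp only [Tn, dd_eS, Finset.sum_mul]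
  have e2 : ev (Tn (eS c ρ) (dd (eS c ρ'))) Z = tt c Z (insert e ρ') + tt c Z (insert f ρ') := by
    rw [← s1 ρ' ρ hc' hρ d2 h1 d3.symm (by grind) he' (by grind) hf' (by grind)]
    rw [Finset.sum_congr rfl (fun v _ => H.TT_symm (insert v ρ') ρ)]
    unfold TT
    rw [← ev_sum]
    apply ev_congr
    intro s _
    simp only [Tn, dd_eS, Finset.mul_sum]
  rw [e1, e2] at hcyc
  have e3 : (σ ∪ insert e ρ)ᶜ = insert f ρ' := by ext i; simp [m]; grind
  have e4 : (σ ∪ insert f ρ)ᶜ = insert e ρ' := by ext i; simp [m]; grind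
  unfold DD
  rw [e3, e4]
  have := z2 (tt c Z (insert f ρ) + tt c Z (insert e ρ'))
  linear_combination hcyc - this

lemma DD_const (H : Ctx c ε r x σ Z) {τ τ' : Finset (Fin 10)} (hτ : τ.card = 3) (hτ' : τ'.card = 3)
    (h1 : Disjoint σ τ) (h2 : Disjoint σ τ') : DD c Z σ τ = DD c Z σ τ' := by
  induction hn : (τ \ τ').card generalizing τ with
  | zero =>
    rw [Finset.card_eq_zero, Finset.sdiff_eq_empty_iff_subset] at hn
    rw [Finset.eq_of_subset_of_card_le hn (by omega)]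
  | succ n ih =>
    obtain ⟨a, ha⟩ := Finset.card_pos.1 (show 0 < (τ \ τ').card by omega)
    have : (τ' \ τ).card = (τ \ τ').card := Finset.card_sdiff_comm (by omega)
    obtain ⟨b, hb⟩ := Finset.card_pos.1 (show 0 < (τ' \ τ).card by omega)
    rw [Finset.mem_sdiff] at ha hb
    have hc : (τ.erase a).card = 2 := by rw [Finset.card_erase_of_mem ha.1, hτ]
    have hb' : b ∉ τ.erase a := by simp [hb.2]
    have hbσ : b ∉ σ := Finset.disjoint_right.1 h2 hb.1
    have hd : Disjoint σ (τ.erase a) := h1.mono_right (Finset.erase_subset _ _)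
    have := H.DD_adj hc hd (Finset.disjoint_right.1 h1 ha.1) (Finset.notMem_erase a τ) hbσ hb'
      (by rintro rfl; exact ha.2 hb.1)
    rw [Finset.insert_erase ha.1] at this
    rw [this]
    apply ih (by rw [Finset.card_insert_of_notMem hb', hc]) (by simp [hbσ, hd])
    have e : insert b (τ.erase a) \ τ' = (τ \ τ').erase a := by
      ext i
      simp only [Finset.mem_sdiff, Finset.mem_insert, Finset.mem_erase]
      constructor
      · rintro ⟨rfl | h, h'⟩
        · exact absurd hb.1 h'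
        · exact ⟨h.1, h.2, h'⟩
      · rintro ⟨h1, h2, h3⟩
        exact ⟨Or.inr ⟨h1, h2⟩, h3⟩
    rw [e, Finset.card_erase_of_mem (Finset.mem_sdiff.2 ha), hn]
    rfl

lemma not_both (H : Ctx c ε r x σ Z) {τ : Finset (Fin 10)} (h1 : Fac c τ) : ¬ Fac c (σ ∪ τ)ᶜ := by
  intro h2
  obtain ⟨i, a1, a2, a3⟩ := G3 H.good ⟨x, H.fac⟩ h1 h2
  simp [a1, a2] at a3

lemma z2_ne {a : ZMod 2} (h : a ≠ 0) : a = 1 := by revert a; decide

lemma DD_one (H : Ctx c ε r x σ Z) {τ : Finset (Fin 10)} (hτ : τ.card = 3) (h1 : Disjoint σ τ) :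
    DD c Z σ τ = 1 := by
  obtain ⟨τ', a1, a2, a3⟩ := H.exists_tt
  rw [H.DD_const hτ a1 h1 a2]
  unfold DD
  have : tt c Z (σ ∪ τ')ᶜ = 0 := by
    by_contra h
    exact H.not_both (H.fac_of_tt a1 a3) (H.fac_of_tt (H.rest_three a1 a2) h)
  rw [this, z2_ne a3, add_zero]

theorem compl (H : Ctx c ε r x σ Z) {τ : Finset (Fin 10)} (hτ : τ.card = 3) (h1 : Disjoint σ τ) :
    Fac c τ ∨ Fac c (σ ∪ τ)ᶜ := by
  have := H.DD_one hτ h1
  unfold DD at this
  by_cases h : tt c Z τ = 0
  · right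
    rw [h, zero_add] at this
    exact H.fac_of_tt (H.rest_three hτ h1) (f := mu c) (by
      change tt c Z _ ≠ 0
      rw [this]; decide)
  · exact Or.inl (H.fac_of_tt hτ h)

lemma tt_one (H : Ctx c ε r x σ Z) {τ : Finset (Fin 10)} (hτ : τ.card = 3) (h1 : Disjoint σ τ)
    (hF : Fac c τ) : tt c Z τ = 1 := by
  have := H.DD_one hτ h1
  unfold DD at this
  have h2 : tt c Z (σ ∪ τ)ᶜ = 0 := by
    by_contra h
    exact H.not_both hF (H.fac_of_tt (H.rest_three hτ h1) h)
  rwa [h2, add_zero] at this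

lemma AA_one (H : Ctx c ε r x σ Z) {τ : Finset (Fin 10)} (hτ : τ.card = 3) (h1 : Disjoint σ τ)
    (hF : Fac c τ) : AA c Z τ = 1 := by
  have ht := H.tt_one hτ h1 hF
  obtain ⟨u, v, w, huv, -, -, hW⟩ := Finset.card_eq_three.1 (H.rest_three hτ h1)
  have hcol : ∀ i, i ∉ σ → i ∉ τ → i = u ∨ i = v ∨ i = w := by
    intro i a b
    have : i ∈ (σ ∪ τ)ᶜ := by simp [a, b]
    rw [hW] at this
    simpa using this
  obtain ⟨y, hy⟩ := hF
  obtain ⟨b, -, hx2, hx3, hy2, hy3, -⟩ := exists_basis x y 0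
  have he := b.orthonormal.1 2
  have hf := b.orthonormal.1 3
  have hef : ⟪b 2, b 3⟫ = 0 := b.orthonormal.2 (by decide)
  let P : E → Prop := fun p => ‖p‖ = 1 ∧ c p ∉ σ ∧ c p ∉ τ
  have hP : ∀ p q, P p → P q → col3 c u v p = col3 c u v q → 3 * r < |⟪p, q⟫| := by
    intro p q hp hq hk
    rw [col3_eq (w := w) huv (hcol _ hp.2.1 hp.2.2) (hcol _ hq.2.1 hq.2.2)] at hk
    exact H.r2.trans_le (H.good.sep p q hp.1 hq.1 hk)
  have hr : r < 1 := by linarith [H.r1]
  obtain ⟨ℓ, l1, l2, l3, l4⟩ := exists_loop (P := P) H.r0 hr (col3 c u v)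
    (fun x => by simp [col3, H.good.even]) hP he hf hef
    (fun t => by
      have hn := circ_norm he hf hef t
      exact ⟨hn, facAt_perp H.good H.fac hn (by
        simp [circ, inner_add_left, real_inner_smul_left, hx2, hx3]),
        facAt_perp H.good hy hn (by
        simp [circ, inner_add_left, real_inner_smul_left, hy2, hy3])⟩)
  have := three_colour hr (col3 c u v) (fun p hp => hp.1) hP (H.gam_cycle hτ) (H.gam_edges hτ) l1 l2
  rw [l3, l4, mul_one, one_mul] at this
  unfold AA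
  rw [← ev_gam, ← this, ← ht]
  unfold tt
  rw [← ev_gam]
  apply ev_congr
  intro s hs
  obtain ⟨p, q, rfl, hp, hq, -⟩ := H.gam_edges hτ s hs
  simp only [mu, col3_eq (w := w) huv (hcol _ hp.2.1 hp.2.2) (hcol _ hq.2.1 hq.2.2)]

open Classical in
theorem cyc (H : Ctx c ε r x σ Z) {ρ : Finset (Fin 10)} (hρ : ρ.card = 2) (h1 : Disjoint σ ρ) :
    ∑ v ∈ (σ ∪ ρ)ᶜ, (if Fac c (insert v ρ) then (1 : ZMod 2) else 0) = 0 := by
  have hcyc := H.z.cyc (Tn (eS c ρ) om)
  rw [ev_congr _ _ _ (fun s _ => dd_Tn _ _ s), ev_fadd] at hcyc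
  have e2 : ev (Tn (eS c ρ) (dd om)) Z = 0 := by
    apply ev_eq_zero
    intro s hs
    simp only [Tn, dd_om H.r1 (H.z.clq s hs _), mul_zero]
  have e1 : ev (Tn (dd (eS c ρ)) om) Z = ∑ v ∈ ρᶜ, AA c Z (insert v ρ) := by
    unfold AA
    rw [← ev_sum]
    apply ev_congr
    intro s _
    simp only [Tn, dd_eS, Finset.sum_mul]
  rw [e1, e2, add_zero] at hcyc
  refine Eq.trans ?_ hcyc
  rw [← Finset.sum_subset (s₁ := (σ ∪ ρ)ᶜ) (s₂ := ρᶜ) (by intro i; simp)]
  · apply Finset.sum_congr rfl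
    intro v hv
    simp only [Finset.mem_compl, Finset.mem_union, not_or] at hv
    have hc : (insert v ρ).card = 3 := by rw [Finset.card_insert_of_notMem hv.2, hρ]
    split_ifs with hF
    · rw [H.AA_one hc (by simp [hv.1, h1]) hF]
    · by_contra h
      exact hF (H.fac_of_tt hc (Ne.symm h))
  · intro v hv hv'
    by_contra h
    obtain ⟨s, hs, hne⟩ := exists_of_ev_ne_zero _ _ h
    have := H.disj hs (left_ne_zero_of_mul hne)
    simp at this hv hv'
    exact hv (hv' this.1)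

end Ctx

end Crest.Agent.LeadBorsuk
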