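import Crest.Agent.Lead.Chains

set_option autoImplicit false

namespace Crest.Agent.LeadBorsuk
open Crest.Agent.LeadChains

abbrev E := EuclideanSpace ℝ (Fin 4)

local notation "⟪" x ", " y "⟫" => inner ℝ x y

structure Good (c : E → Fin 10) (ε : ℝ) : Prop where
  pos : 0 < ε
  even : ∀ x, c (-x) = c x
  sep : ∀ x y, ‖x‖ = 1 → ‖y‖ = 1 → c x = c y → ε ≤ |⟪x, y⟫|

def FacAt (c : E → Fin 10) (x : E) (σ : Finset (Fin 10)) : Prop :=
  ‖x‖ = 1 ∧ ∀ i ∈ σ, x ∈ closure {y : E | ‖y‖ = 1 ∧ c y = i}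

def Fac (c : E → Fin 10) (σ : Finset (Fin 10)) : Prop := ∃ x, FacAt c x σ

lemma Fac.mono {c : E → Fin 10} {σ τ : Finset (Fin 10)} (h : Fac c σ) (hτ : τ ⊆ σ) : Fac c τ := by
  obtain ⟨x, h1, h2⟩ := h
  exact ⟨x, h1, fun i hi => h2 i (hτ hi)⟩

lemma facAt_sep {c : E → Fin 10} {ε : ℝ} (h : Good c ε) {x : E} {σ : Finset (Fin 10)}
    (hx : FacAt c x σ) {y : E} (hy : ‖y‖ = 1) (hc : c y ∈ σ) : ε ≤ |⟪x, y⟫| := by
  have hcl : IsClosed {z : E | ε ≤ |⟪z, y⟫|} := isClosed_le continuous_const (by fun_prop)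
  have := hx.2 _ hc
  exact closure_minimal (fun z hz => h.sep z y hz.1 hy hz.2) hcl this

lemma facAt_perp {c : E → Fin 10} {ε : ℝ} (h : Good c ε) {x : E} {σ : Finset (Fin 10)}
    (hx : FacAt c x σ) {y : E} (hy : ‖y‖ = 1) (hxy : ⟪y, x⟫ = 0) : c y ∉ σ := by
  intro hc
  have := facAt_sep h hx hy hc
  rw [real_inner_comm, hxy] at this
  simp at this
  linarith [h.pos]

def Near (r : ℝ) (x y : E) : Prop := ‖x - y‖ ≤ r ∨ ‖x + y‖ ≤ r

lemma Near.symm {r : ℝ} {x y : E} (h : Near r x y) : Near r y x := by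
  rcases h with h | h
  · left; rwa [norm_sub_rev]
  · right; rwa [add_comm]

lemma Near.mono {r r' : ℝ} {x y : E} (h : Near r x y) (hr : r ≤ r') : Near r' x y := by
  rcases h with h | h
  · left; linarith
  · right; linarith

lemma lebesgue {c : E → Fin 10} {ε : ℝ} (h : Good c ε) : ∃ r > 0, ∀ (x : E) (σ : Finset (Fin 10)),
    ‖x‖ = 1 → (∀ i ∈ σ, ∃ y, ‖y‖ = 1 ∧ c y = i ∧ Near r x y) → Fac c σ := by
  classical
  let C : Fin 10 → Set E := fun i => closure {y : E | ‖y‖ = 1 ∧ c y = i}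
  let U : Metric.sphere (0 : E) 1 → Set E := fun z => ⋂ i ∈ {i | (z : E) ∉ C i}, (C i)ᶜ
  have hU : ∀ z, IsOpen (U z) := fun z =>
    Set.Finite.isOpen_biInter (Set.toFinite _) (fun i _ => isClosed_closure.isOpen_compl)
  have hcov : Metric.sphere (0 : E) 1 ⊆ ⋃ z, U z := by
    intro z hz
    refine Set.mem_iUnion.2 ⟨⟨z, hz⟩, ?_⟩
    simp only [U, Set.mem_iInter]
    intro i hi
    exact hi
  obtain ⟨δ, hδ, hL⟩ := lebesgue_number_lemma_of_metric (isCompact_sphere (0 : E) 1) hU hcov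
  refine ⟨δ / 2, by positivity, fun x σ hx hσ => ?_⟩
  obtain ⟨z, hz⟩ := hL x (by simpa using hx)
  refine ⟨z, by simpa using z.2, fun i hi => ?_⟩
  obtain ⟨y, hy1, hy2, hy3⟩ := hσ i hi
  have key : ∀ y : E, ‖y‖ = 1 → c y = i → ‖x - y‖ ≤ δ / 2 → (z : E) ∈ C i := by
    intro y hy1 hy2 hy3
    have : y ∈ U z := hz (by rw [Metric.mem_ball, dist_comm, dist_eq_norm]; linarith)
    by_contra hc
    simp only [U, Set.mem_iInter] at this
    exact this i hc (subset_closure ⟨hy1, hy2⟩)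
  rcases hy3 with hy3 | hy3
  · exact key y hy1 hy2 hy3
  · exact key (-y) (by simpa using hy1) (by rw [h.even, hy2]) (by simpa using hy3)

lemma exists_basis (x y z : E) : ∃ b : OrthonormalBasis (Fin 4) ℝ E,
    ⟪b 1, x⟫ = 0 ∧ ⟪b 2, x⟫ = 0 ∧ ⟪b 3, x⟫ = 0 ∧ ⟪b 2, y⟫ = 0 ∧ ⟪b 3, y⟫ = 0 ∧ ⟪b 3, z⟫ = 0 := by
  have hd : Module.finrank ℝ E = Fintype.card (Fin 4) := by simp
  let f : Fin 4 → E := ![x, y, z, 0]
  have k := fun i j (hij : i < j) =>
    InnerProductSpace.gramSchmidtOrthonormalBasis_inv_triangular hd f hij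
  exact ⟨_, k 0 1 (by decide), k 0 2 (by decide), k 0 3 (by decide), k 1 2 (by decide),
    k 1 3 (by decide), k 2 3 (by decide)⟩

theorem G3 {c : E → Fin 10} {ε : ℝ} (h : Good c ε) {σ₁ σ₂ σ₃ : Finset (Fin 10)}
    (h1 : Fac c σ₁) (h2 : Fac c σ₂) (h3 : Fac c σ₃) : ∃ i, i ∉ σ₁ ∧ i ∉ σ₂ ∧ i ∉ σ₃ := by
  obtain ⟨x, hx⟩ := h1
  obtain ⟨y, hy⟩ := h2
  obtain ⟨z, hz⟩ := h3
  obtain ⟨b, -, -, h1, -, h2, h3⟩ := exists_basis x y z
  have hb := b.orthonormal.1 3
  exact ⟨c (b 3), facAt_perp h hx hb h1, facAt_perp h hy hb h2, facAt_perp h hz hb h3⟩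

/-! ### signs -/

noncomputable def sn (t : ℝ) : ZMod 2 := if t < 0 then 1 else 0

lemma near_inner {r : ℝ} {p q z : E} (h : Near r p q) (hz : ‖z‖ = 1) :
    |⟪p, z⟫| ≤ |⟪q, z⟫| + r := by
  rcases h with h | h
  · have := abs_real_inner_le_norm (p - q) z
    rw [inner_sub_left, hz, mul_one] at this
    have := abs_sub_abs_le_abs_sub ⟪p, z⟫ ⟪q, z⟫
    linarith
  · have := abs_real_inner_le_norm (p + q) z
    rw [inner_add_left, hz, mul_one] at this
    have := abs_sub_abs_le_abs_add ⟪p, z⟫ ⟪q, z⟫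
    linarith

lemma sn_near {r : ℝ} {p q z : E} (h : Near r p q) (hp : ‖p‖ = 1) (hz : ‖z‖ = 1) (hr : r < 1)
    (hpz : r < |⟪p, z⟫|) : sn ⟪q, z⟫ = sn ⟪p, z⟫ + sn ⟪p, q⟫ := by
  have hpp : ⟪p, p⟫ = 1 := by rw [real_inner_self_eq_norm_sq, hp]; norm_num
  rcases h with h | h
  · have h1 := abs_real_inner_le_norm (p - q) z
    rw [inner_sub_left, hz, mul_one] at h1
    have h2 := abs_real_inner_le_norm p (p - q)
    rw [inner_sub_right, hp, one_mul, hpp] at h2
    rw [abs_le] at h1 h2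
    have h3 : ¬ ⟪p, q⟫ < 0 := by linarith [h2.2]
    unfold sn
    rcases lt_abs.1 hpz with h4 | h4
    · rw [if_neg h3, if_neg (by linarith [h1.2]), if_neg (by linarith [norm_nonneg (p - q)])]; simp
    · rw [if_neg h3, if_pos (by linarith [h1.1]), if_pos (by linarith [norm_nonneg (p - q)])]; simp
  · have h1 := abs_real_inner_le_norm (p + q) z
    rw [inner_add_left, hz, mul_one] at h1
    have h2 := abs_real_inner_le_norm p (p + q)
    rw [inner_add_right, hp, one_mul, hpp] at h2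
    rw [abs_le] at h1 h2
    have h3 : ⟪p, q⟫ < 0 := by linarith [h2.2]
    unfold sn
    rcases lt_abs.1 hpz with h4 | h4
    · rw [if_pos h3, if_pos (by linarith [h1.2]), if_neg (by linarith [norm_nonneg (p + q)])]; simp
    · rw [if_pos h3, if_neg (by linarith [h1.1]), if_pos (by linarith [norm_nonneg (p + q)])]; rfl

lemma near_self_inner {r : ℝ} {p q : E} (h : Near r p q) (hp : ‖p‖ = 1) :
    1 - r ≤ |⟪q, p⟫| := by
  have := near_inner h hp
  rw [real_inner_self_eq_norm_sq, hp] at this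
  simp at this
  linarith

/-- the orientation cocycle -/
noncomputable def om : List E → ZMod 2
  | [a, b] => sn ⟪a, b⟫
  | _ => 0

/-- the colour change cochain -/
noncomputable def mu {κ : Type*} [DecidableEq κ] (k : E → κ) : List E → ZMod 2
  | [a, b] => if k a = k b then 0 else 1
  | _ => 0

def Clq (r : ℝ) (l : List E) : Prop := ∀ p ∈ l, ‖p‖ = 1 ∧ ∀ q ∈ l, Near r p q

lemma dd_om {r : ℝ} (hr : r < 1 / 2) {l : List E} (h : Clq r l) : dd om l = 0 := by
  match l, h with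
  | [], _ => rfl
  | [a], _ => simp [om]
  | [a, b], _ => simp [om]
  | [a, b, d], h =>
    have ha := h a (by simp)
    have hd := h d (by simp)
    have := sn_near (ha.2 b (by simp)) ha.1 hd.1 (by linarith)
      (by linarith [near_self_inner (hd.2 a (by simp)) hd.1])
    simp only [dd_cons, dd_nil, om, this, add_zero]
    have e1 := z2 (sn ⟪a, d⟫)
    have e2 := z2 (sn ⟪a, b⟫)
    linear_combination e1 + e2
  | a :: b :: d :: e :: l, _ =>
    simp only [dd_cons, om, zero_add]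
    exact dd_zero l

/-- all simplices are edges with property `P` which are short -/
def Edges (P : E → Prop) (r : ℝ) (γ : Multiset (List E)) : Prop :=
  ∀ s ∈ γ, ∃ p q, s = [p, q] ∧ P p ∧ P q ∧ Near r p q

lemma cyc_edge {P : E → Prop} {r : ℝ} {γ : Multiset (List E)} (hγ : IsCycle γ) (he : Edges P r γ)
    (f : E → ZMod 2) (F : List E → ZMod 2) (hF : ∀ p q, P p → P q → Near r p q → F [p, q] = f p + f q) :
    ev F γ = 0 := by
  rw [← hγ (fun l => match l with | [p] => f p | _ => 0)]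
  apply ev_congr
  intro s hs
  obtain ⟨p, q, rfl, hp, hq, hn⟩ := he s hs
  rw [hF p q hp hq hn]
  simp [add_comm]

def pe (j a b : ZMod 3) : ZMod 2 := if (a = j ∧ b = j + 1) ∨ (b = j ∧ a = j + 1) then 1 else 0

lemma pe_eq (j a b : ZMod 3) : pe j a b = (if a = b then 0 else 1) +
    ((if a = j + 2 then 1 else 0) + (if b = j + 2 then 1 else 0)) := by
  revert j a b; decide

lemma pe_closed (a b a' b' : ZMod 3) :
    pe (a' + 2) a b + pe (b' + 2) a b + pe a a' b' + pe b a' b' = 0 := by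
  revert a b a' b'; decide

lemma pe_zero (a b a' b' : ZMod 3) (h : ¬ (a = a' ∨ a = b' ∨ b = a' ∨ b = b')) :
    pe (a' + 2) a b = 0 ∧ pe (b' + 2) a b = 0 ∧ pe a a' b' = 0 ∧ pe b a' b' = 0 := by
  revert a b a' b'; decide

noncomputable def peL (k : E → ZMod 3) (j : ZMod 3) : List E → ZMod 2
  | [a, b] => pe j (k a) (k b)
  | _ => 0

lemma ev_peL {P : E → Prop} {r : ℝ} {γ : Multiset (List E)} (hγ : IsCycle γ) (he : Edges P r γ)
    (k : E → ZMod 3) (j : ZMod 3) : ev (peL k j) γ = ev (mu k) γ := by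
  have := cyc_edge hγ he (fun p => if k p = j + 2 then 1 else 0) (fun s => peL k j s + mu k s)
    (fun p q _ _ _ => by
      simp only [peL, mu, pe_eq]
      have := z2 (if k p = k q then (0 : ZMod 2) else 1)
      linear_combination this)
  rw [ev_fadd] at this
  have e := z2 (ev (mu k) γ)
  linear_combination this - e

lemma square {P : E → Prop} {r : ℝ} (hr : r < 1) (k : E → ZMod 3) (hP1 : ∀ p, P p → ‖p‖ = 1)
    (hP : ∀ p q, P p → P q → k p = k q → 3 * r < |⟪p, q⟫|) {p q p' q' : E} (hp : P p) (hq : P q)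
    (hn : Near r p q) (hp' : P p') (hq' : P q') (hn' : Near r p' q') :
    pe (k q' + 2) (k p) (k q) * sn ⟪p', q'⟫ + pe (k q) (k p') (k q') * sn ⟪p, q⟫ =
      (pe (k p' + 2) (k p) (k q) * sn ⟪p, p'⟫ + pe (k q' + 2) (k p) (k q) * sn ⟪p, q'⟫) +
      (pe (k p) (k p') (k q') * sn ⟪p, p'⟫ + pe (k q) (k p') (k q') * sn ⟪q, p'⟫) := by
  by_cases h : k p = k p' ∨ k p = k q' ∨ k q = k p' ∨ k q = k q'
  · have hr0 : 0 ≤ r := by
      rcases hn with h | h <;> exact le_trans (norm_nonneg _) h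
    have h0 : r < |⟪p, p'⟫| := by
      have e1 := near_inner hn.symm (hP1 _ hp')
      have e2 := near_inner hn'.symm (hP1 _ hp)
      have e3 := near_inner hn'.symm (hP1 _ hq)
      rw [real_inner_comm p q', real_inner_comm p p'] at e2
      rw [real_inner_comm q q', real_inner_comm q p'] at e3
      rcases h with h | h | h | h
      · linarith [hP _ _ hp hp' h]
      · linarith [hP _ _ hp hq' h]
      · linarith [hP _ _ hq hp' h]
      · linarith [hP _ _ hq hq' h]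
    have e1 := sn_near hn (hP1 _ hp) (hP1 _ hp') hr h0
    have e2 := sn_near hn' (hP1 _ hp') (hP1 _ hp) hr (by rwa [real_inner_comm])
    rw [real_inner_comm p q', real_inner_comm p p'] at e2
    rw [e1, e2]
    have := pe_closed (k p) (k q) (k p') (k q')
    linear_combination (-(sn ⟪p, p'⟫)) * this
  · obtain ⟨h1, h2, h3, h4⟩ := pe_zero _ _ _ _ h
    rw [h1, h2, h3, h4]; simp

theorem three_colour {P : E → Prop} {r : ℝ} (hr : r < 1) (k : E → ZMod 3)
    (hP1 : ∀ p, P p → ‖p‖ = 1) (hP : ∀ p q, P p → P q → k p = k q → 3 * r < |⟪p, q⟫|)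
    {γ γ' : Multiset (List E)} (hγ : IsCycle γ) (he : Edges P r γ) (hγ' : IsCycle γ')
    (he' : Edges P r γ') : ev (mu k) γ * ev om γ' = ev (mu k) γ' * ev om γ := by
  let A : List E → List E → ZMod 2 := fun s t => match s, t with
    | [p, q], [p', q'] => pe (k q' + 2) (k p) (k q) * sn ⟪p', q'⟫
    | _, _ => 0
  let B : List E → List E → ZMod 2 := fun s t => match s, t with
    | [p, q], [p', q'] => pe (k q) (k p') (k q') * sn ⟪p, q⟫
    | _, _ => 0
  let C : List E → List E → ZMod 2 := fun s t => match s, t with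
    | [p, q], [p', q'] =>
      pe (k p' + 2) (k p) (k q) * sn ⟪p, p'⟫ + pe (k q' + 2) (k p) (k q) * sn ⟪p, q'⟫
    | _, _ => 0
  let D : List E → List E → ZMod 2 := fun s t => match s, t with
    | [p, q], [p', q'] =>
      pe (k p) (k p') (k q') * sn ⟪p, p'⟫ + pe (k q) (k p') (k q') * sn ⟪q, p'⟫
    | _, _ => 0
  have hA : ev (fun s => ev (fun t => A s t) γ') γ = ev (mu k) γ * ev om γ' := by
    rw [ev_comm, ← ev_mul]
    apply ev_congr
    intro t ht
    obtain ⟨p', q', rfl, -⟩ := he' t ht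
    rw [← ev_peL hγ he k (k q' + 2), ← ev_mul']
    apply ev_congr
    intro s hs
    obtain ⟨p, q, rfl, -⟩ := he s hs
    rfl
  have hB : ev (fun s => ev (fun t => B s t) γ') γ = ev (mu k) γ' * ev om γ := by
    rw [← ev_mul]
    apply ev_congr
    intro s hs
    obtain ⟨p, q, rfl, -⟩ := he s hs
    rw [← ev_peL hγ' he' k (k q), ← ev_mul']
    apply ev_congr
    intro t ht
    obtain ⟨p', q', rfl, -⟩ := he' t ht
    rfl
  have hC : ev (fun s => ev (fun t => C s t) γ') γ = 0 := by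
    apply ev_eq_zero
    intro s hs
    obtain ⟨p, q, rfl, -⟩ := he s hs
    exact cyc_edge hγ' he' (fun z => pe (k z + 2) (k p) (k q) * sn ⟪p, z⟫) _ (fun _ _ _ _ _ => rfl)
  have hD : ev (fun s => ev (fun t => D s t) γ') γ = 0 := by
    rw [ev_comm]
    apply ev_eq_zero
    intro t ht
    obtain ⟨p', q', rfl, -⟩ := he' t ht
    exact cyc_edge hγ he (fun z => pe (k z) (k p') (k q') * sn ⟪z, p'⟫) _ (fun _ _ _ _ _ => rfl)
  have key : ev (fun s => ev (fun t => A s t) γ' + ev (fun t => B s t) γ') γ =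
      ev (fun s => ev (fun t => C s t) γ' + ev (fun t => D s t) γ') γ := by
    apply ev_congr
    intro s hs
    obtain ⟨p, q, rfl, hp, hq, hn⟩ := he s hs
    rw [← ev_fadd, ← ev_fadd]
    apply ev_congr
    intro t ht
    obtain ⟨p', q', rfl, hp', hq', hn'⟩ := he' t ht
    exact square hr k hP1 hP hp hq hn hp' hq' hn'
  rw [ev_fadd, ev_fadd, hA, hB, hC, hD] at key
  have e := z2 (ev (mu k) γ' * ev om γ)
  linear_combination key - e

end Crest.Agent.LeadBorsuk
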