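import Crest.Agent.Lead.BorsukGeom

set_option autoImplicit false

namespace Crest.Agent.LeadBorsuk
open Crest.Agent.LeadChains

local notation "⟪" x ", " y "⟫" => inner ℝ x y

lemma tele (g : ℕ → ZMod 2) (n : ℕ) : ∑ j ∈ Finset.range n, (g (j + 1) + g j) = g n + g 0 := by
  induction n with
  | zero => simp [z2]
  | succ n ih =>
    rw [Finset.sum_range_succ, ih]
    have := z2 (g n)
    linear_combination this

def d3 (a b : ZMod 3) : ZMod 2 := if b = a + 1 then 1 else 0

lemma d3_step (a b a' b' : ZMod 3) (h1 : a ≠ b) (h2 : a' ≠ b') (h3 : a ≠ b') (h4 : a' ≠ b) :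
    (if a = a' then (0 : ZMod 2) else 1) + (if b = b' then 0 else 1) = d3 a' b' + d3 a b := by
  revert a b a' b'; decide

lemma d3_swap (a b : ZMod 3) (h : a ≠ b) : d3 b a + d3 a b = 1 := by
  revert a b; decide

lemma le_of_sq_le_sq' {a b : ℝ} (h : a ^ 2 ≤ b ^ 2) (hb : 0 ≤ b) : a ≤ b :=
  (abs_le_of_sq_le_sq' h hb).2

noncomputable def circ (e f : E) (t : ℝ) : E := Real.cos t • e + Real.sin t • f

lemma circ_inner {e f : E} (he : ‖e‖ = 1) (hf : ‖f‖ = 1) (hef : ⟪e, f⟫ = 0) (s t : ℝ) :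
    ⟪circ e f s, circ e f t⟫ = Real.cos (s - t) := by
  have h1 : ⟪e, e⟫ = 1 := by rw [real_inner_self_eq_norm_sq, he]; norm_num
  have h2 : ⟪f, f⟫ = 1 := by rw [real_inner_self_eq_norm_sq, hf]; norm_num
  have h3 : ⟪f, e⟫ = 0 := by rw [real_inner_comm, hef]
  simp only [circ, inner_add_left, inner_add_right, real_inner_smul_left, real_inner_smul_right,
    h1, h2, h3, hef, Real.cos_sub]
  ring

lemma norm_of_inner {x : E} (h : ⟪x, x⟫ = 1) : ‖x‖ = 1 := by
  rw [real_inner_self_eq_norm_sq] at h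
  nlinarith [norm_nonneg x]

lemma circ_norm {e f : E} (he : ‖e‖ = 1) (hf : ‖f‖ = 1) (hef : ⟪e, f⟫ = 0) (s : ℝ) :
    ‖circ e f s‖ = 1 := norm_of_inner (by rw [circ_inner he hf hef]; simp)

lemma circ_dist {e f : E} (he : ‖e‖ = 1) (hf : ‖f‖ = 1) (hef : ⟪e, f⟫ = 0) (s t : ℝ) :
    ‖circ e f s - circ e f t‖ ≤ |s - t| := by
  have h := norm_sub_sq_real (circ e f s) (circ e f t)
  rw [circ_norm he hf hef, circ_norm he hf hef, circ_inner he hf hef] at h
  have := Real.one_sub_sq_div_two_le_cos (x := s - t)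
  apply le_of_sq_le_sq' _ (abs_nonneg _)
  rw [sq_abs]
  linarith

lemma circ_pi (e f : E) (t : ℝ) : circ e f (t + Real.pi) = - circ e f t := by
  simp [circ, Real.cos_add_pi, Real.sin_add_pi, add_comm]

theorem exists_loop {P : E → Prop} {r : ℝ} (hr0 : 0 < r) (hr : r < 1) (k : E → ZMod 3)
    (hk : ∀ x, k (-x) = k x)
    (hP : ∀ p q, P p → P q → k p = k q → 3 * r < |⟪p, q⟫|) {e f : E} (he : ‖e‖ = 1)
    (hf : ‖f‖ = 1) (hef : ⟪e, f⟫ = 0) (hc : ∀ t, P (circ e f t)) :
    ∃ ℓ, IsCycle ℓ ∧ Edges P r ℓ ∧ ev (mu k) ℓ = 1 ∧ ev om ℓ = 1 := by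
  obtain ⟨m, hm⟩ := exists_nat_gt (Real.pi / (2 * r))
  have hm0 : (0 : ℝ) < m := lt_trans (by positivity) hm
  have hm1 : 0 < m := by exact_mod_cast hm0
  set δ : ℝ := Real.pi / (2 * m) with hδ
  have hδ0 : 0 < δ := by positivity
  have hδr : δ ≤ r := by
    rw [div_lt_iff₀ (by positivity)] at hm
    rw [hδ, div_le_iff₀ (by positivity)]
    linarith
  have hδm : m * δ = Real.pi / 2 := by rw [hδ]; field_simp
  let z : ℕ → E := fun j => circ e f (j * δ)
  let z' : ℕ → E := fun j => if j = 2 * m then z 0 else z j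
  have hz2 : z (2 * m) = - z 0 := by
    simp only [z]
    rw [← circ_pi]
    congr 1
    push_cast
    linarith
  have hz' : ∀ j, z' j = z j ∨ z' j = - z j := by
    intro j
    by_cases h : j = 2 * m
    · right; simp only [z', if_pos h]; rw [h, hz2, neg_neg]
    · left; simp only [z', if_neg h]
  have hkz : ∀ j, k (z' j) = k (z j) := by
    intro j
    rcases hz' j with h | h <;> rw [h]
    exact hk _
  have hev : ∀ F : List E → ZMod 2,
      ev F ((Multiset.range (2 * m)).map (fun j => [z' j, z' (j + 1)])) =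
        ∑ j ∈ Finset.range (2 * m), F [z' j, z' (j + 1)] := by
    intro F
    simp only [ev, Multiset.map_map]
    rfl
  have hcos : 0 < Real.cos δ := by
    have := Real.one_sub_sq_div_two_le_cos (x := δ)
    nlinarith
  have hzz : ∀ i j : ℕ, ⟪z i, z j⟫ = Real.cos ((i - j) * δ) := by
    intro i j
    simp only [z]
    rw [circ_inner he hf hef]
    congr 1; ring
  refine ⟨(Multiset.range (2 * m)).map (fun j => [z' j, z' (j + 1)]), ?_, ?_, ?_, ?_⟩
  · intro F
    rw [hev]
    simp only [dd_cons, dd_nil, add_zero]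
    rw [tele (fun j => F [z' j])]
    have : z' 0 = z 0 := by simp only [z']; rw [if_neg (by omega)]
    rw [this]
    simp only [z', if_true]
    exact z2 _
  · intro s hs
    obtain ⟨j, hj, rfl⟩ := Multiset.mem_map.1 hs
    rw [Multiset.mem_range] at hj
    have hP' : ∀ j, P (z' j) := by
      intro j
      simp only [z']
      split_ifs
      · exact hc _
      · exact hc _
    refine ⟨_, _, rfl, hP' _, hP' _, ?_⟩
    have h1 : z' j = z j := by simp only [z']; rw [if_neg (by omega)]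
    have h2 : ‖z j - z (j + 1)‖ ≤ r := by
      refine (circ_dist he hf hef _ _).trans ?_
      push_cast
      rw [show (j : ℝ) * δ - (j + 1) * δ = -δ by ring, abs_neg, abs_of_pos hδ0]
      exact hδr
    rw [h1]
    rcases hz' (j + 1) with h | h <;> rw [h]
    · left; exact h2
    · right; rwa [← sub_eq_add_neg]
  · rw [hev]
    simp only [mu, hkz]
    rw [two_mul, Finset.sum_range_add, ← Finset.sum_add_distrib]
    have hne : ∀ i j : ℕ, |Real.cos ((i - j) * δ)| ≤ r → k (z i) ≠ k (z j) := by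
      intro i j h hk'
      have := hP _ _ (hc _) (hc _) hk'
      change 3 * r < |⟪z i, z j⟫| at this
      rw [hzz] at this
      linarith
    have hsin : |Real.sin δ| ≤ r := (Real.abs_sin_le_abs).trans (by rw [abs_of_pos hδ0]; exact hδr)
    have hq : ∀ i : ℕ, k (z i) ≠ k (z (m + i)) := by
      intro i
      apply hne
      rw [show ((i : ℝ) - (m + i : ℕ)) * δ = -(Real.pi / 2) by push_cast; linarith]
      simp [hr0.le]
    rw [Finset.sum_congr rfl (g := fun j => d3 (k (z (j + 1))) (k (z (m + (j + 1)))) +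
      d3 (k (z j)) (k (z (m + j)))), tele (fun j => d3 (k (z j)) (k (z (m + j))))]
    · rw [← two_mul, hz2, hk]
      exact d3_swap _ _ (hq 0)
    · intro j _
      apply d3_step _ _ _ _ (hq j) (hq (j + 1))
      · apply hne
        rw [show ((j : ℝ) - (m + (j + 1) : ℕ)) * δ = -(δ + Real.pi / 2) by push_cast; linarith]
        rw [Real.cos_neg, Real.cos_add_pi_div_two, abs_neg]
        exact hsin
      · apply hne
        rw [show (((j + 1 : ℕ) : ℝ) - (m + j : ℕ)) * δ = δ - Real.pi / 2 by push_cast; linarith]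
        rw [Real.cos_sub_pi_div_two]
        exact hsin
  · rw [hev]
    obtain ⟨n, hn⟩ : ∃ n, 2 * m = n + 1 := ⟨2 * m - 1, by omega⟩
    have h0 : ∑ j ∈ Finset.range n, om [z' j, z' (j + 1)] = 0 := by
      apply Finset.sum_eq_zero
      intro j hj
      rw [Finset.mem_range] at hj
      have h1 : z' j = z j := by simp only [z']; rw [if_neg (by omega)]
      have h2 : z' (j + 1) = z (j + 1) := by simp only [z']; rw [if_neg (by omega)]
      rw [h1, h2, om, hzz]
      rw [show ((j : ℝ) - (j + 1 : ℕ)) * δ = -δ by push_cast; ring, Real.cos_neg, sn,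
        if_neg (by linarith)]
    have h1 : z' n = z n := by simp only [z']; rw [if_neg (by omega)]
    have h2 : z' (n + 1) = - z (n + 1) := by
      simp only [z']; rw [if_pos hn.symm, ← hn, hz2, neg_neg]
    rw [hn, Finset.sum_range_succ, h0, h1, h2, om, inner_neg_right, hzz]
    rw [show ((n : ℝ) - (n + 1 : ℕ)) * δ = -δ by push_cast; ring, Real.cos_neg, sn,
        if_pos (by linarith)]
    simp

/-- reduce three colours to `ZMod 3` -/
def col3 (c : E → Fin 10) (u v : Fin 10) (p : E) : ZMod 3 :=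
  if c p = u then 0 else if c p = v then 1 else 2

lemma col3_eq {c : E → Fin 10} {u v w : Fin 10} (huv : u ≠ v) {p q : E}
    (hp : c p = u ∨ c p = v ∨ c p = w) (hq : c q = u ∨ c q = v ∨ c q = w) :
    col3 c u v p = col3 c u v q ↔ c p = c q := by
  constructor
  · intro h
    unfold col3 at h
    split_ifs at h <;> first | (exact absurd h (by decide)) | grind
  · intro h
    unfold col3
    rw [h]

theorem propD {c : E → Fin 10} {ε : ℝ} (h : Good c ε) {σ₁ σ₂ : Finset (Fin 10)}
    (h1 : Fac c σ₁) (h2 : Fac c σ₂) {u v : Fin 10} (huv : u ≠ v) :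
    ∃ i, i ∉ σ₁ ∧ i ∉ σ₂ ∧ i ≠ u ∧ i ≠ v := by
  by_contra hc
  push Not at hc
  obtain ⟨x, hx⟩ := h1
  obtain ⟨y, hy⟩ := h2
  obtain ⟨b, -, hx2, hx3, hy2, hy3, -⟩ := exists_basis x y 0
  have he := b.orthonormal.1 2
  have hf := b.orthonormal.1 3
  have hef : ⟪b 2, b 3⟫ = 0 := b.orthonormal.2 (by decide)
  let P : E → Prop := fun p => ‖p‖ = 1 ∧ (c p = u ∨ c p = v)
  have hε := h.pos
  obtain ⟨ℓ, h1, h2, h3, -⟩ := exists_loop (P := P) (r := min (ε / 4) (1 / 2)) (by positivity)
    (lt_of_le_of_lt (min_le_right _ _) (by norm_num)) (col3 c u v)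
    (fun x => by simp [col3, h.even])
    (fun p q hp hq hk => by
      rw [col3_eq (w := u) huv (by tauto) (by tauto)] at hk
      have := h.sep p q hp.1 hq.1 hk
      have := min_le_left (ε / 4) (1 / 2)
      linarith) he hf hef
    (fun t => by
      have hn := circ_norm he hf hef t
      refine ⟨hn, ?_⟩
      have a1 := facAt_perp h hx hn (by
        simp [circ, inner_add_left, real_inner_smul_left, hx2, hx3])
      have a2 := facAt_perp h hy hn (by
        simp [circ, inner_add_left, real_inner_smul_left, hy2, hy3])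
      have := hc _ a1 a2
      tauto)
  rw [← ev_peL h1 h2 _ 1, ev_eq_zero] at h3
  · exact absurd h3 (by decide)
  · intro s hs
    obtain ⟨p, q, rfl, hp, hq, -⟩ := h2 s hs
    simp only [peL, col3]
    rcases hp.2 with a | a <;> rcases hq.2 with b | b <;> simp [a, b, huv.symm] <;> decide

theorem F0 {c : E → Fin 10} {ε : ℝ} (h : Good c ε) : ∃ σ, σ.card = 4 ∧ Fac c σ := by
  classical
  obtain ⟨r0, hr0, hL⟩ := lebesgue h
  have hε := h.pos
  set r := min r0 (ε / 2) with hr
  have hr1 : 0 < r := by positivity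
  obtain ⟨ch, hch⟩ := exists_hemi (n := 4) 3 (by norm_num) (r / 8) (by positivity)
  let T : (Fin 4 → ℝ) → E := fun a => WithLp.toLp 2 a
  let N : (Fin 4 → ℝ) → E := fun a => ‖T a‖⁻¹ • T a
  have hT : ∀ a : Fin 4 → ℝ, ∑ i, |a i| = 1 → 1 / 2 ≤ ‖T a‖ := by
    intro a ha
    apply le_of_sq_le_sq' _ (norm_nonneg _)
    rw [EuclideanSpace.real_norm_sq_eq]
    simp only [Fin.sum_univ_four, T] at ha ⊢
    rw [← sq_abs (a 0), ← sq_abs (a 1), ← sq_abs (a 2), ← sq_abs (a 3)]
    nlinarith [sq_nonneg (|a 0| - 1 / 4), sq_nonneg (|a 1| - 1 / 4), sq_nonneg (|a 2| - 1 / 4),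
      sq_nonneg (|a 3| - 1 / 4)]
  have hN1 : ∀ a : Fin 4 → ℝ, ∑ i, |a i| = 1 → ‖N a‖ = 1 := by
    intro a ha
    have := hT a ha
    simp only [N, norm_smul, norm_inv, norm_norm]
    exact inv_mul_cancel₀ (by linarith)
  have hNn : ∀ a, N (-a) = - N a := by
    intro a
    have : T (-a) = - T a := rfl
    simp only [N, this, norm_neg, smul_neg]
  have hNd : ∀ a b : Fin 4 → ℝ, ∑ i, |a i| = 1 → ∑ i, |b i| = 1 → (∀ i, |a i - b i| ≤ r / 8) →
      ‖N a - N b‖ ≤ r := by
    intro a b ha hb hab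
    have h1 := hT a ha
    have h2 := hT b hb
    have h3 : ‖T a - T b‖ ≤ r / 4 := by
      apply le_of_sq_le_sq' _ (by positivity)
      rw [EuclideanSpace.real_norm_sq_eq]
      simp only [Fin.sum_univ_four, T, PiLp.sub_apply]
      have k : ∀ i, (a i - b i) ^ 2 ≤ (r / 8) ^ 2 := fun i => by
        rw [← sq_abs]; exact pow_le_pow_left₀ (abs_nonneg _) (hab i) 2
      nlinarith [k 0, k 1, k 2, k 3]
    have e : N a - N b = ‖T a‖⁻¹ • (T a - T b) + (‖T a‖⁻¹ * (‖T b‖ - ‖T a‖)) • N b := by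
      simp only [N, smul_sub, smul_smul]
      have : ‖T a‖⁻¹ * (‖T b‖ - ‖T a‖) * ‖T b‖⁻¹ = ‖T a‖⁻¹ - ‖T b‖⁻¹ := by
        field_simp
      rw [this, sub_smul]
      abel
    have h4 : ‖T a‖⁻¹ ≤ 2 := by
      rw [inv_le_comm₀ (by linarith) (by norm_num)]; linarith
    have h5 : 0 ≤ ‖T a‖⁻¹ := by positivity
    have h6 : |‖T b‖ - ‖T a‖| ≤ r / 4 := by
      rw [abs_sub_comm]; exact (abs_norm_sub_norm_le _ _).trans h3
    rw [e]
    refine (norm_add_le _ _).trans ?_
    rw [norm_smul, norm_smul, hN1 b hb, Real.norm_eq_abs, Real.norm_eq_abs, abs_mul,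
      abs_of_nonneg h5]
    nlinarith [norm_nonneg (T a - T b), abs_nonneg (‖T b‖ - ‖T a‖)]
  let p : Fin 10 → E := fun i => Classical.epsilon (fun y : E => ‖y‖ = 1 ∧ c y = i)
  have hp : ∀ y : E, ‖y‖ = 1 → ε ≤ |⟪y, p (c y)⟫| := by
    intro y hy
    have := Classical.epsilon_spec (p := fun z : E => ‖z‖ = 1 ∧ c z = c y) ⟨y, hy, rfl⟩
    exact h.sep _ _ hy this.1 this.2.symm
  have hp1 : ∀ y : E, ‖y‖ = 1 → ‖p (c y)‖ = 1 := by
    intro y hy
    exact (Classical.epsilon_spec (p := fun z : E => ‖z‖ = 1 ∧ c z = c y) ⟨y, hy, rfl⟩).1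
  let lab : (Fin 4 → ℝ) → ℕ := fun a => 2 * (c (N a)).val + if 0 < ⟪N a, p (c (N a))⟫ then 1 else 0
  have hlab : ∀ a, lab a / 2 = (c (N a)).val := by
    intro a; simp only [lab]; split_ifs <;> omega
  have hR2 : ∀ s, Small 3 (r / 8) s → ∀ v ∈ s, ∀ w ∈ s, lab v / 2 = lab w / 2 → lab v = lab w := by
    intro s hs v hv w hw hvw
    rw [hlab, hlab, Fin.val_inj] at hvw
    have h1 := hN1 v (hs.1 v hv).1
    have h2 := hN1 w (hs.1 w hw).1
    have h3 := hNd v w (hs.1 v hv).1 (hs.1 w hw).1 (hs.2 v hv w hw)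
    have h4 := hp _ h1
    have h5 := abs_real_inner_le_norm (N v - N w) (p (c (N v)))
    rw [hp1 _ h1, inner_sub_left, mul_one, abs_le] at h5
    have h6 : r ≤ ε / 2 := min_le_right _ _
    simp only [lab]
    rw [← hvw]
    congr 1
    rcases le_abs.1 h4 with h7 | h7
    · rw [if_pos (by linarith), if_pos (by linarith [h5.2])]
    · rw [if_neg (by linarith), if_neg (by linarith [h5.1])]
  have hK := kyfan lab (fun s hs v hv => by
      have h1 := hN1 v (hs.1 v hv).1
      have h4 := hp _ h1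
      simp only [lab, hNn, h.even, inner_neg_left, flipL]
      rcases le_abs.1 h4 with h7 | h7
      · rw [if_neg (by linarith), if_pos (show 0 < ⟪N v, p (c (N v))⟫ by linarith),
          if_pos (by omega)]
        omega
      · rw [if_pos (by linarith), if_neg (show ¬ 0 < ⟪N v, p (c (N v))⟫ by linarith),
          if_neg (by omega)]) hR2 hch
  rw [ev_sym] at hK
  have hex : ∃ s, Small 3 (r / 8) s ∧ s.length = 4 ∧ (s.map lab).Nodup := by
    by_contra hc
    push Not at hc
    rw [ev_eq_zero, ev_eq_zero] at hK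
    · exact absurd hK (by decide)
    · intro s hs
      by_contra hne
      have h1 := hch.mem s hs
      refine hc (s.map (fun a => -a)) ⟨?_, ?_⟩ (by simpa using h1.2) (altM_ne_zero _ _ hne)
      · intro a ha
        obtain ⟨a', ha', rfl⟩ := List.mem_map.1 ha
        exact ⟨by simpa using (h1.1.1 a' ha').1, fun i hi => by simp [(h1.1.1 a' ha').2 i hi]⟩
      · intro a ha b hb i
        obtain ⟨a', ha', rfl⟩ := List.mem_map.1 ha
        obtain ⟨b', hb', rfl⟩ := List.mem_map.1 hb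
        have := h1.1.2 a' ha' b' hb' i
        rw [abs_sub_comm] at this
        simpa [sub_eq_add_neg, add_comm] using this
    · intro s hs
      by_contra hne
      have h1 := hch.mem s hs
      exact hc s h1.1 h1.2 (altM_ne_zero _ _ hne)
  obtain ⟨s, hs, hl, hnd⟩ := hex
  have hnd' : (s.map (fun a => c (N a))).Nodup := by
    rw [List.Nodup, List.pairwise_map] at hnd ⊢
    refine hnd.imp_of_mem ?_
    intro a b ha hb hab hc
    exact hab (hR2 s hs a ha b hb (by rw [hlab, hlab, hc]))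
  refine ⟨(s.map (fun a => c (N a))).toFinset, ?_, ?_⟩
  · rw [List.toFinset_card_of_nodup hnd']; simpa using hl
  · obtain ⟨a, ha⟩ : ∃ a, a ∈ s := List.exists_mem_of_length_pos (by omega)
    apply hL (N a) _ (hN1 a (hs.1 a ha).1)
    intro i hi
    rw [List.mem_toFinset, List.mem_map] at hi
    obtain ⟨b, hb, rfl⟩ := hi
    refine ⟨N b, hN1 b (hs.1 b hb).1, rfl, Or.inl ?_⟩
    exact (hNd a b (hs.1 a ha).1 (hs.1 b hb).1 (hs.2 a ha b hb)).trans (min_le_left _ _)

end Crest.Agent.LeadBorsuk
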