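import Mathlib

set_option autoImplicit false

namespace Crest.Agent.LeadBorsuk

/-- traceless quadratic forms in three variables -/
def qf (a : Fin 5 → ℝ) (y : Fin 3 → ℝ) : ℝ :=
  a 0 * (y 0 ^ 2 - y 2 ^ 2) + a 1 * (y 1 ^ 2 - y 2 ^ 2) + 2 * a 2 * y 0 * y 1 +
    2 * a 3 * y 0 * y 2 + 2 * a 4 * y 1 * y 2

def n2 (y : Fin 3 → ℝ) : ℝ := y 0 ^ 2 + y 1 ^ 2 + y 2 ^ 2
def dot3 (y z : Fin 3 → ℝ) : ℝ := y 0 * z 0 + y 1 * z 1 + y 2 * z 2

def IsTop (a : Fin 5 → ℝ) (y : Fin 3 → ℝ) : Prop :=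
  n2 y = 1 ∧ ∀ w, |qf a w| ≤ |qf a y| * n2 w

lemma qf_neg (a : Fin 5 → ℝ) (y : Fin 3 → ℝ) : qf (-a) y = - qf a y := by
  simp [qf]; ring

lemma exists_top (a : Fin 5 → ℝ) : ∃ y, IsTop a y := by
  have hS : IsCompact {y : Fin 3 → ℝ | n2 y = 1} := by
    apply Metric.isCompact_of_isClosed_isBounded
    · apply isClosed_eq _ continuous_const
      unfold n2; fun_prop
    · apply (Metric.isBounded_closedBall (x := (0 : Fin 3 → ℝ)) (r := 1)).subset
      intro y hy
      simp only [Set.mem_setOf_eq, n2] at hy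
      rw [mem_closedBall_zero_iff, pi_norm_le_iff_of_nonneg (by norm_num)]
      intro i
      have h3 : y 0 ^ 2 ≤ 1 ∧ y 1 ^ 2 ≤ 1 ∧ y 2 ^ 2 ≤ 1 := by
        refine ⟨?_, ?_, ?_⟩ <;> nlinarith [sq_nonneg (y 0), sq_nonneg (y 1), sq_nonneg (y 2)]
      rw [Real.norm_eq_abs, ← sq_le_one_iff_abs_le_one]
      fin_cases i
      · exact h3.1
      · exact h3.2.1
      · exact h3.2.2
  have hne : ({y : Fin 3 → ℝ | n2 y = 1}).Nonempty := ⟨![1, 0, 0], by simp [n2]⟩
  have hc : Continuous (fun y => |qf a y|) := by unfold qf; fun_prop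
  obtain ⟨y, hy, hmax⟩ := hS.exists_isMaxOn hne hc.continuousOn
  refine ⟨y, hy, fun w => ?_⟩
  have hw0 : 0 ≤ n2 w := by unfold n2; positivity
  rcases hw0.eq_or_lt with h0 | hpos
  · have h1 : w 0 = 0 := by unfold n2 at h0; nlinarith [sq_nonneg (w 0), sq_nonneg (w 1), sq_nonneg (w 2)]
    have h2 : w 1 = 0 := by unfold n2 at h0; nlinarith [sq_nonneg (w 0), sq_nonneg (w 1), sq_nonneg (w 2)]
    have h3 : w 2 = 0 := by unfold n2 at h0; nlinarith [sq_nonneg (w 0), sq_nonneg (w 1), sq_nonneg (w 2)]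
    simp [qf, h1, h2, h3, n2]
  · set t := Real.sqrt (n2 w) with ht
    have ht2 : t ^ 2 = n2 w := Real.sq_sqrt hw0
    have htp : 0 < t := Real.sqrt_pos.2 hpos
    have hw' : n2 (fun i => w i / t) = 1 := by
      unfold n2 at *
      field_simp
      linarith
    have := hmax hw'
    simp only [Set.mem_setOf_eq] at this
    have e : qf a w = qf a (fun i => w i / t) * n2 w := by
      rw [← ht2]; unfold qf; field_simp
    rw [e, abs_mul, abs_of_pos hpos]
    exact mul_le_mul_of_nonneg_right this hw0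

noncomputable def top (a : Fin 5 → ℝ) : Fin 3 → ℝ := Classical.epsilon (IsTop a)

lemma top_spec (a : Fin 5 → ℝ) : IsTop a (top a) := Classical.epsilon_spec (exists_top a)

lemma top_neg (a : Fin 5 → ℝ) : top (-a) = top a := by
  unfold top
  congr 1
  funext y
  simp [IsTop, qf_neg]

lemma top_lower (a : Fin 5 → ℝ) (ha : ∑ i, |a i| = 1) : 1 / 7 ≤ |qf a (top a)| := by
  have h := (top_spec a).2
  set m := |qf a (top a)|
  have h0 := h ![1, 0, 0]
  have h1 := h ![0, 1, 0]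
  have h2 := h ![0, 0, 1]
  have h3 := h ![1, 1, 0]
  have h4 := h ![1, 0, 1]
  have h5 := h ![0, 1, 1]
  simp only [qf, n2, Matrix.cons_val_zero, Matrix.cons_val_one, Matrix.cons_val] at h0 h1 h2 h3 h4 h5
  rw [abs_le] at h0 h1 h2 h3 h4 h5
  rw [Fin.sum_univ_five] at ha
  have e0 : |a 0| ≤ m := abs_le.2 ⟨by linarith, by linarith⟩
  have e1 : |a 1| ≤ m := abs_le.2 ⟨by linarith, by linarith⟩
  have e2 : |a 2| ≤ 3 / 2 * m := abs_le.2 ⟨by linarith, by linarith⟩
  have e3 : |a 3| ≤ 3 / 2 * m := abs_le.2 ⟨by linarith, by linarith⟩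
  have e4 : |a 4| ≤ 3 / 2 * m := abs_le.2 ⟨by linarith, by linarith⟩
  linarith

lemma qf_close (a b : Fin 5 → ℝ) (η : ℝ) (hab : ∀ i, |a i - b i| ≤ η) (y : Fin 3 → ℝ)
    (hy : n2 y = 1) : |qf a y - qf b y| ≤ 5 * η := by
  unfold n2 at hy
  have e : qf a y - qf b y = (a 0 - b 0) * (y 0 ^ 2 - y 2 ^ 2) + (a 1 - b 1) * (y 1 ^ 2 - y 2 ^ 2) +
      (a 2 - b 2) * (2 * y 0 * y 1) + (a 3 - b 3) * (2 * y 0 * y 2) +
      (a 4 - b 4) * (2 * y 1 * y 2) := by unfold qf; ring
  have k : ∀ (i : Fin 5) (t : ℝ), |t| ≤ 1 → |(a i - b i) * t| ≤ η := by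
    intro i t ht
    rw [abs_mul]
    have := hab i
    have := abs_nonneg (a i - b i)
    have := abs_nonneg t
    nlinarith
  have s0 := sq_nonneg (y 0)
  have s1 := sq_nonneg (y 1)
  have s2 := sq_nonneg (y 2)
  have k0 := k 0 (y 0 ^ 2 - y 2 ^ 2) (abs_le.2 ⟨by linarith, by linarith⟩)
  have k1 := k 1 (y 1 ^ 2 - y 2 ^ 2) (abs_le.2 ⟨by linarith, by linarith⟩)
  have k2 := k 2 (2 * y 0 * y 1) (abs_le.2 ⟨by nlinarith [sq_nonneg (y 0 + y 1)], by nlinarith [sq_nonneg (y 0 - y 1)]⟩)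
  have k3 := k 3 (2 * y 0 * y 2) (abs_le.2 ⟨by nlinarith [sq_nonneg (y 0 + y 2)], by nlinarith [sq_nonneg (y 0 - y 2)]⟩)
  have k4 := k 4 (2 * y 1 * y 2) (abs_le.2 ⟨by nlinarith [sq_nonneg (y 1 + y 2)], by nlinarith [sq_nonneg (y 1 - y 2)]⟩)
  rw [e]
  rw [abs_le] at *
  constructor <;> linarith [k0.1, k0.2, k1.1, k1.2, k2.1, k2.2, k3.1, k3.2, k4.1, k4.2]

lemma opp_core' (a : Fin 5 → ℝ) (y z : Fin 3 → ℝ) (l η : ℝ)
    (hb : ∀ w, |qf a w| ≤ l * n2 w) (hy : n2 y = 1) (hz : n2 z = 1) (hs : 0 ≤ dot3 y z)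
    (h : 2 * l - η ≤ qf a y - qf a z) : l * dot3 y z ^ 2 ≤ η := by
  set s := dot3 y z with hsdef
  have h1 := (abs_le.1 (hb (fun i => (1 + s) * (y i - z i) + (y i + z i)))).2
  have h2 := (abs_le.1 (hb (fun i => (1 + s) * (y i - z i) - (y i + z i)))).1
  have e1 : qf a (fun i => (1 + s) * (y i - z i) + (y i + z i)) -
      qf a (fun i => (1 + s) * (y i - z i) - (y i + z i)) = 4 * (1 + s) * (qf a y - qf a z) := by
    unfold qf; ring
  have e2 : n2 (fun i => (1 + s) * (y i - z i) + (y i + z i)) +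
      n2 (fun i => (1 + s) * (y i - z i) - (y i + z i)) = 4 * (1 + s) * (2 - s ^ 2) := by
    have hs' : y 0 * z 0 + y 1 * z 1 + y 2 * z 2 = s := rfl
    unfold n2 at *
    linear_combination (2 * (1 + s) ^ 2 + 2) * hy + (2 * (1 + s) ^ 2 + 2) * hz +
      (4 - 4 * (1 + s) ^ 2) * hs'
  have h3 : 4 * (1 + s) * (qf a y - qf a z) ≤ 4 * (1 + s) * (l * (2 - s ^ 2)) := by
    rw [← e1]
    have : l * n2 (fun i => (1 + s) * (y i - z i) + (y i + z i)) +
      l * n2 (fun i => (1 + s) * (y i - z i) - (y i + z i)) = 4 * (1 + s) * (l * (2 - s ^ 2)) := by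
      rw [← mul_add, e2]; ring
    linarith
  have h4 := le_of_mul_le_mul_left h3 (by positivity)
  linarith

lemma opp_core (a : Fin 5 → ℝ) (y z : Fin 3 → ℝ) (l η : ℝ)
    (hb : ∀ w, |qf a w| ≤ l * n2 w) (hy : n2 y = 1) (hz : n2 z = 1)
    (h : 2 * l - η ≤ qf a y - qf a z) : l * dot3 y z ^ 2 ≤ η := by
  rcases le_total 0 (dot3 y z) with hs | hs
  · exact opp_core' a y z l η hb hy hz hs h
  · have := opp_core' a y (-z) l η hb hy (by simpa [n2] using hz)
      (by simp only [dot3, Pi.neg_apply] at *; linarith)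
      (by have : qf a (-z) = qf a z := by simp [qf]
          rw [this]; exact h)
    have e : dot3 y (-z) ^ 2 = dot3 y z ^ 2 := by simp only [dot3, Pi.neg_apply]; ring
    rwa [e] at this

/-- bilinear form -/
def bf (a : Fin 5 → ℝ) (y w : Fin 3 → ℝ) : ℝ :=
  a 0 * (y 0 * w 0 - y 2 * w 2) + a 1 * (y 1 * w 1 - y 2 * w 2) + a 2 * (y 0 * w 1 + y 1 * w 0) +
    a 3 * (y 0 * w 2 + y 2 * w 0) + a 4 * (y 1 * w 2 + y 2 * w 1)

lemma same_core (a : Fin 5 → ℝ) (y z : Fin 3 → ℝ) (l η : ℝ) (hl : 0 < l)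
    (hb : ∀ w, |qf a w| ≤ l * n2 w) (hy : n2 y = 1) (hz : n2 z = 1) (hq : qf a y = l)
    (h : l - η ≤ qf a z) : l * (1 - dot3 y z ^ 2) ≤ η := by
  set s := dot3 y z with hsdef
  have hs' : y 0 * z 0 + y 1 * z 1 + y 2 * z 2 = s := rfl
  let w : Fin 3 → ℝ := fun i => z i - s * y i
  have hw : n2 w = 1 - s ^ 2 := by
    simp only [n2, w] at *
    linear_combination hz + s ^ 2 * hy - 2 * s * hs'
  have hyw : dot3 y w = 0 := by
    simp only [n2, w, dot3] at *
    linear_combination hs' - s * hy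
  -- B(y,w) = 0
  have hB : bf a y w = 0 := by
    have key : ∀ t : ℝ, 2 * t * bf a y w ≤ t ^ 2 * (2 * l * n2 w) := by
      intro t
      have h1 := (abs_le.1 (hb (fun i => y i + t * w i))).2
      have h2 := (abs_le.1 (hb w)).1
      have e1 : qf a (fun i => y i + t * w i) = qf a y + 2 * t * bf a y w + t ^ 2 * qf a w := by
        unfold qf bf; ring
      have e2 : n2 (fun i => y i + t * w i) = 1 + t ^ 2 * n2 w := by
        simp only [n2, dot3] at *
        linear_combination hy + 2 * t * hyw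
      rw [e1, e2, hq] at h1
      nlinarith [sq_nonneg t]
    set B := bf a y w
    set K := 2 * l * n2 w
    have hK : 0 ≤ K := by
      have : 0 ≤ n2 w := by unfold n2; positivity
      positivity
    by_contra hne
    have hB2 : 0 < B ^ 2 := by positivity
    have := key (B / (K + 1))
    have hK1 : 0 < K + 1 := by linarith
    have e : 2 * (B / (K + 1)) * B - (B / (K + 1)) ^ 2 * K = B ^ 2 * (K + 2) / (K + 1) ^ 2 := by
      field_simp; ring
    have : 0 < B ^ 2 * (K + 2) / (K + 1) ^ 2 := by positivity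
    linarith
  let v : Fin 3 → ℝ := ![y 1 * w 2 - y 2 * w 1, y 2 * w 0 - y 0 * w 2, y 0 * w 1 - y 1 * w 0]
  have hv1 : qf a v = - n2 w * qf a y - n2 y * qf a w + 2 * dot3 y w * bf a y w := by
    simp only [v, qf, n2, dot3, bf, Matrix.cons_val_zero, Matrix.cons_val_one, Matrix.cons_val]
    ring
  have hv2 : n2 v = n2 y * n2 w - dot3 y w ^ 2 := by
    simp only [v, n2, dot3, Matrix.cons_val_zero, Matrix.cons_val_one, Matrix.cons_val]
    ring
  have hv3 := (abs_le.1 (hb v)).1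
  rw [hv1, hv2, hyw, hy, hq] at hv3
  have hqw : qf a w ≤ 0 := by nlinarith
  have e : qf a z = s ^ 2 * qf a y + 2 * s * bf a y w + qf a w := by
    simp only [qf, bf, w]; ring
  rw [e, hB, hq] at h
  nlinarith

noncomputable def sg (a : Fin 5 → ℝ) : Bool := decide (0 < qf a (top a))

lemma sg_neg (a : Fin 5 → ℝ) (ha : ∑ i, |a i| = 1) : sg (-a) = !sg a := by
  have := top_lower a ha
  unfold sg
  rw [top_neg, qf_neg]
  by_cases h : 0 < qf a (top a)
  · simp [h, h.le]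
  · have h' : qf a (top a) ≠ 0 := by
      intro h0; rw [h0] at this; norm_num at this
    have : qf a (top a) < 0 := lt_of_le_of_ne (not_lt.1 h) h'
    simp [h, this]

lemma top_close_pos (a b : Fin 5 → ℝ) (ha : ∑ i, |a i| = 1) (hb : ∑ i, |b i| = 1) (η : ℝ)
    (hab : ∀ i, |a i - b i| ≤ η) (hsa : sg a = true) :
    (sg b = true → 1 - dot3 (top a) (top b) ^ 2 ≤ 70 * η) ∧
    (sg b = false → dot3 (top a) (top b) ^ 2 ≤ 70 * η) := by
  have hla := top_lower a ha
  have hlb := top_lower b hb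
  have hta := top_spec a
  have htb := top_spec b
  have hpa : 0 < qf a (top a) := by simpa [sg] using hsa
  have c1 := qf_close a b η hab (top a) hta.1
  have c2 := qf_close a b η hab (top b) htb.1
  have m1 := htb.2 (top a)
  rw [hta.1, mul_one] at m1
  have hη : 0 ≤ η := le_trans (abs_nonneg _) (hab 0)
  have hba := hta.2
  rw [abs_of_pos hpa] at hla hba
  have m2 : qf a (top a) - 5 * η ≤ |qf b (top b)| := by
    have := le_abs_self (qf b (top a))
    linarith [(abs_le.1 c1).2]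
  constructor
  · intro hsb
    have hpb : 0 < qf b (top b) := by simpa [sg] using hsb
    rw [abs_of_pos hpb] at m2
    have := same_core a (top a) (top b) _ (10 * η) hpa hba hta.1 htb.1 rfl
      (by linarith [(abs_le.1 c2).1])
    by_contra hc
    push Not at hc
    nlinarith
  · intro hsb
    have hpb : qf b (top b) ≤ 0 := by simpa [sg] using hsb
    rw [abs_of_nonpos hpb] at m2
    have := opp_core a (top a) (top b) _ (10 * η) hba hta.1 htb.1
      (by linarith [(abs_le.1 c2).2])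
    by_contra hc
    push Not at hc
    nlinarith

lemma top_close (a b : Fin 5 → ℝ) (ha : ∑ i, |a i| = 1) (hb : ∑ i, |b i| = 1) (η : ℝ)
    (hab : ∀ i, |a i - b i| ≤ η) :
    (sg a = sg b → 1 - dot3 (top a) (top b) ^ 2 ≤ 70 * η) ∧
    (sg a ≠ sg b → dot3 (top a) (top b) ^ 2 ≤ 70 * η) := by
  cases hsa : sg a
  · have h := top_close_pos (-a) (-b) (by simpa using ha) (by simpa using hb) η
      (fun i => by
        have := hab i
        rw [abs_sub_comm] at this
        simpa [sub_eq_add_neg, add_comm] using this) (by rw [sg_neg a ha, hsa]; rfl)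
    rw [top_neg, top_neg, sg_neg b hb] at h
    cases hsb : sg b <;> simp [hsb] at h ⊢ <;> linarith
  · have h := top_close_pos a b ha hb η hab hsa
    cases hsb : sg b <;> simp [hsb] at h ⊢ <;> linarith

end Crest.Agent.LeadBorsuk
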