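import Crest.Agent.Lead.BorsukCert

set_option autoImplicit false

namespace Crest.Agent.LeadBorsuk

def all10 : List (Fin 10) := [0, 1, 2, 3, 4, 5, 6, 7, 8, 9]

def bitsL (m : ℕ) : List (Fin 10) := all10.filter (fun i => m.testBit i.val)

def fs (m : ℕ) : Finset (Fin 10) := (bitsL m).toFinset

lemma mem_bitsL {m : ℕ} {i : Fin 10} : i ∈ bitsL m ↔ m.testBit i.val = true := by
  have : i ∈ all10 := by revert i; decide
  simp [bitsL, this]

lemma mem_fs {m : ℕ} {i : Fin 10} : i ∈ fs m ↔ m.testBit i.val = true := by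
  simp [fs, mem_bitsL]

lemma nodup_bitsL (m : ℕ) : (bitsL m).Nodup := List.Nodup.filter _ (by decide)

lemma card_fs (m : ℕ) : (fs m).card = (bitsL m).length := List.toFinset_card_of_nodup (nodup_bitsL m)

lemma fs_or (a b : ℕ) : fs (a ||| b) = fs a ∪ fs b := by ext i; simp [mem_fs]

lemma fs_compl (a : ℕ) : fs (1023 ^^^ a) = (fs a)ᶜ := by
  ext i
  have : Nat.testBit 1023 i.val = true := by revert i; decide
  simp [mem_fs, this]

lemma fs_insert (a : ℕ) (v : Fin 10) : fs (a ||| 2 ^ v.val) = insert v (fs a) := by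
  ext i
  simp only [mem_fs, Nat.testBit_or, Nat.testBit_two_pow, Finset.mem_insert, Bool.or_eq_true,
    decide_eq_true_eq, Fin.val_inj]
  tauto

lemma fs_disj {a b : ℕ} (h : a &&& b = 0) : Disjoint (fs a) (fs b) := by
  rw [Finset.disjoint_left]
  intro i h1 h2
  rw [mem_fs] at h1 h2
  have : (a &&& b).testBit i.val = true := by simp [h1, h2]
  rw [h] at this
  simp at this

lemma fs_subset {a b : ℕ} (h : a &&& b = a) : fs a ⊆ fs b := by
  intro i h1
  rw [mem_fs] at h1 ⊢
  rw [← h] at h1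
  simp only [Nat.testBit_and, Bool.and_eq_true] at h1
  exact h1.2

def lidx : Sat.Literal → ℕ
  | .pos n => n
  | .neg n => n

def lsgn : Sat.Literal → ZMod 2
  | .pos _ => 0
  | .neg _ => 1

def lsgnN : Sat.Literal → ℕ
  | .pos _ => 0
  | .neg _ => 1

def chk : Sat.Clause → Bool
  | [.pos q] => q == 15 || q == 113
  | [.neg q, .pos t] => t &&& q == t
  | [.neg q, .neg t] => (bitsL q).length == 4 && (bitsL t).length == 4 && q &&& t == 0
  | [.neg q, .pos t, .pos t'] => (bitsL q).length == 4 && (bitsL t).length == 3 && q &&& t == 0 &&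
      t' == 1023 ^^^ (q ||| t)
  | [.neg q, .neg t, .neg t'] => q ||| t ||| t' == 1023
  | [.neg q, l1, l2, l3, l4] => (bitsL q).length == 4 &&
      (bitsL (lidx l1 &&& lidx l2)).length == 2 && q &&& (lidx l1 &&& lidx l2) == 0 &&
      (bitsL (1023 ^^^ (q ||| (lidx l1 &&& lidx l2)))).map
        (fun v => (lidx l1 &&& lidx l2) ||| 2 ^ v.val) == [lidx l1, lidx l2, lidx l3, lidx l4] &&
      (lsgnN l1 + lsgnN l2 + lsgnN l3 + lsgnN l4) % 2 == 1
  | [.neg q, .neg t, .pos a1, .pos a2, .pos a3, .pos a4] => (bitsL q).length == 4 &&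
      (bitsL t).length == 3 && q &&& t == 0 &&
      (bitsL q).map (fun v => t ||| 2 ^ v.val) == [a1, a2, a3, a4]
  | _ => false

theorem ctx_chk : ctx.all chk = true := by decide +kernel

open Classical in
theorem sat_core (F : Finset (Fin 10) → Prop)
    (mono : ∀ σ τ, F σ → τ ⊆ σ → F τ)
    (hD : ∀ σ τ, F σ → F τ → σ.card = 4 → τ.card = 4 → ¬ Disjoint σ τ)
    (hG : ∀ σ τ ρ, F σ → F τ → F ρ → ∃ i, i ∉ σ ∧ i ∉ τ ∧ i ∉ ρ)
    (hcompl : ∀ σ τ, F σ → σ.card = 4 → τ.card = 3 → Disjoint σ τ → F τ ∨ F (σ ∪ τ)ᶜ)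
    (hcyc : ∀ σ ρ, F σ → σ.card = 4 → ρ.card = 2 → Disjoint σ ρ →
      ∑ v ∈ (σ ∪ ρ)ᶜ, (if F (insert v ρ) then (1 : ZMod 2) else 0) = 0)
    (hC : ∀ σ τ, F σ → σ.card = 4 → F τ → τ.card = 3 → Disjoint σ τ → ∃ v ∈ σ, F (insert v τ))
    (h1 : F {0, 1, 2, 3}) (h2 : F {0, 4, 5, 6}) : False := by
  refine ctx_proof (fun m => F (fs m)) ⟨fun cl hcl => ?_⟩
  have hc := List.all_eq_true.1 ctx_chk cl hcl
  unfold chk at hc
  split at hc
  · rename_i q
    intro hq
    simp only [Bool.or_eq_true, beq_iff_eq] at hc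
    apply hq
    rcases hc with rfl | rfl
    · have : fs 15 = {0, 1, 2, 3} := by decide
      rw [this]; exact h1
    · have : fs 113 = {0, 4, 5, 6} := by decide
      rw [this]; exact h2
  · rename_i q t
    intro hq ht
    simp only [beq_iff_eq] at hc
    exact ht (mono _ _ hq (fs_subset hc))
  · rename_i q t
    intro hq ht
    simp only [Bool.and_eq_true, beq_iff_eq] at hc
    exact hD _ _ hq ht (by rw [card_fs, hc.1.1]) (by rw [card_fs, hc.1.2]) (fs_disj hc.2)
  · rename_i q t t'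
    intro hq ht ht'
    simp only [Bool.and_eq_true, beq_iff_eq] at hc
    rcases hcompl _ _ hq (by rw [card_fs, hc.1.1.1]) (by rw [card_fs, hc.1.1.2]) (fs_disj hc.1.2)
      with h | h
    · exact ht h
    · apply ht'
      rwa [hc.2, fs_compl, fs_or]
  · rename_i q t t'
    intro hq ht ht'
    simp only [beq_iff_eq] at hc
    obtain ⟨i, a1, a2, a3⟩ := hG _ _ _ hq ht ht'
    have h0 : ∀ i, i ∈ fs 1023 := by decide
    have : i ∈ fs (q ||| t ||| t') := by rw [hc]; exact h0 i
    rw [fs_or, fs_or] at this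
    simp [a1, a2, a3] at this
  · rename_i q l1 l2 l3 l4
    intro hq e1 e2 e3 e4
    simp only [Bool.and_eq_true, beq_iff_eq] at hc
    obtain ⟨⟨⟨⟨c1, c2⟩, c3⟩, c4⟩, c5⟩ := hc
    have := hcyc _ _ hq (by rw [card_fs, c1]) (by rw [card_fs, c2]) (fs_disj c3)
    rw [← fs_or, ← fs_compl] at this
    simp only [← fs_insert] at this
    rw [fs, List.sum_toFinset _ (nodup_bitsL _)] at this
    have e : ∀ (g : ℕ → ZMod 2) (L : List (Fin 10)) (k : Fin 10 → ℕ),
        L.map (fun v => g (k v)) = (L.map k).map g := by intros; simp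
    rw [e (fun m => if F (fs m) then (1 : ZMod 2) else 0), c4] at this
    have key : ∀ l : Sat.Literal, Sat.Valuation.neg (fun m => F (fs m)) l →
        (if F (fs (lidx l)) then (1 : ZMod 2) else 0) = (lsgnN l : ℕ) := by
      intro l hl
      cases l with
      | pos n => exact (if_neg hl).trans (by simp [lsgnN])
      | neg n => exact (if_pos hl).trans (by simp [lsgnN])
    simp only [List.map_cons, List.map_nil, List.sum_cons, List.sum_nil, key _ e1, key _ e2,
      key _ e3, key _ e4] at this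
    have h3 : ((lsgnN l1 + lsgnN l2 + lsgnN l3 + lsgnN l4 : ℕ) : ZMod 2) = 0 := by
      push_cast; linear_combination this
    rw [ZMod.natCast_eq_zero_iff] at h3
    omega
  · rename_i q t a1 a2 a3 a4
    intro hq ht e1 e2 e3 e4
    simp only [Bool.and_eq_true, beq_iff_eq] at hc
    obtain ⟨⟨⟨c1, c2⟩, c3⟩, c4⟩ := hc
    obtain ⟨v, hv, hF⟩ := hC _ _ hq (by rw [card_fs, c1]) ht (by rw [card_fs, c2]) (fs_disj c3)
    rw [← fs_insert] at hF
    have : t ||| 2 ^ v.val ∈ [a1, a2, a3, a4] := by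
      rw [← c4]
      exact List.mem_map.2 ⟨v, by simpa [fs] using hv, rfl⟩
    simp only [List.mem_cons, List.not_mem_nil, or_false] at this
    rcases this with h | h | h | h <;> rw [h] at hF
    · exact e1 hF
    · exact e2 hF
    · exact e3 hF
    · exact e4 hF
  · exact absurd hc (by decide)

end Crest.Agent.LeadBorsuk
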