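import Crest.Agent.Lead.BorsukCore
import Crest.Agent.Lead.BorsukQuad

set_option autoImplicit false

namespace Crest.Agent.LeadBorsuk
open Crest.Agent.LeadChains

local notation "⟪" x ", " y "⟫" => inner ℝ x y

structure Fr (n e f : E) : Prop where
  n1 : ‖n‖ = 1
  e1 : ‖e‖ = 1
  f1 : ‖f‖ = 1
  ne : ⟪n, e⟫ = 0
  nf : ⟪n, f⟫ = 0
  ef : ⟪e, f⟫ = 0

noncomputable def fr (n e f : E) (y : Fin 3 → ℝ) : E := y 0 • n + y 1 • e + y 2 • f

lemma fr_inner {n e f : E} (h : Fr n e f) (y z : Fin 3 → ℝ) :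
    ⟪fr n e f y, fr n e f z⟫ = dot3 y z := by
  have h1 : ⟪n, n⟫ = 1 := by rw [real_inner_self_eq_norm_sq, h.n1]; norm_num
  have h2 : ⟪e, e⟫ = 1 := by rw [real_inner_self_eq_norm_sq, h.e1]; norm_num
  have h3 : ⟪f, f⟫ = 1 := by rw [real_inner_self_eq_norm_sq, h.f1]; norm_num
  have h4 : ⟪e, n⟫ = 0 := by rw [real_inner_comm, h.ne]
  have h5 : ⟪f, n⟫ = 0 := by rw [real_inner_comm, h.nf]
  have h6 : ⟪f, e⟫ = 0 := by rw [real_inner_comm, h.ef]
  simp only [fr, inner_add_left, inner_add_right, real_inner_smul_left, real_inner_smul_right,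
    h1, h2, h3, h4, h5, h6, h.ne, h.nf, h.ef, dot3]
  ring

lemma fr_norm {n e f : E} (h : Fr n e f) (a : Fin 5 → ℝ) : ‖fr n e f (top a)‖ = 1 := by
  apply norm_of_inner
  rw [fr_inner h, ← (top_spec a).1]
  simp [dot3, n2, sq]

lemma fr_perp {n e f x : E} (h1 : ⟪n, x⟫ = 0) (h2 : ⟪e, x⟫ = 0) (h3 : ⟪f, x⟫ = 0)
    (y : Fin 3 → ℝ) : ⟪fr n e f y, x⟫ = 0 := by
  simp [fr, inner_add_left, real_inner_smul_left, h1, h2, h3]

lemma near_of_inner {p q : E} (hp : ‖p‖ = 1) (hq : ‖q‖ = 1) {r : ℝ} (hr : 0 ≤ r)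
    (h : 2 * (1 - ⟪p, q⟫ ^ 2) ≤ r ^ 2) : Near r p q := by
  have h1 := abs_real_inner_le_norm p q
  rw [hp, hq, mul_one, abs_le] at h1
  rcases le_total 0 ⟪p, q⟫ with h0 | h0
  · left
    apply le_of_sq_le_sq' _ hr
    rw [norm_sub_sq_real, hp, hq]
    nlinarith
  · right
    apply le_of_sq_le_sq' _ hr
    rw [norm_add_sq_real, hp, hq]
    nlinarith

lemma Near.trans_dist {r r' : ℝ} {p q q' : E} (h : Near r p q) (h' : ‖q - q'‖ ≤ r') :
    Near (r + r') p q' := by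
  rcases h with h | h
  · left
    have : p - q' = (p - q) + (q - q') := by abel
    rw [this]; exact (norm_add_le _ _).trans (add_le_add h h')
  · right
    have : p + q' = (p + q) - (q - q') := by abel
    rw [this]; exact (norm_sub_le _ _).trans (add_le_add h h')

noncomputable def hm (n e f : E) (a : Fin 5 → ℝ) : Bool × E := (sg a, fr n e f (top a))

lemma sym_small {n k l : ℕ} {η : ℝ} {ch : Multiset (List (Fin n → ℝ))}
    (h : IsHemi (fun a : Fin n → ℝ => -a) (Small k η) l ch) :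
    ∀ s ∈ sym (fun a : Fin n → ℝ => -a) ch, Small k η s ∧ s.length = l + 1 := by
  intro s hs
  simp only [sym, Multiset.mem_add, Multiset.mem_map] at hs
  rcases hs with hs | ⟨s', hs', rfl⟩
  · exact h.mem s hs
  · obtain ⟨⟨h1, h2⟩, h3⟩ := h.mem s' hs'
    refine ⟨⟨?_, ?_⟩, by simpa using h3⟩
    · intro a ha
      obtain ⟨a', ha', rfl⟩ := List.mem_map.1 ha
      refine ⟨by simpa using (h1 a' ha').1, fun i hi => by simp [(h1 a' ha').2 i hi]⟩
    · intro a ha b hb i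
      obtain ⟨a', ha', rfl⟩ := List.mem_map.1 ha
      obtain ⟨b', hb', rfl⟩ := List.mem_map.1 hb
      have := h2 a' ha' b' hb' i
      rw [abs_sub_comm] at this
      simpa [sub_eq_add_neg, add_comm] using this

lemma ev_sym_map {V : Type*} (ν : V → V) (hν : ∀ v, ν (ν v) = v) (ch : Multiset (List V))
    (G : List V → ZMod 2) : ev (fun s => G (s.map ν)) (sym ν ch) = ev G (sym ν ch) := by
  rw [ev_sym, ev_sym, add_comm]
  congr 1
  apply ev_congr
  intro s _
  rw [List.map_map]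
  have : (ν ∘ ν) = id := funext hν
  rw [this, List.map_id]

lemma hm_near {n e f : E} (h : Fr n e f) {η r : ℝ} (hr : 0 ≤ r) (hη : 140 * η ≤ r ^ 2)
    {s : List (Fin 5 → ℝ)} (hs : Small 4 η s) {a b : Fin 5 → ℝ} (ha : a ∈ s) (hb : b ∈ s)
    (hab : sg a = sg b) : Near r (fr n e f (top a)) (fr n e f (top b)) := by
  apply near_of_inner (fr_norm h a) (fr_norm h b) hr
  rw [fr_inner h]
  linarith [(top_close a b (hs.1 a ha).1 (hs.1 b hb).1 η (hs.2 a ha b hb)).1 hab]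

lemma zprop {c : E → Fin 10} {ε r η : ℝ} (hG : Good c ε) (hr : 0 ≤ r) (hη : 140 * η ≤ r ^ 2)
    (hη' : 70 * η < ε ^ 2) {n e f x : E} (h : Fr n e f) (h1 : ⟪n, x⟫ = 0) (h2 : ⟪e, x⟫ = 0)
    (h3 : ⟪f, x⟫ = 0) {ch : Multiset (List (Fin 5 → ℝ))}
    (hch : IsHemi (fun a : Fin 5 → ℝ => -a) (Small 4 η) 4 ch) :
    ZProp c r x ((sym (fun a : Fin 5 → ℝ => -a) ch).map (List.map (hm n e f))) := by
  have hmem := sym_small hch
  have hpart : ∀ (s : List (Fin 5 → ℝ)) b p, p ∈ part b (s.map (hm n e f)) →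
      ∃ a ∈ s, sg a = b ∧ p = fr n e f (top a) := by
    intro s b p hp
    rw [mem_part, List.mem_map] at hp
    obtain ⟨a, ha, hp⟩ := hp
    simp only [hm, Prod.mk.injEq] at hp
    exact ⟨a, ha, hp.1, hp.2.symm⟩
  have hfar : ∀ s, Small 4 η s → ∀ a ∈ s, ∀ b ∈ s, sg a ≠ sg b →
      c (fr n e f (top a)) ≠ c (fr n e f (top b)) := by
    intro s hs a ha b hb hab hc
    have e1 := (top_close a b (hs.1 a ha).1 (hs.1 b hb).1 η (hs.2 a ha b hb)).2 hab
    have e2 := hG.sep _ _ (fr_norm h a) (fr_norm h b) hc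
    rw [fr_inner h] at e2
    have := pow_le_pow_left₀ hG.pos.le e2 2
    rw [sq_abs] at this
    linarith
  refine ⟨?_, ?_, ?_, ?_, ?_, ?_, ?_⟩
  · intro F
    rw [ev_map, ← hch.cycle (fun v => neg_neg v) (fun t => F (t.map (hm n e f)))]
    exact ev_congr _ _ _ (fun s _ => (dd_map _ _ _).symm)
  · intro F
    rw [ev_map, ev_map, ← ev_sym_map _ (fun v => neg_neg v) ch (fun s => F (s.map (hm n e f)))]
    apply ev_congr
    intro s hs
    congr 1
    simp only [List.map_map]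
    apply List.map_congr_left
    intro a ha
    simp [hm, flp, top_neg, sg_neg a ((hmem s hs).1.1 a ha).1]
  · intro s hs
    obtain ⟨s', hs', rfl⟩ := Multiset.mem_map.1 hs
    simpa using (hmem s' hs').2
  · intro s hs b p hp
    obtain ⟨s', hs', rfl⟩ := Multiset.mem_map.1 hs
    obtain ⟨a, ha, ha', rfl⟩ := hpart _ _ _ hp
    refine ⟨fr_norm h a, fun q hq => ?_⟩
    obtain ⟨a', hb, hb', rfl⟩ := hpart _ _ _ hq
    exact hm_near h hr hη (hmem s' hs').1 ha hb (ha'.trans hb'.symm)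
  · intro s hs b p hp
    obtain ⟨s', hs', rfl⟩ := Multiset.mem_map.1 hs
    obtain ⟨a, ha, ha', rfl⟩ := hpart _ _ _ hp
    exact fr_perp h1 h2 h3 _
  · intro s hs p hp q hq
    obtain ⟨s', hs', rfl⟩ := Multiset.mem_map.1 hs
    obtain ⟨a, ha, ha', rfl⟩ := hpart _ _ _ hp
    obtain ⟨a', hb, hb', rfl⟩ := hpart _ _ _ hq
    exact hfar _ (hmem s' hs').1 _ ha _ hb (by rw [ha', hb']; decide)
  · rw [ev_map]
    simp only [List.map_map]
    apply kyfan (labB c ∘ hm n e f) _ _ hch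
    · intro s hs a ha
      have e : ∀ (β : Bool) (p : E), labB c (!β, p) = flipL (labB c (β, p)) := by
        intro β p
        cases β <;> simp [labB, flipL]
      simp only [Function.comp, hm, top_neg, sg_neg a (hs.1 a ha).1, e]
    · intro s hs a ha b hb hab
      have e1 : ∀ a, (labB c ∘ hm n e f) a / 2 = (c (fr n e f (top a))).val := by
        intro a; simp only [Function.comp, labB, hm]; split_ifs <;> omega
      rw [e1, e1, Fin.val_inj] at hab
      have : sg a = sg b := by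
        by_contra hne
        exact hfar s hs a ha b hb hne hab
      have e : ∀ (β : Bool) (p q : E), c p = c q → labB c (β, p) = labB c (β, q) := by
        intro β p q h
        simp only [labB, h]
      simp only [Function.comp, hm, this]
      exact e _ _ _ hab

lemma exists_params {c : E → Fin 10} {ε : ℝ} (hG : Good c ε) : ∃ r η : ℝ, Leb c r ∧ 0 < r ∧
    r < 1 / 2 ∧ 3 * r < ε ∧ 0 < η ∧ 140 * η ≤ (r / 2) ^ 2 ∧ 70 * η < ε ^ 2 := by
  obtain ⟨r0, hr0, hL⟩ := lebesgue hG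
  have hε := hG.pos
  set r := min r0 (min (1 / 4) (ε / 4)) with hr
  have h1 : r ≤ r0 := min_le_left _ _
  have h2 : r ≤ 1 / 4 := (min_le_right _ _).trans (min_le_left _ _)
  have h3 : r ≤ ε / 4 := (min_le_right _ _).trans (min_le_right _ _)
  have h4 : 0 < r := by positivity
  refine ⟨r, (r / 2) ^ 2 / 140, ?_, h4, by linarith, by linarith, by positivity, by linarith, by nlinarith⟩
  intro x σ hx hσ
  apply hL x σ hx
  intro i hi
  obtain ⟨y, a1, a2, a3⟩ := hσ i hi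
  exact ⟨y, a1, a2, a3.mono h1⟩

lemma exists_ctx {c : E → Fin 10} {ε : ℝ} (hG : Good c ε) {σ : Finset (Fin 10)} (hσ : Fac c σ)
    (hc : σ.card = 4) : ∃ r x Z, Ctx c ε r x σ Z := by
  obtain ⟨r, η, hL, r0, r1, r2, η0, η1, η2⟩ := exists_params hG
  obtain ⟨x, hx⟩ := hσ
  obtain ⟨b, h1, h2, h3, -⟩ := exists_basis x 0 0
  obtain ⟨ch, hch⟩ := exists_hemi (n := 5) 4 (by norm_num) η η0
  have hb := b.orthonormal
  exact ⟨r, x, _, hG, hL, r0, r1, r2, hx, hc, zprop hG r0.le (by nlinarith) η2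
    ⟨hb.1 1, hb.1 2, hb.1 3, hb.2 (by decide), hb.2 (by decide), hb.2 (by decide)⟩ h1 h2 h3 hch⟩

theorem propC {c : E → Fin 10} {ε : ℝ} (hG : Good c ε) {σ τ : Finset (Fin 10)} (hσ : Fac c σ)
    (hc : σ.card = 4) (hτ : Fac c τ) (hc' : τ.card = 3) (hd : Disjoint σ τ) :
    ∃ v ∈ σ, Fac c (insert v τ) := by
  suffices h : ∃ v, v ∉ τ ∧ Fac c (insert v τ) by
    obtain ⟨v, hv, hF⟩ := h
    refine ⟨v, ?_, hF⟩
    by_contra hvσ
    exact no_four hG hσ hF hc (by rw [Finset.card_insert_of_notMem hv, hc']) (by simp [hvσ, hd])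
  by_contra hno
  push Not at hno
  obtain ⟨r, η, hL, r0, r1, r2, η0, η1, η2⟩ := exists_params hG
  obtain ⟨x, hx⟩ := hσ
  obtain ⟨u, hu⟩ := hτ
  obtain ⟨b, h1, h2, h3, h4, h5, -⟩ := exists_basis x u 0
  obtain ⟨ch, hch⟩ := exists_hemi (n := 5) 4 (by norm_num) η η0
  have hb := b.orthonormal
  have H : Ctx c ε r x σ _ := ⟨hG, hL, r0, r1, r2, hx, hc, zprop hG r0.le (by nlinarith) η2
    ⟨hb.1 1, hb.1 2, hb.1 3, hb.2 (by decide), hb.2 (by decide), hb.2 (by decide)⟩ h1 h2 h3 hch⟩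
  have hA := H.AA_one hc' hd ⟨u, hu⟩
  obtain ⟨t, ht⟩ : ∃ t : ℝ, Real.cos t * ⟪b 1, u⟫ + Real.sin t * ⟪b 0, u⟫ = 0 := by
    by_cases h0 : ⟪b 0, u⟫ = 0
    · exact ⟨Real.pi / 2, by simp [h0]⟩
    · refine ⟨Real.arctan (-⟪b 1, u⟫ / ⟪b 0, u⟫), ?_⟩
      have e1 := Real.tan_mul_cos (Real.cos_arctan_pos (-⟪b 1, u⟫ / ⟪b 0, u⟫)).ne'
      rw [Real.tan_arctan] at e1
      rw [← e1]
      field_simp
      ring
  obtain ⟨m, hm'⟩ := exists_nat_gt (|t| / (r / 2))
  have hm0 : (0 : ℝ) < m := lt_of_le_of_lt (by positivity) hm'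
  have hmr : |t| / m ≤ r / 2 := by
    rw [div_lt_iff₀ (by positivity)] at hm'
    rw [div_le_iff₀ hm0]
    linarith
  have b10 : ⟪b 1, b 0⟫ = 0 := hb.2 (by decide)
  let nn : ℕ → E := fun j => circ (b 1) (b 0) (j * (t / m))
  have hFr : ∀ j, Fr (nn j) (b 2) (b 3) := by
    intro j
    have a1 : ⟪b 1, b 2⟫ = 0 := hb.2 (by decide)
    have a2 : ⟪b 0, b 2⟫ = 0 := hb.2 (by decide)
    have a3 : ⟪b 1, b 3⟫ = 0 := hb.2 (by decide)
    have a4 : ⟪b 0, b 3⟫ = 0 := hb.2 (by decide)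
    refine ⟨circ_norm (hb.1 1) (hb.1 0) b10 _, hb.1 2, hb.1 3, ?_, ?_, hb.2 (by decide)⟩
    · simp only [nn, circ, inner_add_left, real_inner_smul_left, a1, a2]; simp
    · simp only [nn, circ, inner_add_left, real_inner_smul_left, a3, a4]; simp
  have hsw := ev_dd_sweep (fun j => hm (nn j) (b 2) (b 3)) _ (hch.cycle (fun v => neg_neg v))
    (Tn (eS c τ) om) m
  have hn0 : nn 0 = b 1 := by simp [nn, circ]
  unfold Ctx.AA at hA
  rw [ev_map] at hA
  simp only [hn0] at hsw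
  rw [hA, ev_eq_zero, ev_eq_zero] at hsw
  · exact absurd hsw (by decide)
  · intro s hs
    by_contra hne
    obtain ⟨i, hi⟩ := Finset.card_pos.1 (show 0 < τ.card by omega)
    obtain ⟨p, hp, rfl⟩ := (eS_ne (left_ne_zero_of_mul hne)).2.2 i hi
    rw [mem_part, List.mem_map] at hp
    obtain ⟨a, ha, hp⟩ := hp
    simp only [hm, Prod.mk.injEq] at hp
    rw [← hp.2] at hi
    refine facAt_perp hG hu (fr_norm (hFr m) a) (fr_perp ?_ h4 h5 _) hi
    simp only [nn, circ, inner_add_left, real_inner_smul_left]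
    rw [mul_div_cancel₀ _ hm0.ne']
    exact ht
  · intro s hs
    obtain ⟨j, hj, s', hs', -, hw⟩ := mem_sweep _ _ _ _ hs
    have hsm := (sym_small hch s' hs').1
    have hclq : ∀ β, Clq r (part β s) := by
      have key : ∀ β p, p ∈ part β s → ∃ a ∈ s', ∃ i, (i = j ∨ i = j + 1) ∧ sg a = β ∧
          p = fr (nn i) (b 2) (b 3) (top a) := by
        intro β p hp
        rw [mem_part] at hp
        obtain ⟨a, ha, h | h⟩ := hw _ hp
        · simp only [hm, Prod.mk.injEq] at h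
          exact ⟨a, ha, j, Or.inl rfl, h.1.symm, h.2⟩
        · simp only [hm, Prod.mk.injEq] at h
          exact ⟨a, ha, j + 1, Or.inr rfl, h.1.symm, h.2⟩
      intro β p hp
      obtain ⟨a, ha, i, hi, hβ, rfl⟩ := key β p hp
      refine ⟨fr_norm (hFr i) a, fun q hq => ?_⟩
      obtain ⟨a', ha', i', hi', hβ', rfl⟩ := key β q hq
      have e1 := hm_near (hFr i) (r := r / 2) (by positivity) η1 hsm ha ha' (hβ.trans hβ'.symm)
      have e2 : ‖fr (nn i) (b 2) (b 3) (top a') - fr (nn i') (b 2) (b 3) (top a')‖ ≤ r / 2 := by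
        have : fr (nn i) (b 2) (b 3) (top a') - fr (nn i') (b 2) (b 3) (top a') =
            top a' 0 • (nn i - nn i') := by
          simp only [fr, smul_sub]; abel
        rw [this, norm_smul]
        have a1 : ‖top a' 0‖ ≤ 1 := by
          have := (top_spec a').1
          unfold n2 at this
          rw [Real.norm_eq_abs, ← sq_le_one_iff_abs_le_one]
          nlinarith [sq_nonneg (top a' 1), sq_nonneg (top a' 2)]
        have a2 : ‖nn i - nn i'‖ ≤ r / 2 := by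
          refine (circ_dist (hb.1 1) (hb.1 0) b10 _ _).trans ?_
          rw [← sub_mul, abs_mul, abs_div, abs_of_pos hm0]
          have : |(i : ℝ) - i'| ≤ 1 := by
            rcases hi with rfl | rfl <;> rcases hi' with rfl | rfl <;> simp
          have : 0 ≤ |t| / m := by positivity
          nlinarith [abs_nonneg ((i : ℝ) - i')]
        nlinarith [norm_nonneg (top a' 0), norm_nonneg (nn i - nn i')]
      have := e1.trans_dist e2
      rwa [add_halves] at this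
    rw [dd_Tn]
    simp only [Tn, dd_om r1 (hclq _), mul_zero, add_zero, dd_eS]
    rw [Finset.sum_eq_zero, zero_mul]
    intro v hv
    by_contra hne
    exact hno v (Finset.mem_compl.1 hv) (fac_of_eS hL (hclq _) hne (Finset.insert_nonempty _ _))

theorem propCompl {c : E → Fin 10} {ε : ℝ} (hG : Good c ε) {σ τ : Finset (Fin 10)} (hσ : Fac c σ)
    (hc : σ.card = 4) (hc' : τ.card = 3) (hd : Disjoint σ τ) : Fac c τ ∨ Fac c (σ ∪ τ)ᶜ := by
  obtain ⟨r, x, Z, H⟩ := exists_ctx hG hσ hc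
  exact H.compl hc' hd

open Classical in
theorem propCyc {c : E → Fin 10} {ε : ℝ} (hG : Good c ε) {σ ρ : Finset (Fin 10)} (hσ : Fac c σ)
    (hc : σ.card = 4) (hc' : ρ.card = 2) (hd : Disjoint σ ρ) :
    ∑ v ∈ (σ ∪ ρ)ᶜ, (if Fac c (insert v ρ) then (1 : ZMod 2) else 0) = 0 := by
  obtain ⟨r, x, Z, H⟩ := exists_ctx hG hσ hc
  exact H.cyc hc' hd

end Crest.Agent.LeadBorsuk
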