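import Mathlib

set_option autoImplicit false

namespace Crest.Agent.LeadChains

variable {V W : Type*}

/-- coboundary of a mod-2 cochain on ordered simplices (lists), augmented. -/
def dd (f : List V → ZMod 2) : List V → ZMod 2
  | [] => 0
  | v :: s => f s + dd (fun t => f (v :: t)) s

@[simp] lemma dd_nil (f : List V → ZMod 2) : dd f [] = 0 := rfl
@[simp] lemma dd_cons (f : List V → ZMod 2) (v : V) (s : List V) :
    dd f (v :: s) = f s + dd (fun t => f (v :: t)) s := rfl

lemma z2 (x : ZMod 2) : x + x = 0 := by
  revert x; decide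

lemma dd_add (f g : List V → ZMod 2) (s : List V) :
    dd (fun t => f t + g t) s = dd f s + dd g s := by
  induction s generalizing f g with
  | nil => simp
  | cons v s ih => simp only [dd_cons]; rw [ih]; ring

lemma dd_zero (s : List V) : dd (fun _ => (0 : ZMod 2)) s = 0 := by
  induction s with
  | nil => simp
  | cons v s ih => simp [ih]

lemma dd_mul (a : ZMod 2) (f : List V → ZMod 2) (s : List V) :
    dd (fun t => a * f t) s = a * dd f s := by
  induction s generalizing f with
  | nil => simp
  | cons v s ih => simp only [dd_cons]; rw [ih]; ring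

lemma dd_mul' (a : ZMod 2) (f : List V → ZMod 2) (s : List V) :
    dd (fun t => f t * a) s = dd f s * a := by
  simpa [mul_comm] using dd_mul a f s

lemma dd_dd (f : List V → ZMod 2) (s : List V) : dd (dd f) s = 0 := by
  induction s generalizing f with
  | nil => simp
  | cons v s ih =>
    simp only [dd_cons]
    rw [dd_add, ih, add_zero, z2]

lemma dd_map (h : V → W) (f : List W → ZMod 2) (s : List V) :
    dd (fun t => f (t.map h)) s = dd f (s.map h) := by
  induction s generalizing f with
  | nil => simp
  | cons v s ih =>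
    simp only [dd_cons, List.map_cons]
    rw [ih (fun t => f (h v :: t))]

lemma dd_congr (f g : List V → ZMod 2) (s : List V) (h : ∀ t, t.Sublist s → f t = g t) :
    dd f s = dd g s := by
  induction s generalizing f g with
  | nil => simp
  | cons v s ih =>
    simp only [dd_cons]
    rw [h s (List.sublist_cons_self v s), ih]
    intro t ht
    exact h _ (ht.cons_cons v)

lemma dd_multiset (F : Multiset V → ZMod 2) [DecidableEq V] (s : List V) :
    dd (fun t => F (t : Multiset V)) s =
      ((s : Multiset V).map (fun v => F ((s : Multiset V).erase v))).sum := by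
  induction s generalizing F with
  | nil => simp
  | cons v s ih =>
    rw [dd_cons]
    have := ih (fun M => F (v ::ₘ M))
    simp only [Multiset.cons_coe] at this
    rw [this, ← Multiset.cons_coe, Multiset.map_cons, Multiset.sum_cons, Multiset.erase_cons_head]
    congr 2
    apply Multiset.map_congr rfl
    intro x hx
    by_cases hxv : v = x
    · subst hxv
      rw [Multiset.erase_cons_head, Multiset.cons_erase hx]
    · rw [Multiset.erase_cons_tail _ hxv]

/-- evaluation of a cochain on a chain -/
def ev (f : List V → ZMod 2) (z : Multiset (List V)) : ZMod 2 := (z.map f).sum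

@[simp] lemma ev_zero (f : List V → ZMod 2) : ev f 0 = 0 := by simp [ev]
@[simp] lemma ev_add (f : List V → ZMod 2) (z w : Multiset (List V)) :
    ev f (z + w) = ev f z + ev f w := by simp [ev]
@[simp] lemma ev_singleton (f : List V → ZMod 2) (s : List V) : ev f {s} = f s := by simp [ev]
lemma ev_map (f : List W → ZMod 2) (g : List V → List W) (z : Multiset (List V)) :
    ev f (z.map g) = ev (fun s => f (g s)) z := by simp [ev]
lemma ev_bind (f : List W → ZMod 2) (g : List V → Multiset (List W)) (z : Multiset (List V)) :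
    ev f (z.bind g) = ev (fun s => ev f (g s)) z := by
  simp [ev, Multiset.map_bind, Multiset.sum_bind]
lemma ev_fadd (f g : List V → ZMod 2) (z : Multiset (List V)) :
    ev (fun s => f s + g s) z = ev f z + ev g z := by simp [ev, Multiset.sum_map_add]
lemma ev_congr (f g : List V → ZMod 2) (z : Multiset (List V)) (h : ∀ s ∈ z, f s = g s) :
    ev f z = ev g z := by
  unfold ev; rw [Multiset.map_congr rfl h]
lemma ev_eq_zero (f : List V → ZMod 2) (z : Multiset (List V)) (h : ∀ s ∈ z, f s = 0) :
    ev f z = 0 := by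
  rw [ev_congr f (fun _ => 0) z h]; simp [ev]
lemma exists_of_ev_ne_zero (f : List V → ZMod 2) (z : Multiset (List V)) (h : ev f z ≠ 0) :
    ∃ s ∈ z, f s ≠ 0 := by
  by_contra hc
  push Not at hc
  exact h (ev_eq_zero f z hc)
lemma ev_mul (a : ZMod 2) (f : List V → ZMod 2) (z : Multiset (List V)) :
    ev (fun s => a * f s) z = a * ev f z := by simp [ev, Multiset.sum_map_mul_left]
lemma ev_mul' (a : ZMod 2) (f : List V → ZMod 2) (z : Multiset (List V)) :
    ev (fun s => f s * a) z = ev f z * a := by simp [ev, Multiset.sum_map_mul_right]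
lemma ev_sum {ι : Type*} (S : Finset ι) (f : ι → List V → ZMod 2) (z : Multiset (List V)) :
    ev (fun s => ∑ i ∈ S, f i s) z = ∑ i ∈ S, ev (f i) z := by
  classical
  induction S using Finset.induction_on with
  | empty => simp [ev]
  | insert a S ha ih => simp only [Finset.sum_insert ha]; rw [ev_fadd, ih]
lemma ev_comm (f : List V → List W → ZMod 2) (z : Multiset (List V)) (w : Multiset (List W)) :
    ev (fun s => ev (fun t => f s t) w) z = ev (fun t => ev (fun s => f s t) z) w := by
  unfold ev
  exact Multiset.sum_map_sum_map z w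

/-- prism between two vertex maps -/
def prism (h0 h1 : V → W) : List V → Multiset (List W)
  | [] => 0
  | v :: s => {h0 v :: h1 v :: s.map h1} + (prism h0 h1 s).map (fun t => h0 v :: t)

lemma prism_identity (h0 h1 : V → W) (f : List W → ZMod 2) (s : List V) :
    ev (dd f) (prism h0 h1 s) + dd (fun t => ev f (prism h0 h1 t)) s =
      f (s.map h1) + f (s.map h0) := by
  induction s generalizing f with
  | nil => simp [prism, z2]
  | cons v s ih =>
    simp only [prism, ev_add, ev_singleton, ev_map, dd_cons, List.map_cons]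
    rw [ev_fadd, dd_add, dd_map h1 (fun t => f (h0 v :: h1 v :: t))]
    have := ih (fun t => f (h0 v :: t))
    have e1 := z2 (ev f (prism h0 h1 s))
    have e2 := z2 (dd (fun t => f (h0 v :: h1 v :: t)) (List.map h1 s))
    have e3 := z2 (f (h0 v :: List.map h1 s))
    linear_combination this + e1 + e2 + e3

lemma mem_prism (h0 h1 : V → W) (s : List V) (t : List W) (ht : t ∈ prism h0 h1 s) :
    t.length = s.length + 1 ∧ ∀ w ∈ t, ∃ v ∈ s, w = h0 v ∨ w = h1 v := by
  induction s generalizing t with
  | nil => simp [prism] at ht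
  | cons v s ih =>
    simp only [prism, Multiset.mem_add, Multiset.mem_singleton, Multiset.mem_map] at ht
    rcases ht with rfl | ⟨t', ht', rfl⟩
    · refine ⟨by simp, ?_⟩
      intro w hw
      simp only [List.mem_cons, List.mem_map] at hw
      rcases hw with rfl | rfl | ⟨a, ha, rfl⟩
      · exact ⟨v, by simp, Or.inl rfl⟩
      · exact ⟨v, by simp, Or.inr rfl⟩
      · exact ⟨a, by simp [ha], Or.inr rfl⟩
    · obtain ⟨h1', h2⟩ := ih t' ht'
      refine ⟨by simp [h1'], ?_⟩
      intro w hw
      simp only [List.mem_cons] at hw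
      rcases hw with rfl | hw
      · exact ⟨v, by simp, Or.inl rfl⟩
      · obtain ⟨a, ha, h⟩ := h2 w hw
        exact ⟨a, by simp [ha], h⟩

def IsCycle (z : Multiset (List V)) : Prop := ∀ f, ev (dd f) z = 0

/-- the chain swept by a discrete homotopy -/
def sweep (h : ℕ → V → W) (z : Multiset (List V)) : ℕ → Multiset (List W)
  | 0 => 0
  | m + 1 => sweep h z m + z.bind (prism (h m) (h (m + 1)))

lemma ev_dd_sweep (h : ℕ → V → W) (z : Multiset (List V)) (hz : IsCycle z) (f : List W → ZMod 2)
    (m : ℕ) : ev (dd f) (sweep h z m) =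
      ev (fun s => f (s.map (h m))) z + ev (fun s => f (s.map (h 0))) z := by
  induction m with
  | zero => simp [sweep, z2]
  | succ m ih =>
    simp only [sweep, ev_add, ih, ev_bind]
    have h1 := hz (fun t => ev f (prism (h m) (h (m + 1)) t))
    have h2 : ev (fun s => ev (dd f) (prism (h m) (h (m + 1)) s) +
        dd (fun t => ev f (prism (h m) (h (m + 1)) t)) s) z =
        ev (fun s => f (s.map (h (m + 1))) + f (s.map (h m))) z :=
      ev_congr _ _ _ (fun s _ => prism_identity _ _ f s)
    rw [ev_fadd, ev_fadd, h1] at h2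
    have e := z2 (ev (fun s => f (s.map (h m))) z)
    linear_combination h2 + e

lemma mem_sweep (h : ℕ → V → W) (z : Multiset (List V)) (m : ℕ) (t : List W)
    (ht : t ∈ sweep h z m) : ∃ j < m, ∃ s ∈ z, t.length = s.length + 1 ∧
      ∀ w ∈ t, ∃ v ∈ s, w = h j v ∨ w = h (j + 1) v := by
  induction m with
  | zero => simp [sweep] at ht
  | succ m ih =>
    simp only [sweep, Multiset.mem_add, Multiset.mem_bind] at ht
    rcases ht with ht | ⟨s, hs, ht⟩
    · obtain ⟨j, hj, h'⟩ := ih ht
      exact ⟨j, by omega, h'⟩
    · exact ⟨m, by omega, s, hs, mem_prism _ _ s t ht⟩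

/-- hemisphere chains -/
def IsHemi (ν : V → V) (R : List V → Prop) : ℕ → Multiset (List V) → Prop
  | 0, c => ∃ p, c = {[p]} ∧ R [p]
  | k + 1, c => (∀ s ∈ c, R s ∧ s.length = k + 2) ∧
      ∃ c', IsHemi ν R k c' ∧ ∀ f, ev (dd f) c = ev f c' + ev (fun s => f (s.map ν)) c'

lemma IsHemi.mem {ν : V → V} {R : List V → Prop} {k : ℕ} {c : Multiset (List V)}
    (h : IsHemi ν R k c) : ∀ s ∈ c, R s ∧ s.length = k + 1 := by
  cases k with
  | zero =>
    obtain ⟨p, rfl, hp⟩ := h
    intro s hs
    rw [Multiset.mem_singleton] at hs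
    subst hs
    exact ⟨hp, rfl⟩
  | succ k => exact h.1

lemma IsHemi.mono {ν : V → V} {R R' : List V → Prop} (hR : ∀ s, R s → R' s) {k : ℕ}
    {c : Multiset (List V)} (h : IsHemi ν R k c) : IsHemi ν R' k c := by
  induction k generalizing c with
  | zero =>
    obtain ⟨p, rfl, hp⟩ := h
    exact ⟨p, rfl, hR _ hp⟩
  | succ k ih =>
    obtain ⟨h1, c', h2, h3⟩ := h
    exact ⟨fun s hs => ⟨hR _ (h1 s hs).1, (h1 s hs).2⟩, c', ih h2, h3⟩

/-- the symmetrised chain -/
def sym (ν : V → V) (c : Multiset (List V)) : Multiset (List V) := c + c.map (List.map ν)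

lemma ev_sym (ν : V → V) (c : Multiset (List V)) (f : List V → ZMod 2) :
    ev f (sym ν c) = ev f c + ev (fun s => f (s.map ν)) c := by
  simp [sym, ev_map]

lemma IsHemi.cycle {ν : V → V} (hν : ∀ v, ν (ν v) = v) {R : List V → Prop} {k : ℕ}
    {c : Multiset (List V)} (h : IsHemi ν R k c) : IsCycle (sym ν c) := by
  intro f
  rw [ev_sym]
  cases k with
  | zero =>
    obtain ⟨p, rfl, hp⟩ := h
    simp [z2]
  | succ k =>
    obtain ⟨h1, c', h2, h3⟩ := h
    have e1 : ev (fun s => dd f (s.map ν)) c = ev (dd (fun t => f (t.map ν))) c :=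
      ev_congr _ _ _ (fun s _ => (dd_map ν f s).symm)
    rw [e1, h3, h3]
    have e2 : ev (fun s => f ((s.map ν).map ν)) c' = ev f c' := by
      apply ev_congr
      intro s _
      rw [List.map_map]
      have : (ν ∘ ν) = id := funext hν
      rw [this, List.map_id]
    rw [e2]
    have := z2 (ev f c' + ev (fun s => f (s.map ν)) c')
    linear_combination this

/-- small simplices on the l1 sphere -/
def Small {n : ℕ} (k : ℕ) (η : ℝ) (s : List (Fin n → ℝ)) : Prop :=
  (∀ a ∈ s, ∑ i, |a i| = 1 ∧ ∀ i : Fin n, k < i.val → a i = 0) ∧ ∀ a ∈ s, ∀ b ∈ s, ∀ i, |a i - b i| ≤ η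

lemma exists_hemi {n : ℕ} (k : ℕ) (hk : k < n) (η : ℝ) (hη : 0 < η) :
    ∃ c, IsHemi (fun a : Fin n → ℝ => -a) (Small k η) k c := by
  induction k generalizing η with
  | zero =>
    refine ⟨_, Pi.single ⟨0, hk⟩ 1, rfl, ?_, ?_⟩
    · intro a ha
      simp only [List.mem_singleton] at ha
      subst ha
      constructor
      · rw [Finset.sum_eq_single ⟨0, hk⟩]
        · simp
        · intro b _ hb; simp [Pi.single_apply, hb]
        · simp
      · intro i hi
        have : i ≠ ⟨0, hk⟩ := by intro h; subst h; simp at hi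
        simp [Pi.single_apply, this]
    · intro a ha b hb i
      simp only [List.mem_singleton] at ha hb
      subst ha hb
      simp [hη.le]
  | succ k ih =>
    obtain ⟨c', hc'⟩ := ih (by omega) (η / 2) (by positivity)
    obtain ⟨m, hm⟩ := exists_nat_gt (4 / η)
    have hm0 : (0 : ℝ) < m := lt_trans (by positivity) hm
    have hm' : 2 / (m : ℝ) ≤ η / 2 := by
      rw [div_lt_iff₀ hη] at hm
      rw [div_le_div_iff₀ hm0 (by norm_num)]
      linarith
    let e : Fin n → ℝ := Pi.single ⟨k + 1, hk⟩ 1
    let h : ℕ → (Fin n → ℝ) → (Fin n → ℝ) := fun t a => (1 - t / (m : ℝ)) • a + (t / (m : ℝ)) • e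
    have hz := hc'.cycle (fun v => neg_neg v)
    have hsm : ∀ s ∈ sym (fun a : Fin n → ℝ => -a) c', Small k (η / 2) s ∧ s.length = k + 1 := by
      intro s hs
      simp only [sym, Multiset.mem_add, Multiset.mem_map] at hs
      rcases hs with hs | ⟨s', hs', rfl⟩
      · exact hc'.mem s hs
      · obtain ⟨⟨h1, h2⟩, h3⟩ := hc'.mem s' hs'
        refine ⟨⟨?_, ?_⟩, by simpa using h3⟩
        · intro a ha
          obtain ⟨a', ha', rfl⟩ := List.mem_map.1 ha
          refine ⟨by simpa using (h1 a' ha').1, fun i hi => by simp [(h1 a' ha').2 i hi]⟩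
        · intro a ha b hb i
          obtain ⟨a', ha', rfl⟩ := List.mem_map.1 ha
          obtain ⟨b', hb', rfl⟩ := List.mem_map.1 hb
          have := h2 a' ha' b' hb' i
          rw [abs_sub_comm] at this
          simpa [sub_eq_add_neg, add_comm] using this
    have hone : ∀ a : Fin n → ℝ, (∑ i, |a i| = 1) → ∀ i, |a i| ≤ 1 := by
      intro a ha i
      rw [← ha]
      exact Finset.single_le_sum (f := fun i => |a i|) (fun i _ => abs_nonneg _) (Finset.mem_univ i)
    have he : ∀ i, |e i| ≤ 1 := by
      intro i
      simp only [e, Pi.single_apply]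
      split_ifs <;> simp
    have hsph : ∀ j : ℕ, j ≤ m → ∀ a : Fin n → ℝ,
        (∑ i, |a i| = 1 ∧ ∀ i : Fin n, k < i.val → a i = 0) →
        (∑ i, |h j a i| = 1 ∧ ∀ i : Fin n, k + 1 < i.val → h j a i = 0) := by
      intro j hj a ⟨ha1, ha2⟩
      have hj1 : (j : ℝ) / m ≤ 1 := by
        rw [div_le_one hm0]; exact_mod_cast hj
      have hj0 : 0 ≤ (j : ℝ) / m := by positivity
      constructor
      · have : ∀ i, |h j a i| = (1 - j / (m : ℝ)) * |a i| + (j / (m : ℝ)) * e i := by
          intro i
          by_cases hi : i = ⟨k + 1, hk⟩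
          · subst hi
            simp [h, e, ha2 ⟨k + 1, hk⟩ (by simp), abs_of_nonneg hj0]
          · simp [h, e, Pi.single_apply, hi, abs_mul, abs_of_nonneg (sub_nonneg.2 hj1)]
        simp only [this, Finset.sum_add_distrib, ← Finset.mul_sum, ha1]
        simp [e]
      · intro i hi
        have : i ≠ ⟨k + 1, hk⟩ := by intro h; subst h; simp at hi
        simp [h, e, Pi.single_apply, this, ha2 i (by omega)]
    have hdist : ∀ j j' : ℕ, j ≤ m → j' ≤ m → |(j : ℝ) - j'| ≤ 1 → ∀ a b : Fin n → ℝ,
        (∀ i, |b i| ≤ 1) → (∀ i, |a i - b i| ≤ η / 2) → ∀ i, |h j a i - h j' b i| ≤ η := by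
      intro j j' hj hj' hjj a b hb hab i
      have hj1 : (j : ℝ) / m ≤ 1 := by
        rw [div_le_one hm0]; exact_mod_cast hj
      have hj0 : 0 ≤ (j : ℝ) / m := by positivity
      have : h j a i - h j' b i = (1 - j / (m : ℝ)) * (a i - b i) + ((j - j') / (m : ℝ)) * (e i - b i) := by
        simp [h]; ring
      rw [this]
      have h1 : |(1 - j / (m : ℝ)) * (a i - b i)| ≤ η / 2 := by
        rw [abs_mul, abs_of_nonneg (sub_nonneg.2 hj1)]
        have := hab i
        have := abs_nonneg (a i - b i)
        nlinarith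
      have h2 : |((j - j') / (m : ℝ)) * (e i - b i)| ≤ 2 / m := by
        rw [abs_mul, abs_div, abs_of_pos hm0, div_mul_eq_mul_div]
        apply div_le_div_of_nonneg_right _ hm0.le
        have h3 : |e i - b i| ≤ 2 := by
          have := abs_sub (e i) (b i)
          linarith [he i, hb i]
        have := abs_nonneg ((j : ℝ) - j')
        have := abs_nonneg (e i - b i)
        nlinarith
      linarith [abs_add_le ((1 - j / (m : ℝ)) * (a i - b i)) (((j - j') / (m : ℝ)) * (e i - b i))]
    refine ⟨sweep h (sym (fun a => -a) c') m, ?_, c', ?_, ?_⟩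
    · intro t ht
      obtain ⟨j, hj, s, hs, hl, hw⟩ := mem_sweep _ _ _ _ ht
      obtain ⟨⟨h1, h2⟩, h3⟩ := hsm s hs
      refine ⟨⟨?_, ?_⟩, by omega⟩
      · intro a ha
        obtain ⟨v, hv, rfl | rfl⟩ := hw a ha
        · exact hsph j (by omega) v (h1 v hv)
        · exact hsph (j + 1) (by omega) v (h1 v hv)
      · intro a ha b hb
        obtain ⟨v, hv, ha'⟩ := hw a ha
        obtain ⟨w, hw', hb'⟩ := hw b hb
        have hw1 := hone w (h1 w hw').1
        have hvw := h2 v hv w hw'
        rcases ha' with rfl | rfl <;> rcases hb' with rfl | rfl <;>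
          apply hdist _ _ (by omega) (by omega) _ _ _ hw1 hvw <;> simp
    · refine hc'.mono ?_
      intro s ⟨h1, h2⟩
      refine ⟨fun a ha => ⟨(h1 a ha).1, fun i hi => (h1 a ha).2 i (by omega)⟩, ?_⟩
      intro a ha b hb i
      linarith [h2 a ha b hb i]
    · intro f
      rw [ev_dd_sweep _ _ hz]
      have e1 : ev (fun s => f (s.map (h m))) (sym (fun a => -a) c') = 0 := by
        rw [ev_sym]
        have hc : h m = fun _ => e := by
          funext a; simp [h, div_self hm0.ne']
        have : ev (fun s => f ((s.map (fun a => -a)).map (h m))) c' =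
            ev (fun s => f (s.map (h m))) c' := by
          apply ev_congr
          intro s _
          rw [hc, List.map_map]
          rfl
        rw [this, z2]
      have e2 : h 0 = id := by funext a; simp [h]
      rw [e1, e2, zero_add, ev_sym]
      simp

/-! ### Ky Fan -/

/-- alternating parity indicator -/
def alt : Bool → List ℕ → ZMod 2
  | _, [] => 1
  | b, x :: l => if (x % 2 = 1) = (b = true) then alt (!b) l else 0

lemma dd_alt (b : Bool) (l : List ℕ) : dd (alt b) l = alt b l + alt (!b) l := by
  induction l generalizing b with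
  | nil => simp [alt]; rfl
  | cons x l ih =>
    rw [dd_cons]
    have : (fun t => alt b (x :: t)) =
        fun t => (if (x % 2 = 1) = (b = true) then 1 else 0) * alt (!b) t := by
      funext t; simp only [alt]; split_ifs <;> simp
    rw [this, dd_mul, ih]
    have e := z2 (alt b l)
    cases b <;> by_cases hx : x % 2 = 1 <;> simp [alt, hx] at e ⊢ <;> linear_combination e

/-- flip the parity of a label -/
def flipL (x : ℕ) : ℕ := if x % 2 = 1 then x - 1 else x + 1

lemma alt_flip (b : Bool) (l : List ℕ) : alt b (l.map flipL) = alt (!b) l := by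
  induction l generalizing b with
  | nil => simp [alt]
  | cons x l ih =>
    simp only [List.map_cons, alt, ih]
    have : (flipL x % 2 = 1) = ¬ (x % 2 = 1) := by
      unfold flipL; split_ifs with h <;> simp <;> omega
    cases b <;> by_cases hx : x % 2 = 1 <;> simp [hx, this]

lemma alt_ne_zero (b : Bool) (l : List ℕ) (hs : l.Pairwise (· ≤ ·)) (h : alt b l ≠ 0) :
    l.Nodup := by
  have key : ∀ (b : Bool) (l : List ℕ), l.Pairwise (· ≤ ·) → alt b l ≠ 0 →
      l.Pairwise (· < ·) := by
    intro b l
    induction l generalizing b with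
    | nil => simp
    | cons x l ih =>
      intro hs h
      rw [List.pairwise_cons] at hs ⊢
      simp only [alt] at h
      split_ifs at h with hx
      · have ih' := ih _ hs.2 h
        refine ⟨?_, ih'⟩
        cases l with
        | nil => simp
        | cons y l =>
          simp only [alt] at h
          split_ifs at h with hy
          · have hxy : x < y := by
              have := hs.1 y (by simp)
              rcases lt_or_eq_of_le this with h' | h'
              · exact h'
              · subst h'; rw [hx] at hy; cases b <;> simp at hy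
            intro a ha
            rcases List.mem_cons.1 ha with rfl | ha
            · exact hxy
            · exact lt_trans hxy ((List.pairwise_cons.1 ih').1 a ha)
          · exact absurd rfl h
      · exact absurd rfl h
  exact (key b l hs h).imp (fun h => ne_of_lt h)

/-- sorted alternation on multisets of labels -/
def altM (b : Bool) (M : Multiset ℕ) : ZMod 2 := alt b (M.sort (· ≤ ·))

lemma dd_altM (b : Bool) (l : List ℕ) :
    dd (fun t => altM b (t : Multiset ℕ)) l = altM b l + altM (!b) l := by
  have h1 : dd (fun t => altM b (t : Multiset ℕ)) l =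
      dd (fun t => altM b (t : Multiset ℕ)) ((l : Multiset ℕ).sort (· ≤ ·)) := by
    rw [dd_multiset, dd_multiset, Multiset.sort_eq]
  rw [h1, dd_congr _ (alt b), dd_alt]
  · rfl
  · intro t ht
    have hs : t.Pairwise (· ≤ ·) := (Multiset.pairwise_sort _ _).sublist ht
    unfold altM
    congr 1
    apply List.Perm.eq_of_pairwise' (r := (· ≤ ·)) (Multiset.pairwise_sort _ _) hs
    rw [← Multiset.coe_eq_coe, Multiset.sort_eq]

lemma altM_flip (b : Bool) (l : List ℕ) (h : ∀ x ∈ l, ∀ y ∈ l, x / 2 = y / 2 → x = y) :
    altM b (l.map flipL : List ℕ) = altM (!b) l := by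
  unfold altM
  rw [← alt_flip]
  congr 1
  apply List.Perm.eq_of_pairwise' (r := (· ≤ ·)) (Multiset.pairwise_sort _ _)
  · rw [List.pairwise_map]
    have hs := Multiset.pairwise_sort (l : Multiset ℕ) (· ≤ ·)
    refine hs.imp_of_mem ?_
    intro x y hx hy hxy
    rw [Multiset.mem_sort] at hx hy
    have := h x hx y hy
    unfold flipL
    split_ifs <;> omega
  · rw [← Multiset.coe_eq_coe, Multiset.sort_eq, ← Multiset.map_coe, ← Multiset.map_coe,
      Multiset.sort_eq]

theorem kyfan {ν : V → V} {R : List V → Prop} (lab : V → ℕ)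
    (hR1 : ∀ s, R s → ∀ v ∈ s, lab (ν v) = flipL (lab v))
    (hR2 : ∀ s, R s → ∀ v ∈ s, ∀ w ∈ s, lab v / 2 = lab w / 2 → lab v = lab w)
    {k : ℕ} {c : Multiset (List V)} (h : IsHemi ν R k c) :
    ev (fun s => altM true (s.map lab : List ℕ)) (sym ν c) = 1 := by
  have hflip : ∀ k c, IsHemi ν R k c → ev (fun s => altM true (s.map lab : List ℕ)) (sym ν c) =
      ev (fun s => altM true (s.map lab : List ℕ) + altM false (s.map lab : List ℕ)) c := by
    intro k c h
    rw [ev_sym, ev_fadd]
    congr 1
    apply ev_congr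
    intro s hs
    have hs' := (h.mem s hs).1
    have : (s.map ν).map lab = (s.map lab).map flipL := by
      simp only [List.map_map]
      apply List.map_congr_left
      intro v hv
      exact hR1 s hs' v hv
    rw [this, altM_flip]
    · rfl
    · intro x hx y hy
      obtain ⟨v, hv, rfl⟩ := List.mem_map.1 hx
      obtain ⟨w, hw, rfl⟩ := List.mem_map.1 hy
      exact hR2 s hs' v hv w hw
  induction k generalizing c with
  | zero =>
    rw [hflip _ _ h]
    obtain ⟨p, rfl, hp⟩ := h
    simp only [ev_singleton, List.map_cons, List.map_nil, altM, Multiset.coe_singleton,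
      Multiset.sort_singleton, alt]
    by_cases hx : lab p % 2 = 1 <;> simp [hx]
  | succ k ih =>
    rw [hflip _ _ h]
    obtain ⟨h1, c', h2, h3⟩ := h
    rw [← ih h2, ev_sym, ← h3]
    apply ev_congr
    intro s _
    rw [dd_map lab (fun t => altM true (t : Multiset ℕ)), dd_altM]
    rfl

lemma altM_ne_zero (b : Bool) (M : Multiset ℕ) (h : altM b M ≠ 0) : M.Nodup := by
  have := alt_ne_zero b _ (Multiset.pairwise_sort _ _) h
  rw [← Multiset.sort_eq M (· ≤ ·)]
  exact this

end Crest.Agent.LeadChains
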