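import Mathlib

/-! Averages over a period, mean value property, Schur test and the abstract `L²` estimate. -/

open Set Filter Metric Topology MeasureTheory

namespace Crest.Agent.Lead.Cz

local notation "conj" => starRingEnd ℂ

/-- normalised Lebesgue measure on a period -/
noncomputable def mu : Measure ℝ :=
  (ENNReal.ofReal (2 * Real.pi))⁻¹ • volume.restrict (Icc 0 (2 * Real.pi))

theorem ofReal_two_pi_ne : ENNReal.ofReal (2 * Real.pi) ≠ 0 := by
  simpa using Real.pi_pos

instance : IsProbabilityMeasure mu := ⟨by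
  simp only [mu, Measure.smul_apply, MeasurableSet.univ, Measure.restrict_apply, univ_inter,
    Real.volume_Icc, sub_zero, smul_eq_mul]
  exact ENNReal.inv_mul_cancel ofReal_two_pi_ne ENNReal.ofReal_ne_top⟩

section
variable {E : Type*} [NormedAddCommGroup E]

theorem intg {f : ℝ → E} (hf : Continuous f) : Integrable f mu :=
  (hf.integrableOn_Icc).smul_measure (ENNReal.inv_ne_top.2 ofReal_two_pi_ne)

theorem intg2 {f : ℝ → ℝ → E} (hf : Continuous (Function.uncurry f)) :
    Integrable (Function.uncurry f) (mu.prod mu) := by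
  unfold mu
  rw [Measure.prod_smul_left, Measure.prod_smul_right, Measure.prod_restrict]
  refine Integrable.smul_measure (Integrable.smul_measure ?_ ?_) ?_
  · exact hf.continuousOn.integrableOn_compact (isCompact_Icc.prod isCompact_Icc)
  all_goals exact ENNReal.inv_ne_top.2 ofReal_two_pi_ne

variable [NormedSpace ℝ E]

theorem int_mu (f : ℝ → E) :
    ∫ θ, f θ ∂mu = (2 * Real.pi)⁻¹ • ∫ θ in (0 : ℝ)..2 * Real.pi, f θ := by
  rw [mu, integral_smul_measure, intervalIntegral.integral_of_le Real.two_pi_pos.le,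
    integral_Icc_eq_integral_Ioc, ENNReal.toReal_inv, ENNReal.toReal_ofReal Real.two_pi_pos.le]

theorem int_add {f g : ℝ → E} (hf : Continuous f) (hg : Continuous g) :
    ∫ θ, (f θ + g θ) ∂mu = ∫ θ, f θ ∂mu + ∫ θ, g θ ∂mu := integral_add (intg hf) (intg hg)

theorem int_sub {f g : ℝ → E} (hf : Continuous f) (hg : Continuous g) :
    ∫ θ, (f θ - g θ) ∂mu = ∫ θ, f θ ∂mu - ∫ θ, g θ ∂mu := integral_sub (intg hf) (intg hg)

theorem int_sum {ι : Type*} (s : Finset ι) {f : ι → ℝ → E} (hf : ∀ i, Continuous (f i)) :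
    ∫ θ, ∑ i ∈ s, f i θ ∂mu = ∑ i ∈ s, ∫ θ, f i θ ∂mu :=
  integral_finset_sum s fun i _ => intg (hf i)

theorem cont_int {X : Type*} [TopologicalSpace X] [FirstCountableTopology X]
    [LocallyCompactSpace X] {f : X → ℝ → E} (hf : Continuous (Function.uncurry f)) :
    Continuous fun x => ∫ θ, f x θ ∂mu := by
  simp only [mu, integral_smul_measure]
  exact (continuous_parametric_integral_of_continuous hf isCompact_Icc).const_smul _

theorem swap_int [CompleteSpace E] {f : ℝ → ℝ → E} (hf : Continuous (Function.uncurry f)) :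
    ∫ s, ∫ t, f s t ∂mu ∂mu = ∫ t, ∫ s, f s t ∂mu ∂mu :=
  integral_integral_swap (intg2 hf)

theorem ftc_zero [CompleteSpace E] {g g' : ℝ → E} (hg : ∀ θ, HasDerivAt g (g' θ) θ)
    (hc : Continuous g') (hp : g (2 * Real.pi) = g 0) : ∫ θ, g' θ ∂mu = 0 := by
  rw [int_mu, intervalIntegral.integral_eq_sub_of_hasDerivAt (fun θ _ => hg θ)
    (hc.intervalIntegrable _ _), hp, sub_self, smul_zero]

end

theorem mean {f : ℂ → ℂ} {ρ r : ℝ} (hf : DifferentiableOn ℂ f (ball 0 ρ)) (hr : 0 < r)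
    (hrρ : r < ρ) : ∫ θ, f (circleMap 0 r θ) ∂mu = f 0 := by
  rw [int_mu]
  have h : DiffContOnCl ℂ f (ball 0 |r|) := by
    refine DifferentiableOn.diffContOnCl (hf.mono ?_)
    rw [abs_of_pos hr, closure_ball 0 hr.ne']
    exact closedBall_subset_ball hrρ
  exact h.circleAverage

theorem cm_mem {ρ r : ℝ} (hr : 0 < r) (hrρ : r < ρ) (θ : ℝ) : circleMap 0 r θ ∈ ball (0 : ℂ) ρ := by
  simpa [abs_of_pos hr] using hrρ

theorem cm_norm {r : ℝ} (hr : 0 < r) (θ : ℝ) : ‖circleMap 0 r θ‖ = r := by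
  simp [abs_of_pos hr]

theorem cont_cm {f : ℂ → ℂ} {ρ r : ℝ} (hf : ContinuousOn f (ball 0 ρ)) (hr : 0 < r)
    (hrρ : r < ρ) : Continuous fun θ => f (circleMap 0 r θ) :=
  hf.comp_continuous (continuous_circleMap 0 r) (cm_mem hr hrρ)

theorem int_re {f : ℝ → ℂ} (hf : Continuous f) : ∫ θ, (f θ).re ∂mu = (∫ θ, f θ ∂mu).re :=
  integral_re (intg hf)

theorem schur {P : ℝ → ℝ → ℝ} (hP : Continuous (Function.uncurry P)) (h0 : ∀ s t, 0 ≤ P s t)
    (h1 : ∀ t, ∫ s, P s t ∂mu = 1) (h2 : ∀ s, ∫ t, P s t ∂mu = 1) {φ : ℝ → ℂ}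
    (hφ : Continuous φ) :
    ∫ t, ‖∫ s, φ s * P s t ∂mu‖ ^ 2 ∂mu ≤ ∫ s, ‖φ s‖ ^ 2 ∂mu := by
  have hPt : ∀ t, Continuous fun s => P s t := fun t => hP.comp (by fun_prop : Continuous fun s => (s, t))
  have hPs : ∀ s, Continuous fun t => P s t := fun s => hP.comp (by fun_prop : Continuous fun t => (s, t))
  have hc1 : Continuous (Function.uncurry fun s t => ‖φ s‖ ^ 2 * P s t) :=
    ((hφ.comp continuous_fst).norm.pow 2).mul hP
  have hpt : ∀ t, ‖∫ s, φ s * P s t ∂mu‖ ^ 2 ≤ ∫ s, ‖φ s‖ ^ 2 * P s t ∂mu := by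
    intro t
    have a1 : ‖∫ s, φ s * P s t ∂mu‖ ≤ ∫ s, ‖φ s‖ * P s t ∂mu := by
      refine (norm_integral_le_integral_norm _).trans_eq ?_
      simp only [norm_mul, Complex.norm_real, Real.norm_eq_abs, abs_of_nonneg (h0 _ _)]
    set m := ∫ s, ‖φ s‖ * P s t ∂mu with hm
    have a2 : ∫ s, 2 * m * (‖φ s‖ * P s t) ∂mu ≤ ∫ s, (‖φ s‖ ^ 2 * P s t + m ^ 2 * P s t) ∂mu := by
      refine integral_mono (intg (continuous_const.mul (hφ.norm.mul (hPt t))))
        (intg (((hφ.norm.pow 2).mul (hPt t)).add (continuous_const.mul (hPt t)))) fun s => ?_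
      have := mul_nonneg (sq_nonneg (‖φ s‖ - m)) (h0 s t)
      simp only
      nlinarith
    have := hPt t
    rw [integral_const_mul, int_add, integral_const_mul, h1 t, ← hm] at a2
    · have a3 := pow_le_pow_left₀ (norm_nonneg _) a1 2
      nlinarith
    all_goals fun_prop
  have hc2 : Continuous (Function.uncurry fun t s => φ s * (P s t : ℂ)) :=
    (hφ.comp continuous_snd).mul (Complex.continuous_ofReal.comp (hP.comp continuous_swap))
  refine (integral_mono (intg ((cont_int hc2).norm.pow 2))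
    (intg (cont_int (f := fun t s => ‖φ s‖ ^ 2 * P s t) (hc1.comp continuous_swap))) hpt).trans_eq ?_
  rw [← swap_int hc1]
  simp only [integral_const_mul, h2, mul_one]

theorem l2_abstract {P Q : ℝ → ℝ → ℂ} (hP : Continuous (Function.uncurry P))
    (hQ : Continuous (Function.uncurry Q)) (hP0 : ∀ s t, 0 ≤ (P s t).re)
    (hQ0 : ∀ s t, 0 ≤ (Q s t).re) (hP1 : ∀ t, ∫ s, P s t ∂mu = 1) (hQ1 : ∀ t, ∫ s, Q s t ∂mu = 1)
    (hP2 : ∀ s, ∫ t, P s t ∂mu = 1) (hQ2 : ∀ s, ∫ t, Q s t ∂mu = 1) {φ : ℝ → ℂ}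
    (hφ : Continuous φ) (hP3 : ∀ t, ∫ s, conj (φ s) * P s t ∂mu = 0)
    (hQ3 : ∀ t, ∫ s, conj (φ s) * Q s t ∂mu = 0) (hφ0 : ∫ s, φ s ∂mu = 0)
    (hPQ : ∀ s' s, ∫ t, conj (P s' t) * Q s t ∂mu = 1) (g : ℂ) :
    ∫ t, ‖∫ s, (P s t + Q s t) / 2 * (g + φ s) ∂mu‖ ^ 2 ∂mu ≤ ‖g‖ ^ 2 + 2 * ∫ s, ‖φ s‖ ^ 2 ∂mu := by
  have gen : ∀ {P : ℝ → ℝ → ℂ}, Continuous (Function.uncurry P) → (∀ s t, 0 ≤ (P s t).re) →
      (∀ t, ∫ s, P s t ∂mu = 1) → (∀ s, ∫ t, P s t ∂mu = 1) →
      (∀ t, ∫ s, conj (φ s) * P s t ∂mu = 0) →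
      Continuous (fun t => ∫ s, φ s * P s t / 2 ∂mu) ∧ ∫ t, ∫ s, φ s * P s t / 2 ∂mu ∂mu = 0 ∧
        ∫ t, ‖∫ s, φ s * P s t / 2 ∂mu‖ ^ 2 ∂mu ≤ ∫ s, ‖φ s‖ ^ 2 ∂mu := by
    intro P hP hP0 hP1 hP2 hP3
    have hPt : ∀ t, Continuous fun s => P s t :=
      fun t => hP.comp (by fun_prop : Continuous fun s => (s, t))
    have hPs : ∀ s, Continuous fun t => P s t :=
      fun s => hP.comp (by fun_prop : Continuous fun t => (s, t))
    have hc : Continuous (Function.uncurry fun s t => φ s * P s t / 2) :=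
      ((hφ.comp continuous_fst).mul hP).div_const _
    refine ⟨cont_int (f := fun t s => φ s * P s t / 2) (hc.comp continuous_swap), ?_, ?_⟩
    · rw [← swap_int hc]
      simp only [integral_div, integral_const_mul, hP2, mul_one, hφ0, zero_div]
    · have := schur (P := fun s t => (P s t).re) (Complex.continuous_re.comp hP) hP0
        (fun t => by rw [int_re (hPt t), hP1]; rfl) (fun s => by rw [int_re (hPs s), hP2]; rfl) hφ
      refine le_of_eq_of_le ?_ this
      congr 1
      ext t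
      congr 2
      have e : ∀ s, φ s * ((P s t).re : ℂ) = φ s * P s t / 2 + conj (conj (φ s) * P s t) / 2 := by
        intro s
        rw [Complex.re_eq_add_conj, map_mul, Complex.conj_conj]
        ring
      simp only [e]
      have := hPt t
      rw [int_add, integral_div _ (fun s => conj (conj (φ s) * P s t)), integral_conj, hP3]
      · simp
      all_goals fun_prop
  obtain ⟨pc, p0, p2⟩ := gen hP hP0 hP1 hP2 hP3
  obtain ⟨qc, q0, q2⟩ := gen hQ hQ0 hQ1 hQ2 hQ3
  have hPt : ∀ t, Continuous fun s => P s t :=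
    fun t => hP.comp (by fun_prop : Continuous fun s => (s, t))
  have hPs : ∀ s, Continuous fun t => P s t :=
    fun s => hP.comp (by fun_prop : Continuous fun t => (s, t))
  have hQt : ∀ t, Continuous fun s => Q s t :=
    fun t => hQ.comp (by fun_prop : Continuous fun s => (s, t))
  set p := fun t => ∫ s, φ s * P s t / 2 ∂mu with hp
  set q := fun t => ∫ s, φ s * Q s t / 2 ∂mu with hq
  have e1 : ∀ t, ∫ s, (P s t + Q s t) / 2 * (g + φ s) ∂mu = g + p t + q t := by
    intro t
    have e : ∀ s, (P s t + Q s t) / 2 * (g + φ s) =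
        ((g / 2 * P s t + g / 2 * Q s t) + φ s * P s t / 2) + φ s * Q s t / 2 := by
      intro s; ring
    simp only [e]
    have i1 := hPt t
    have i2 := hQt t
    rw [int_add, int_add, int_add, integral_const_mul, integral_const_mul, hP1, hQ1]
    · simp only [hp, hq]
      ring
    all_goals fun_prop
  have hpq : ∫ t, conj (p t) * q t ∂mu = 0 := by
    have a1 : ∀ s', ∫ t, conj (P s' t) * q t ∂mu = 0 := by
      intro s'
      have hc : Continuous (Function.uncurry fun s t => φ s / 2 * (conj (P s' t) * Q s t)) :=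
        ((hφ.comp continuous_fst).div_const _).mul
          ((Complex.continuous_conj.comp ((hPs s').comp continuous_snd)).mul hQ)
      have := swap_int hc
      simp only [integral_const_mul, hPQ, mul_one, integral_div, hφ0, zero_div] at this
      rw [this]
      congr 1
      ext t
      rw [hq]
      simp only
      rw [← integral_const_mul]
      congr 1
      ext s
      ring
    have hc : Continuous (Function.uncurry fun s t => conj (φ s) / 2 * (conj (P s t) * q t)) :=
      ((Complex.continuous_conj.comp (hφ.comp continuous_fst)).div_const _).mul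
        ((Complex.continuous_conj.comp hP).mul (qc.comp continuous_snd))
    have := swap_int hc
    simp only [integral_const_mul, a1, mul_zero, integral_zero] at this
    rw [this]
    congr 1
    ext t
    rw [hp]
    simp only
    rw [← integral_conj, ← integral_mul_const]
    congr 1
    ext s
    simp only [map_div₀, map_mul, map_ofNat]
    ring
  simp only [e1]
  have e2 : ∀ t, ‖g + p t + q t‖ ^ 2 = (‖g‖ ^ 2 + ‖p t‖ ^ 2 + ‖q t‖ ^ 2) +
      (2 * (conj g * p t) + 2 * (conj g * q t) + 2 * (conj (p t) * q t)).re := by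
    intro t
    simp only [Complex.sq_norm, Complex.normSq_apply, Complex.add_re, Complex.add_im,
      Complex.mul_re, Complex.mul_im, Complex.conj_re, Complex.conj_im, Complex.re_ofNat,
      Complex.im_ofNat]
    ring
  simp only [e2]
  rw [int_add, int_re, int_add, int_add, int_add, int_add]
  · simp only [integral_const_mul, p0, q0, hpq, integral_const, probReal_univ, smul_eq_mul,
      mul_zero, add_zero, Complex.zero_re, one_mul]
    linarith
  all_goals fun_prop

end Crest.Agent.Lead.Cz
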