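import Mathlib
import Crest.Agent.Lead.CzAv

/-! Hilbert–Schmidt norm of rectangular matrices; holomorphic matrix functions on the disc. -/

open Set Filter Metric Topology MeasureTheory Matrix
open scoped ComplexOrder MatrixOrder

namespace Crest.Agent.Lead.Cz

local notation "conj" => starRingEnd ℂ

variable {p q r : Type*} [Fintype p] [Fintype q] [Fintype r]

/-- squared Hilbert–Schmidt norm -/
noncomputable def hs (X : Matrix p q ℂ) : ℝ := ∑ i, ∑ j, ‖X i j‖ ^ 2

theorem hs_nonneg (X : Matrix p q ℂ) : 0 ≤ hs X := by unfold hs; positivity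

theorem hs_transpose (X : Matrix p q ℂ) : hs Xᵀ = hs X := by
  unfold hs; rw [Finset.sum_comm]; rfl

theorem hs_ct (X : Matrix p q ℂ) : hs Xᴴ = hs X := by
  unfold hs; rw [Finset.sum_comm]; simp

theorem tr_ct_mul (X : Matrix p q ℂ) : trace (Xᴴ * X) = hs X := by
  simp only [hs, trace, diag, mul_apply, conjTranspose_apply, Complex.ofReal_sum, Complex.ofReal_pow]
  rw [Finset.sum_comm]
  refine Finset.sum_congr rfl fun i _ => Finset.sum_congr rfl fun j _ => ?_
  exact Complex.conj_mul' _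

theorem tr_mul_ct (X : Matrix p q ℂ) : trace (X * Xᴴ) = hs X := by
  rw [trace_mul_comm, tr_ct_mul]

theorem hs_eq_zero {X : Matrix p q ℂ} (h : hs X = 0) : X = 0 := by
  ext i j
  have h1 := (Finset.sum_eq_zero_iff_of_nonneg fun i _ => by positivity).1 h i (Finset.mem_univ _)
  have h2 := (Finset.sum_eq_zero_iff_of_nonneg fun i _ => by positivity).1 h1 j (Finset.mem_univ _)
  simpa using h2

@[fun_prop]
theorem cont_hs {T : Type*} [TopologicalSpace T] {f : T → Matrix p q ℂ} (hf : Continuous f) :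
    Continuous fun t => hs (f t) := by
  unfold hs
  fun_prop

theorem hs_gram (a : Matrix p q ℂ) (b : Matrix p r ℂ) :
    2 * hs (bᴴ * a) ≤ hs (aᴴ * a) + hs (bᴴ * b) := by
  have h0 := hs_nonneg (a * aᴴ - b * bᴴ)
  have e1 : (hs (a * aᴴ - b * bᴴ) : ℂ) = hs (aᴴ * a) + hs (bᴴ * b) - 2 * hs (bᴴ * a) := by
    simp only [← tr_ct_mul, conjTranspose_sub, conjTranspose_mul, conjTranspose_conjTranspose,
      Matrix.sub_mul, Matrix.mul_sub, trace_sub]
    have f1 : trace (a * aᴴ * (a * aᴴ)) = trace (aᴴ * a * (aᴴ * a)) := by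
      rw [Matrix.mul_assoc, trace_mul_comm]; simp only [Matrix.mul_assoc]
    have f2 : trace (b * bᴴ * (b * bᴴ)) = trace (bᴴ * b * (bᴴ * b)) := by
      rw [Matrix.mul_assoc, trace_mul_comm]; simp only [Matrix.mul_assoc]
    have f3 : trace (a * aᴴ * (b * bᴴ)) = trace (aᴴ * b * (bᴴ * a)) := by
      rw [Matrix.mul_assoc, trace_mul_comm]; simp only [Matrix.mul_assoc]
    have f4 : trace (b * bᴴ * (a * aᴴ)) = trace (aᴴ * b * (bᴴ * a)) := by
      rw [trace_mul_comm, f3]
    rw [f1, f2, f3, f4]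
    ring
  have e2 : hs (a * aᴴ - b * bᴴ) = hs (aᴴ * a) + hs (bᴴ * b) - 2 * hs (bᴴ * a) := by
    exact_mod_cast e1
  linarith

theorem hs_psd [DecidableEq p] {P : Matrix p p ℂ} (hP : P.PosSemidef) (x : Matrix p q ℂ)
    (y : Matrix p r ℂ) : 2 * hs (yᴴ * P * x) ≤ hs (xᴴ * P * x) + hs (yᴴ * P * y) := by
  obtain ⟨B, rfl⟩ := CStarAlgebra.nonneg_iff_eq_star_mul_self.mp hP.nonneg
  have := hs_gram (B * x) (B * y)
  simpa only [conjTranspose_mul, star_eq_conjTranspose, Matrix.mul_assoc] using this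

theorem two_re_tr_le (W : Matrix p q ℂ) (G : Matrix q p ℂ) {l : ℝ} (hl : 0 < l) :
    2 * (trace (W * G)).re ≤ l⁻¹ * hs W + l * hs G := by
  rw [← hs_transpose G]
  simp only [hs, trace, diag, mul_apply, Complex.re_sum, Finset.mul_sum, ← Finset.sum_add_distrib,
    transpose_apply]
  refine Finset.sum_le_sum fun i _ => Finset.sum_le_sum fun j _ => ?_
  have h1 : (W i j * G j i).re ≤ ‖W i j‖ * ‖G j i‖ := (Complex.re_le_norm _).trans_eq (norm_mul _ _)
  have h2 : 0 ≤ l⁻¹ * (‖W i j‖ - l * ‖G j i‖) ^ 2 := by positivity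
  have h3 : l⁻¹ * (‖W i j‖ - l * ‖G j i‖) ^ 2 =
      l⁻¹ * ‖W i j‖ ^ 2 + l * ‖G j i‖ ^ 2 - 2 * (‖W i j‖ * ‖G j i‖) := by
    field_simp
    ring
  linarith

theorem hs_mul_le [DecidableEq p] {F : Matrix p p ℂ} {M : ℝ}
    (hM : ‖Matrix.toEuclideanCLM (n := p) (𝕜 := ℂ) F‖ ≤ M) (Z : Matrix p q ℂ) :
    hs (F * Z) ≤ M ^ 2 * hs Z := by
  unfold hs
  rw [Finset.sum_comm, Finset.sum_comm (f := fun i j => ‖Z i j‖ ^ 2), Finset.mul_sum]
  refine Finset.sum_le_sum fun j _ => ?_
  have h1 := (Matrix.toEuclideanCLM (n := p) (𝕜 := ℂ) F).le_of_opNorm_le hM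
    (WithLp.toLp 2 fun i => Z i j)
  have h2 := pow_le_pow_left₀ (norm_nonneg _) h1 2
  rw [mul_pow, EuclideanSpace.norm_sq_eq, EuclideanSpace.norm_sq_eq] at h2
  exact h2

theorem hs_mul_tr_le [DecidableEq p] {F : Matrix p p ℂ} {M : ℝ}
    (hM : ‖Matrix.toEuclideanCLM (n := p) (𝕜 := ℂ) F‖ ≤ M) (Z : Matrix q p ℂ) :
    hs (Z * Fᵀ) ≤ M ^ 2 * hs Z := by
  rw [← hs_transpose, transpose_mul, transpose_transpose, ← hs_transpose Z]
  exact hs_mul_le hM _

theorem hs_tr_mul_le [DecidableEq p] {F : Matrix p p ℂ} {M : ℝ}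
    (hM : ‖Matrix.toEuclideanCLM (n := p) (𝕜 := ℂ) F‖ ≤ M) (Z : Matrix p q ℂ) :
    hs (Fᵀ * Z) ≤ M ^ 2 * hs Z := by
  rw [← hs_transpose, transpose_mul, transpose_transpose, ← hs_ct, conjTranspose_mul,
    ← hs_transpose Z, ← hs_ct Zᵀ]
  refine hs_mul_le ?_ _
  rw [← star_eq_conjTranspose, map_star, norm_star]
  exact hM

/-- entrywise average -/
noncomputable def avM {p q : Type*} (f : ℝ → Matrix p q ℂ) : Matrix p q ℂ :=
  Matrix.of fun i j => ∫ t, f t i j ∂mu

theorem mul_avM (P : Matrix r p ℂ) {f : ℝ → Matrix p q ℂ} (hf : Continuous f) :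
    P * avM f = avM fun t => P * f t := by
  ext i j
  simp only [avM, mul_apply, of_apply]
  rw [int_sum]
  · simp only [integral_const_mul]
  · intro k; fun_prop

theorem avM_mul {f : ℝ → Matrix p q ℂ} (hf : Continuous f) (P : Matrix q r ℂ) :
    avM f * P = avM fun t => f t * P := by
  ext i j
  simp only [avM, mul_apply, of_apply]
  rw [int_sum]
  · simp only [integral_mul_const]
  · intro k; fun_prop

theorem tr_avM {f : ℝ → Matrix p p ℂ} (hf : Continuous f) :
    trace (avM f) = ∫ t, trace (f t) ∂mu := by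
  simp only [avM, trace, diag, of_apply]
  rw [int_sum]
  intro k; fun_prop

/-- entrywise holomorphic on the unit disc -/
def Hol {p q : Type*} (u : ℂ → Matrix p q ℂ) : Prop :=
  ∀ i j, DifferentiableOn ℂ (fun a => u a i j) (ball 0 1)

theorem Hol.const {p q : Type*} (X : Matrix p q ℂ) : Hol fun _ => X :=
  fun _ _ => differentiableOn_const _

theorem Hol.sub {p q : Type*} {u v : ℂ → Matrix p q ℂ} (hu : Hol u) (hv : Hol v) :
    Hol fun a => u a - v a := fun i j => (hu i j).sub (hv i j)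

theorem Hol.mul {p r : Type*} {u : ℂ → Matrix p q ℂ} {v : ℂ → Matrix q r ℂ} (hu : Hol u)
    (hv : Hol v) : Hol fun a => u a * v a := fun i j => by
  simp only [mul_apply]
  exact DifferentiableOn.fun_sum fun k _ => (hu i k).mul (hv k j)

theorem Hol.tr {u : ℂ → Matrix p p ℂ} (hu : Hol u) :
    DifferentiableOn ℂ (fun a => trace (u a)) (ball 0 1) := by
  simp only [trace, diag]
  exact DifferentiableOn.fun_sum fun k _ => hu k k

theorem Hol.contOn {p q : Type*} {u : ℂ → Matrix p q ℂ} (hu : Hol u) :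
    ContinuousOn u (ball 0 1) :=
  continuousOn_pi.2 fun i => continuousOn_pi.2 fun j => (hu i j).continuousOn

theorem Hol.cont {p q : Type*} {u : ℂ → Matrix p q ℂ} (hu : Hol u) {ρ : ℝ} (h0 : 0 < ρ)
    (h1 : ρ < 1) : Continuous fun s => u (circleMap 0 ρ s) :=
  hu.contOn.comp_continuous (continuous_circleMap 0 ρ) (cm_mem h0 h1)

theorem hs_add_ct (X : Matrix p q ℂ) (Y : Matrix q p ℂ) :
    hs (X + Yᴴ) = hs X + hs Y + 2 * (trace (X * Y)).re := by
  rw [← hs_transpose Y]
  simp only [hs, trace, diag, mul_apply, Complex.re_sum, Finset.mul_sum, ← Finset.sum_add_distrib,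
    transpose_apply, Matrix.add_apply, conjTranspose_apply]
  refine Finset.sum_congr rfl fun i _ => Finset.sum_congr rfl fun j _ => ?_
  simp only [Complex.sq_norm, Complex.normSq_apply, Complex.add_re, Complex.add_im,
    Complex.mul_re, Complex.star_def, Complex.conj_re, Complex.conj_im]
  ring

theorem int_hs_add {u : ℂ → Matrix p q ℂ} {v : ℂ → Matrix q p ℂ} (hu : Hol u) (hv : Hol v)
    {ρ : ℝ} (h0 : 0 < ρ) (h1 : ρ < 1) :
    ∫ s, hs (u (circleMap 0 ρ s) + (v (circleMap 0 ρ s))ᴴ) ∂mu =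
      ∫ s, hs (u (circleMap 0 ρ s)) ∂mu + ∫ s, hs (v (circleMap 0 ρ s)) ∂mu +
        2 * (trace (u 0 * v 0)).re := by
  have c1 := hu.cont h0 h1
  have c2 := hv.cont h0 h1
  simp only [hs_add_ct]
  rw [int_add, int_add, integral_const_mul, int_re, mean (hu.mul hv).tr h0 h1]
  · exact (c1.matrix_mul c2).matrix_trace
  · exact cont_hs c1
  · exact cont_hs c2
  · exact (cont_hs c1).add (cont_hs c2)
  · exact continuous_const.mul (Complex.continuous_re.comp (c1.matrix_mul c2).matrix_trace)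

/-- the quantity `𝔑` -/
noncomputable def NN (u : ℂ → Matrix p p ℂ) (ρ : ℝ) : ℝ :=
  hs (u 0) + (∫ s, hs (u (circleMap 0 ρ s) - u 0) ∂mu) / 2

theorem NN_ge (u : ℂ → Matrix p p ℂ) (ρ : ℝ) : hs (u 0) ≤ NN u ρ := by
  have : 0 ≤ ∫ s, hs (u (circleMap 0 ρ s) - u 0) ∂mu := integral_nonneg fun s => hs_nonneg _
  unfold NN
  linarith

theorem int_hs_self {u : ℂ → Matrix p p ℂ} (hu : Hol u) (hH : (u 0)ᴴ = u 0)
    {ρ : ℝ} (h0 : 0 < ρ) (h1 : ρ < 1) :
    ∫ s, hs (u (circleMap 0 ρ s) + (u (circleMap 0 ρ s))ᴴ) ∂mu = 4 * NN u ρ := by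
  have a1 := int_hs_add hu hu h0 h1
  have a2 := int_hs_add (hu.sub (Hol.const (u 0))) (Hol.const (u 0)) h0 h1
  simp only [hH, sub_add_cancel, sub_self, Matrix.zero_mul, trace_zero, Complex.zero_re, mul_zero,
    add_zero, integral_const, probReal_univ, smul_eq_mul, one_mul] at a2
  have a3 : trace (u 0 * u 0) = hs (u 0) := by rw [← tr_ct_mul, hH]
  rw [a1, a2, a3, Complex.ofReal_re, NN]
  ring

theorem NN_tendsto {u : ℂ → Matrix p p ℂ} (hu : Hol u) {β : ℝ} (h0 : 0 < β) (h1 : β < 1) :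
    Tendsto (NN u) (𝓝[<] β) (𝓝 (NN u β)) := by
  set cl : ℝ → ℝ := fun x => max (β / 2) (min x β) with hcl
  have hc : Continuous fun x : ℝ × ℝ => u (circleMap 0 (cl x.1) x.2) := by
    refine hu.contOn.comp_continuous ?_ fun x => cm_mem ?_ ?_ _
    · simp only [circleMap, hcl]; fun_prop
    · exact lt_of_lt_of_le (half_pos h0) (le_max_left _ _)
    · exact max_lt (by linarith) (lt_of_le_of_lt (min_le_right _ _) h1)
  have hc2 : Continuous fun x => NN u (cl x) := by
    unfold NN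
    refine continuous_const.add (Continuous.div_const (cont_int ?_) _)
    exact cont_hs (hc.sub continuous_const)
  have h3 := (hc2.tendsto β).mono_left (nhdsWithin_le_nhds (s := Iio β))
  have e : cl β = β := by simp only [hcl, min_self]; exact max_eq_right (by linarith)
  rw [e] at h3
  refine h3.congr' ?_
  filter_upwards [Ioo_mem_nhdsLT (half_lt_self h0)] with x hx
  simp only [hcl]
  rw [min_eq_left hx.2.le, max_eq_right hx.1.le]

theorem diff_det [DecidableEq p] {u : ℂ → Matrix p p ℂ} (hu : Hol u) :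
    DifferentiableOn ℂ (fun a => (u a).det) (ball 0 1) := by
  simp only [det_apply']
  exact DifferentiableOn.fun_sum fun σ _ =>
    (DifferentiableOn.fun_finset_prod fun i _ => hu _ _).const_mul _

theorem Hol.inv [DecidableEq p] {u : ℂ → Matrix p p ℂ} (hu : Hol u)
    (hd : ∀ a ∈ ball (0 : ℂ) 1, (u a).det ≠ 0) : Hol fun a => (u a)⁻¹ := by
  intro i j
  simp only [Matrix.inv_def, Ring.inverse_eq_inv', Matrix.smul_apply, smul_eq_mul, adjugate_apply]
  refine ((diff_det hu).inv hd).mul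
    (diff_det (u := fun a => (u a).updateRow j (Pi.single i 1)) fun k l => ?_)
  simp only [updateRow_apply]
  split_ifs
  · exact differentiableOn_const _
  · exact hu _ _

end Crest.Agent.Lead.Cz
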