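import Mathlib

/-! Hurwitz, inverse of injective holomorphic maps, and the Riemann mapping theorem for bounded
simply connected open sets. -/

open Set Filter Metric Topology

namespace Crest.Agent.Lead.Cz

/-- A bounded family of holomorphic functions converging pointwise converges locally uniformly. -/
theorem tlu_of_bdd {ι : Type*} {l : Filter ι} {F : ι → ℂ → ℂ} {f : ℂ → ℂ} {U : Set ℂ} {C : ℝ}
    (hU : IsOpen U) (hF : ∀ᶠ i in l, DifferentiableOn ℂ (F i) U ∧ ∀ z ∈ U, ‖F i z‖ ≤ C)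
    (hp : ∀ z ∈ U, Tendsto (fun i => F i z) l (𝓝 (f z))) :
    TendstoLocallyUniformlyOn F f l U := by
  rcases l.eq_or_neBot with rfl | hl
  · intro u hu x hx
    exact ⟨U, self_mem_nhdsWithin, by simp⟩
  rw [Metric.tendstoLocallyUniformlyOn_iff]
  intro ε hε z hz
  obtain ⟨r, hr, hrU⟩ := Metric.isOpen_iff.1 hU z hz
  have hC : 0 ≤ C := by
    obtain ⟨i, hi⟩ := hF.exists
    exact (norm_nonneg _).trans (hi.2 z hz)
  set L : ℝ := (2 * C + 1) / r with hL
  have hLpos : 0 < L := by positivity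
  have hlip : ∀ᶠ i in l, ∀ w ∈ ball z r, dist (F i w) (F i z) ≤ L * dist w z := by
    filter_upwards [hF] with i hi w hw
    refine Complex.dist_le_div_mul_dist_of_mapsTo_ball (hi.1.mono hrU) ?_ hw
    intro y hy
    rw [mem_closedBall, dist_eq_norm]
    have := norm_sub_le (F i y) (F i z)
    have h1 := hi.2 y (hrU hy)
    have h2 := hi.2 z hz
    linarith
  have hlipf : ∀ w ∈ ball z r, dist (f w) (f z) ≤ L * dist w z := by
    intro w hw
    refine le_of_tendsto ((hp w (hrU hw)).dist (hp z hz)) ?_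
    filter_upwards [hlip] with i hi using hi w hw
  refine ⟨ball z (min r (ε / (3 * L))), mem_nhdsWithin_of_mem_nhds (ball_mem_nhds _ (by positivity)), ?_⟩
  have h0 : ∀ᶠ i in l, dist (F i z) (f z) < ε / 3 :=
    (Metric.tendsto_nhds.1 (hp z hz)) _ (by positivity)
  filter_upwards [hlip, h0] with i hi hi0 w hw
  have hw1 : w ∈ ball z r := ball_subset_ball (min_le_left _ _) hw
  have hw2 : dist w z < ε / (3 * L) := lt_of_lt_of_le hw (min_le_right _ _)
  have hw3 : L * dist w z < ε / 3 := by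
    have := mul_lt_mul_of_pos_left hw2 hLpos
    rwa [show L * (ε / (3 * L)) = ε / 3 by field_simp] at this
  have h1 := hi w hw1
  have h2 := hlipf w hw1
  have h3 := dist_triangle4 (f w) (f z) (F i z) (F i w)
  rw [dist_comm (f z) (F i z), dist_comm (F i z) (F i w)] at h3
  linarith

/-- Local Hurwitz theorem. -/
theorem hurwitz {ι : Type*} {l : Filter ι} [l.NeBot] {F : ι → ℂ → ℂ} {f : ℂ → ℂ} {U : Set ℂ}
    (hU : IsOpen U) (hF : ∀ᶠ i in l, DifferentiableOn ℂ (F i) U ∧ ∀ z ∈ U, F i z ≠ 0)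
    (hc : TendstoLocallyUniformlyOn F f l U) {z : ℂ} (hz : z ∈ U) (h0 : f z = 0) :
    ∀ᶠ w in 𝓝 z, f w = 0 := by
  have hf : DifferentiableOn ℂ f U := hc.differentiableOn (hF.mono fun i hi => hi.1) hU
  have han : AnalyticAt ℂ f z := hf.analyticAt (hU.mem_nhds hz)
  rcases han.eventually_eq_zero_or_eventually_ne_zero with h | h
  · exact h
  exfalso
  rw [eventually_nhdsWithin_iff] at h
  obtain ⟨r, hr, hrb⟩ := Metric.nhds_basis_closedBall.eventually_iff.1 (h.and (hU.mem_nhds hz))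
  have hsub : closedBall z r ⊆ U := fun w hw => (hrb hw).2
  have hsph : sphere z r ⊆ U := sphere_subset_closedBall.trans hsub
  obtain ⟨w0, hw0, hmin⟩ := (isCompact_sphere z r).exists_isMinOn
    (NormedSpace.sphere_nonempty.2 hr.le) (hf.continuousOn.mono hsph).norm
  have hδ : 0 < ‖f w0‖ := by
    refine norm_pos_iff.2 ((hrb (sphere_subset_closedBall hw0)).1 ?_)
    rintro rfl
    simp at hw0
    exact hr.ne hw0
  set δ := ‖f w0‖
  have hu : TendstoUniformlyOn F f l (closedBall z r) :=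
    (tendstoLocallyUniformlyOn_iff_forall_isCompact hU).1 hc _ hsub (isCompact_closedBall z r)
  have h1 := (Metric.tendstoUniformlyOn_iff.1 hu) (δ / 2) (by positivity)
  obtain ⟨i, hi, hi1⟩ := (hF.and h1).exists
  have hd : DiffContOnCl ℂ (fun w => (F i w)⁻¹) (ball z r) := by
    refine DifferentiableOn.diffContOnCl ?_
    rw [closure_ball z hr.ne']
    exact (hi.1.mono hsub).inv fun w hw => hi.2 w (hsub hw)
  have hb : ∀ w ∈ frontier (ball z r), ‖(F i w)⁻¹‖ ≤ (δ / 2)⁻¹ := by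
    rw [frontier_ball z hr.ne']
    intro w hw
    rw [norm_inv]
    refine inv_anti₀ (by positivity) ?_
    have h2 : δ ≤ ‖f w‖ := hmin hw
    have h3 := hi1 w (sphere_subset_closedBall hw)
    rw [dist_eq_norm] at h3
    have := norm_sub_norm_le (f w) (F i w)
    linarith
  have h4 := Complex.norm_le_of_forall_mem_frontier_norm_le isBounded_ball hd hb
    (subset_closure (mem_ball_self hr))
  have h5 := hi1 z (mem_closedBall_self hr.le)
  rw [h0, dist_zero_left] at h5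
  rw [norm_inv] at h4
  have h6 : 0 < ‖F i z‖ := norm_pos_iff.2 (hi.2 z hz)
  have := inv_strictAnti₀ h6 h5
  linarith

/-- An injective holomorphic function has nonvanishing derivative. -/
theorem deriv_ne_zero_of_injOn {f : ℂ → ℂ} {U : Set ℂ} (hU : IsOpen U)
    (hf : DifferentiableOn ℂ f U) (hi : InjOn f U) {z : ℂ} (hz : z ∈ U) : deriv f z ≠ 0 := by
  intro h0
  obtain ⟨r, hr, hrU⟩ := Metric.nhds_basis_closedBall.mem_iff.1 (hU.mem_nhds hz)
  have hd' : DifferentiableOn ℂ (deriv f) U := hf.deriv hU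
  obtain ⟨C, hC⟩ := (isCompact_closedBall z r).exists_bound_of_continuousOn
    (hd'.continuousOn.mono hrU)
  have hda : ∀ w ∈ closedBall z r, DifferentiableAt ℂ f w := fun w hw =>
    hf.differentiableAt (hU.mem_nhds (hrU hw))
  have hmem : ∀ h : ℂ, ‖h‖ < r / 2 → ∀ w ∈ ball z (r / 2), w ∈ closedBall z r ∧ w + h ∈ closedBall z r := by
    intro h hh w hw
    rw [mem_ball, dist_eq_norm] at hw
    constructor
    · rw [mem_closedBall, dist_eq_norm]; linarith
    · rw [mem_closedBall, dist_eq_norm, show w + h - z = (w - z) + h by ring]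
      linarith [norm_add_le (w - z) h]
  have hev : ∀ᶠ h : ℂ in 𝓝[≠] 0, ‖h‖ < r / 2 ∧ h ≠ 0 := by
    refine (eventually_nhdsWithin_of_eventually_nhds ?_).and self_mem_nhdsWithin
    have := ball_mem_nhds (0 : ℂ) (half_pos hr)
    filter_upwards [this] with h hh using by simpa using hh
  have hdiff : ∀ h : ℂ, ‖h‖ < r / 2 →
      DifferentiableOn ℂ (fun w => h⁻¹ • (f (w + h) - f w)) (ball z (r / 2)) := by
    intro h hh w hw
    obtain ⟨h1, h2⟩ := hmem h hh w hw
    refine DifferentiableAt.differentiableWithinAt ?_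
    have h3 : DifferentiableAt ℂ (fun w => f (w + h)) w :=
      (hda _ h2).comp w (differentiableAt_id.add_const h)
    exact (h3.sub (hda w h1)).const_smul h⁻¹
  have hT : TendstoLocallyUniformlyOn (fun (h : ℂ) w => h⁻¹ • (f (w + h) - f w)) (deriv f)
      (𝓝[≠] 0) (ball z (r / 2)) := by
    refine tlu_of_bdd (C := C) isOpen_ball ?_ ?_
    · filter_upwards [hev] with h hh
      refine ⟨hdiff h hh.1, fun w hw => ?_⟩
      obtain ⟨h1, h2⟩ := hmem h hh.1 w hw
      have := (convex_closedBall z r).norm_image_sub_le_of_norm_deriv_le hda hC h1 h2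
      rw [add_sub_cancel_left] at this
      rw [norm_smul, norm_inv, inv_mul_le_iff₀ (norm_pos_iff.2 hh.2)]
      linarith
    · intro w hw
      have := (hda w (hmem 0 (by simpa using half_pos hr) w hw).1).hasDerivAt
      exact hasDerivAt_iff_tendsto_slope_zero.1 this
  have hH := hurwitz isOpen_ball ?_ hT (mem_ball_self (half_pos hr)) h0
  · obtain ⟨s, hs, hsb⟩ := Metric.nhds_basis_ball.eventually_iff.1 (hH.and (hU.mem_nhds hz))
    have hsU : ball z s ⊆ U := fun w hw => (hsb hw).2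
    have hw : z + (s / 2 : ℝ) ∈ ball z s := by
      rw [mem_ball, dist_eq_norm, add_sub_cancel_left, Complex.norm_real, Real.norm_eq_abs,
        abs_of_pos (half_pos hs)]
      linarith
    have := (convex_ball z s).norm_image_sub_le_of_norm_deriv_le (C := 0)
      (fun w hw => hf.differentiableAt (hU.mem_nhds (hsU hw)))
      (fun w hw => by rw [(hsb hw).1, norm_zero]) (mem_ball_self hs) hw
    rw [zero_mul, norm_le_zero_iff, sub_eq_zero] at this
    have h2 := hi (hsU hw) hz this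
    have h3 : ((s / 2 : ℝ) : ℂ) = 0 := by linear_combination h2
    exact (half_pos hs).ne' (by exact_mod_cast h3)
  · filter_upwards [hev] with h hh
    refine ⟨hdiff h hh.1, fun w hw => ?_⟩
    obtain ⟨h1, h2⟩ := hmem h hh.1 w hw
    refine smul_ne_zero (inv_ne_zero hh.2) (sub_ne_zero.2 fun he => hh.2 ?_)
    have := hi (hrU h2) (hrU h1) he
    linear_combination this

/-- The image of an injective holomorphic function is open and the inverse is holomorphic. -/
theorem exists_inverse {f : ℂ → ℂ} {U : Set ℂ} (hU : IsOpen U)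
    (hf : DifferentiableOn ℂ f U) (hi : InjOn f U) :
    IsOpen (f '' U) ∧ ∃ g : ℂ → ℂ, (∀ z ∈ U, HasDerivAt g (deriv f z)⁻¹ (f z)) ∧
      DifferentiableOn ℂ g (f '' U) ∧ ∀ z ∈ U, g (f z) = z := by
  have hs : ∀ z ∈ U, HasStrictDerivAt f (deriv f z) z := fun z hz =>
    (hf.analyticAt (hU.mem_nhds hz)).contDiffAt.hasStrictDerivAt (n := 1) one_ne_zero
  have hne : ∀ z ∈ U, deriv f z ≠ 0 := fun z hz => deriv_ne_zero_of_injOn hU hf hi hz
  have hmap : ∀ z ∈ U, map f (𝓝 z) = 𝓝 (f z) := fun z hz => (hs z hz).map_nhds_eq (hne z hz)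
  have hopen : IsOpen (f '' U) := by
    rw [isOpen_iff_mem_nhds]
    rintro _ ⟨z, hz, rfl⟩
    rw [← hmap z hz]
    exact image_mem_map (hU.mem_nhds hz)
  have hl : ∀ z ∈ U, Function.invFunOn f U (f z) = z := fun z hz => hi.leftInvOn_invFunOn hz
  have hder : ∀ z ∈ U, HasDerivAt (Function.invFunOn f U) (deriv f z)⁻¹ (f z) := by
    intro z hz
    have hev : ∀ᶠ w in 𝓝 z, Function.invFunOn f U (f w) = w := by
      filter_upwards [hU.mem_nhds hz] with w hw using hl w hw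
    exact ((hs z hz).to_local_left_inverse (hne z hz) hev).hasDerivAt
  refine ⟨hopen, Function.invFunOn f U, hder, ?_, hl⟩
  rintro _ ⟨z, hz, rfl⟩
  exact (hder z hz).differentiableAt.differentiableWithinAt

theorem norm_mob_lt {a w : ℂ} (ha : ‖a‖ < 1) (hw : ‖w‖ < 1) :
    1 - (starRingEnd ℂ) a * w ≠ 0 ∧ ‖(w - a) / (1 - (starRingEnd ℂ) a * w)‖ < 1 := by
  have h1 : 1 - (starRingEnd ℂ) a * w ≠ 0 := by
    intro h
    have h2 : ‖(starRingEnd ℂ) a * w‖ < 1 := by
      rw [norm_mul, Complex.norm_conj]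
      nlinarith [norm_nonneg a, norm_nonneg w]
    rw [show (starRingEnd ℂ) a * w = 1 by linear_combination -h] at h2
    simp at h2
  refine ⟨h1, ?_⟩
  rw [norm_div, div_lt_one (norm_pos_iff.2 h1)]
  refine lt_of_pow_lt_pow_left₀ 2 (norm_nonneg _) ?_
  have ha2 : ‖a‖ ^ 2 < 1 := by nlinarith [norm_nonneg a]
  have hw2 : ‖w‖ ^ 2 < 1 := by nlinarith [norm_nonneg w]
  rw [Complex.sq_norm, Complex.normSq_apply] at ha2 hw2
  rw [Complex.sq_norm, Complex.sq_norm, Complex.normSq_apply, Complex.normSq_apply]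
  simp only [Complex.sub_re, Complex.sub_im, Complex.one_re, Complex.one_im, Complex.mul_re,
    Complex.mul_im, Complex.conj_re, Complex.conj_im]
  nlinarith [mul_pos (sub_pos.2 ha2) (sub_pos.2 hw2)]

/-- admissible maps in the extremal problem -/
def Adm (U : Set ℂ) (φ : ℂ → ℂ) : Prop :=
  DifferentiableOn ℂ φ U ∧ InjOn φ U ∧ MapsTo φ U (ball 0 1) ∧ φ 0 = 0

/-- Koebe's square root trick. -/
theorem koebe {U : Set ℂ} (hU : IsOpen U) (hsc : IsSimplyConnected U) (h0 : (0 : ℂ) ∈ U)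
    {φ : ℂ → ℂ} (hφ : Adm U φ) {a : ℂ} (ha : ‖a‖ < 1) (haU : a ∉ φ '' U) {z₁ : ℂ} (hz₁ : z₁ ∈ U)
    (hz₁0 : z₁ ≠ 0) : ∃ ψ, Adm U ψ ∧ ‖φ z₁‖ < ‖ψ z₁‖ := by
  obtain ⟨hd, hi, hm, hφ0⟩ := hφ
  have hm' : ∀ z ∈ U, ‖φ z‖ < 1 := fun z hz => by simpa using hm hz
  set g : ℂ → ℂ := fun z => (φ z - a) / (1 - (starRingEnd ℂ) a * φ z) with hg
  have hden : ∀ z ∈ U, 1 - (starRingEnd ℂ) a * φ z ≠ 0 := fun z hz => (norm_mob_lt ha (hm' z hz)).1
  have hgd : DifferentiableOn ℂ g U :=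
    (hd.sub_const a).div ((hd.const_mul _).const_sub 1) hden
  have hg0 : ∀ z ∈ U, g z ≠ 0 := fun z hz =>
    div_ne_zero (sub_ne_zero.2 fun h => haU ⟨z, hz, h⟩) (hden z hz)
  obtain ⟨h, hhc, hh⟩ := Complex.exists_continuousOn_pow_eq hsc hU hgd.continuousOn
    (by rintro ⟨z, hz, h⟩; exact hg0 z hz h) two_ne_zero
  have hh0 : ∀ z ∈ U, h z ≠ 0 := fun z hz e => hg0 z hz (by rw [← hh z, e]; simp)
  have hh1 : ∀ z ∈ U, ‖h z‖ < 1 := fun z hz => by
    rw [← pow_lt_one_iff_of_nonneg (norm_nonneg _) two_ne_zero, ← norm_pow, hh]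
    exact (norm_mob_lt ha (hm' z hz)).2
  have hhd : DifferentiableOn ℂ h U := by
    intro z hz
    refine DifferentiableAt.differentiableWithinAt ?_
    have hs : HasStrictDerivAt (fun w : ℂ => w ^ 2) (2 * h z) (h z) := by
      simpa using hasStrictDerivAt_pow 2 (h z)
    have hne : 2 * h z ≠ 0 := mul_ne_zero two_ne_zero (hh0 z hz)
    set σ := hs.localInverse _ _ _ hne
    have hσ : HasStrictDerivAt σ (2 * h z)⁻¹ ((h z) ^ 2) := hs.to_localInverse hne
    have hl : ∀ᶠ w in 𝓝 (h z), σ (w ^ 2) = w :=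
      (hs.hasStrictFDerivAt_equiv hne).eventually_left_inverse
    have hl2 : ∀ᶠ w in 𝓝 z, σ ((h w) ^ 2) = h w :=
      (hhc.continuousAt (hU.mem_nhds hz)).eventually hl
    have hl3 : h =ᶠ[𝓝 z] fun w => σ (g w) := by
      filter_upwards [hl2] with w hw
      rw [← hh w, hw]
    refine DifferentiableAt.congr_of_eventuallyEq ?_ hl3
    refine DifferentiableAt.comp (g := σ) z ?_ (hgd.differentiableAt (hU.mem_nhds hz))
    rw [← hh z]
    exact hσ.hasDerivAt.differentiableAt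
  set b := h 0 with hb
  have hb1 : ‖b‖ < 1 := hh1 0 h0
  have hb2 : b ^ 2 = -a := by rw [hb, hh 0, hg]; simp [hφ0]
  have hna : ‖a‖ ^ 2 ≠ 1 := by nlinarith [norm_nonneg a]
  have haa : 1 - (starRingEnd ℂ) a * a ≠ 0 := (norm_mob_lt ha ha).1
  have hbb : 1 - (starRingEnd ℂ) b * b ≠ 0 := (norm_mob_lt hb1 hb1).1
  have hden2 : ∀ z ∈ U, 1 - (starRingEnd ℂ) b * h z ≠ 0 := fun z hz => (norm_mob_lt hb1 (hh1 z hz)).1
  have hhi : InjOn h U := by
    intro z hz w hw e
    have e2 : g z = g w := by rw [← hh z, ← hh w, e]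
    simp only [hg] at e2
    rw [div_eq_div_iff (hden z hz) (hden w hw)] at e2
    refine hi hz hw ?_
    have : (φ z - φ w) * (1 - (starRingEnd ℂ) a * a) = 0 := by linear_combination e2
    exact sub_eq_zero.1 ((mul_eq_zero.1 this).resolve_right haa)
  refine ⟨fun z => (h z - b) / (1 - (starRingEnd ℂ) b * h z), ⟨?_, ?_, ?_, ?_⟩, ?_⟩
  · exact (hhd.sub_const b).div ((hhd.const_mul _).const_sub 1) hden2
  · intro z hz w hw e
    simp only at e
    rw [div_eq_div_iff (hden2 z hz) (hden2 w hw)] at e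
    refine hhi hz hw ?_
    have : (h z - h w) * (1 - (starRingEnd ℂ) b * b) = 0 := by linear_combination e
    exact sub_eq_zero.1 ((mul_eq_zero.1 this).resolve_right hbb)
  · intro z hz
    simpa only [mem_ball_zero_iff] using (norm_mob_lt hb1 (hh1 z hz)).2
  · simp [hb]
  · have hnb : ‖-b‖ < 1 := by simpa using hb1
    obtain ⟨h3, h4⟩ := norm_mob_lt hnb (hh1 z₁ hz₁)
    have hca : (starRingEnd ℂ) a = -((starRingEnd ℂ) b) ^ 2 := by
      rw [← map_pow, hb2]; simp
    have e1 : h z₁ ^ 2 * (1 - (starRingEnd ℂ) a * φ z₁) = φ z₁ - a := by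
      rw [hh z₁, hg]; simp only; rw [div_mul_cancel₀ _ (hden z₁ hz₁)]
    have e2 : φ z₁ = ((h z₁ - b) / (1 - (starRingEnd ℂ) b * h z₁)) *
        ((h z₁ - -b) / (1 - (starRingEnd ℂ) (-b) * h z₁)) := by
      rw [div_mul_div_comm, eq_div_iff (mul_ne_zero (hden2 z₁ hz₁) h3)]
      rw [hca] at e1
      simp only [map_neg]
      linear_combination -e1 + hb2
    have hne : 0 < ‖(h z₁ - b) / (1 - (starRingEnd ℂ) b * h z₁)‖ := by
      refine norm_pos_iff.2 (div_ne_zero (sub_ne_zero.2 fun e => hz₁0 (hhi hz₁ h0 e)) (hden2 z₁ hz₁))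
    rw [e2, norm_mul]
    exact mul_lt_of_lt_one_right hne h4

/-- Riemann mapping theorem for bounded simply connected open sets containing `0`. -/
theorem riemann {U : Set ℂ} (hU : IsOpen U) (hsc : IsSimplyConnected U) (h0 : (0 : ℂ) ∈ U)
    {R : ℝ} (hR : U ⊆ ball 0 R) : ∃ φ, Adm U φ ∧ φ '' U = ball 0 1 := by
  have hRpos : 0 < R := by simpa using hR h0
  obtain ⟨r, hr, hrU⟩ := Metric.nhds_basis_closedBall.mem_iff.1 (hU.mem_nhds h0)
  have hz₁ : (r : ℂ) ∈ U := hrU (by simp [abs_of_pos hr])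
  have hz₁0 : (r : ℂ) ≠ 0 := by exact_mod_cast hr.ne'
  generalize (r : ℂ) = z₁ at hz₁ hz₁0
  have hR0 : (R : ℂ) ≠ 0 := by exact_mod_cast hRpos.ne'
  have hφ₀ : Adm U (fun z => z / R) := by
    refine ⟨differentiableOn_id.div_const _, fun z _ w _ e => ?_, fun z hz => ?_, by simp⟩
    · simpa [div_left_inj' hR0] using e
    · have := hR hz
      rw [mem_ball_zero_iff] at this ⊢
      rw [norm_div, Complex.norm_real, Real.norm_eq_abs, abs_of_pos hRpos, div_lt_one hRpos]
      exact this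
  set S : Set ℝ := {t | ∃ φ, Adm U φ ∧ t = ‖φ z₁‖}
  have hSne : S.Nonempty := ⟨_, _, hφ₀, rfl⟩
  have hSb : BddAbove S := ⟨1, by
    rintro t ⟨φ, hφ, rfl⟩
    exact (mem_ball_zero_iff.1 (hφ.2.2.1 hz₁)).le⟩
  obtain ⟨u, -, hu, huS⟩ := exists_seq_tendsto_sSup hSne hSb
  choose Φ hΦ hΦu using huS
  have hspos : 0 < sSup S := by
    refine lt_of_lt_of_le ?_ (le_csSup hSb ⟨_, hφ₀, rfl⟩)
    exact norm_pos_iff.2 (div_ne_zero hz₁0 hR0)
  let 𝒰 : Ultrafilter ℕ := Ultrafilter.of atTop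
  have h𝒰 : (𝒰 : Filter ℕ) ≤ atTop := Ultrafilter.of_le _
  have hlim : ∀ z ∈ U, ∃ w, Tendsto (fun n => Φ n z) 𝒰 (𝓝 w) := by
    intro z hz
    obtain ⟨w, -, hw⟩ := (isCompact_closedBall (0 : ℂ) 1).ultrafilter_le_nhds
      (𝒰.map fun n => Φ n z) (by
        rw [le_principal_iff, Ultrafilter.coe_map, mem_map]
        exact Eventually.of_forall fun n => ball_subset_closedBall ((hΦ n).2.2.1 hz))
    exact ⟨w, hw⟩
  choose! φ hφ using hlim
  have hT : TendstoLocallyUniformlyOn Φ φ 𝒰 U :=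
    tlu_of_bdd (C := 1) hU (Eventually.of_forall fun n =>
      ⟨(hΦ n).1, fun z hz => (mem_ball_zero_iff.1 ((hΦ n).2.2.1 hz)).le⟩) hφ
  have hφd : DifferentiableOn ℂ φ U :=
    hT.differentiableOn (Eventually.of_forall fun n => (hΦ n).1) hU
  have hφ0 : φ 0 = 0 := by
    refine tendsto_nhds_unique (hφ 0 h0) ?_
    simp only [fun n => (hΦ n).2.2.2]
    exact tendsto_const_nhds
  have hφ1 : ‖φ z₁‖ = sSup S := by
    refine tendsto_nhds_unique (hφ z₁ hz₁).norm ?_
    simp only [← hΦu]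
    exact hu.mono_left h𝒰
  have hpre : IsPreconnected U := hsc.isPathConnected.isConnected.isPreconnected
  have hnc : ∀ c : ℂ, ¬ EqOn φ (fun _ => c) U := by
    intro c hc
    have e1 := hc h0
    have e2 := hc hz₁
    simp only at e1 e2
    rw [e2, ← e1, hφ0, norm_zero] at hφ1
    exact hspos.ne hφ1
  have hle : ∀ z ∈ U, ‖φ z‖ ≤ 1 := fun z hz =>
    le_of_tendsto' (hφ z hz).norm fun n => (mem_ball_zero_iff.1 ((hΦ n).2.2.1 hz)).le
  have hφm : MapsTo φ U (ball 0 1) := by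
    intro z hz
    rw [mem_ball_zero_iff]
    refine lt_of_le_of_ne (hle z hz) fun e => hnc (φ z) ?_
    exact Complex.eqOn_of_isPreconnected_of_isMaxOn_norm hpre hU hφd hz
      (fun w hw => by simpa [e] using hle w hw)
  have hφi : InjOn φ U := by
    intro z hz w hw e
    by_contra hne
    have hU' : IsOpen (U \ {w}) := hU.sdiff isClosed_singleton
    have hT' : TendstoLocallyUniformlyOn (fun n y => Φ n y - Φ n w) (fun y => φ y - φ w) 𝒰
        (U \ {w}) := by
      refine tlu_of_bdd (C := 2) hU' (Eventually.of_forall fun n =>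
        ⟨((hΦ n).1.mono diff_subset).sub_const _, fun y hy => ?_⟩)
        fun y hy => (hφ y hy.1).sub (hφ w hw)
      have h1 := (mem_ball_zero_iff.1 ((hΦ n).2.2.1 hy.1)).le
      have h2 := (mem_ball_zero_iff.1 ((hΦ n).2.2.1 hw)).le
      linarith [norm_sub_le (Φ n y) (Φ n w)]
    have hH := hurwitz hU' (Eventually.of_forall fun n =>
        ⟨((hΦ n).1.mono diff_subset).sub_const _, fun y hy =>
          sub_ne_zero.2 fun e' => hy.2 ((hΦ n).2.1 hy.1 hw e')⟩) hT' ⟨hz, hne⟩ (sub_eq_zero.2 e)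
    refine hnc (φ w) ?_
    refine (hφd.analyticOnNhd hU).eqOn_of_preconnected_of_eventuallyEq analyticOnNhd_const hpre hz ?_
    filter_upwards [hH] with y hy using sub_eq_zero.1 hy
  have hA : Adm U φ := ⟨hφd, hφi, hφm, hφ0⟩
  refine ⟨φ, hA, hφm.image_subset.antisymm fun a ha => ?_⟩
  by_contra haU
  obtain ⟨ψ, hψ, hlt⟩ := koebe hU hsc h0 hA (mem_ball_zero_iff.1 ha) haU hz₁ hz₁0
  have := le_csSup hSb ⟨ψ, hψ, rfl⟩
  linarith

end Crest.Agent.Lead.Cz
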