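import Mathlib
import Crest.Agent.Lead.CzRMT

/-! Exterior conformal map of a compact convex set (in inverted coordinates) and positivity of the
double layer kernels on its level curves. -/

open Set Filter Metric Topology

namespace Crest.Agent.Lead.Cz

theorem isOpen_invSet {C : Set ℂ} (hC : IsCompact C) : IsOpen {w : ℂ | w = 0 ∨ w⁻¹ ∉ C} := by
  obtain ⟨R, hR, hCR⟩ := hC.isBounded.subset_ball_lt 0 0
  rw [isOpen_iff_mem_nhds]
  intro w hw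
  by_cases h0 : w = 0
  · subst h0
    filter_upwards [ball_mem_nhds (0 : ℂ) (inv_pos.2 hR)] with y hy
    by_cases hy0 : y = 0
    · exact Or.inl hy0
    · refine Or.inr fun h => ?_
      have h1 := hCR h
      rw [mem_ball_zero_iff] at hy h1
      rw [norm_inv] at h1
      have := inv_strictAnti₀ (norm_pos_iff.2 hy0) hy
      rw [inv_inv] at this
      linarith
  · have h1 : w⁻¹ ∈ Cᶜ := hw.resolve_left h0
    have := (continuousAt_inv₀ h0).preimage_mem_nhds (hC.isClosed.isOpen_compl.mem_nhds h1)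
    filter_upwards [this] with y hy using Or.inr hy

/-- maximum principle, compact superlevel set version -/
theorem maxp {O : Set ℂ} (hO : IsOpen O) {f : ℂ → ℂ} (hf : DifferentiableOn ℂ f O) {C : ℝ}
    (hc : IsCompact {z ∈ O | C ≤ ‖f z‖}) : ∀ z ∈ O, ‖f z‖ < C := by
  by_contra hcon
  push Not at hcon
  obtain ⟨z₀, hz₀, hz₀C⟩ := hcon
  set S := {z ∈ O | C ≤ ‖f z‖}
  have hSO : S ⊆ O := fun z hz => hz.1
  have hfc : ContinuousOn (fun z => ‖f z‖) S := (hf.continuousOn.mono hSO).norm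
  obtain ⟨z₁, hz₁, hmax⟩ := hc.exists_isMaxOn ⟨z₀, hz₀, hz₀C⟩ hfc
  have hall : ∀ z ∈ O, ‖f z‖ ≤ ‖f z₁‖ := by
    intro z hz
    by_cases h : C ≤ ‖f z‖
    · exact hmax ⟨hz, h⟩
    · exact (not_le.1 h).le.trans hz₁.2
  have hM : IsCompact (S ∩ (fun z => ‖f z‖) ⁻¹' {‖f z₁‖}) :=
    hc.of_isClosed_subset (hfc.preimage_isClosed_of_isClosed hc.isClosed isClosed_singleton)
      inter_subset_left
  obtain ⟨z₂, hz₂, hmax2⟩ := hM.exists_isMaxOn ⟨z₁, hz₁, rfl⟩ Complex.continuous_re.continuousOn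
  have hz₂O : z₂ ∈ O := hz₂.1.1
  have hz₂e : ‖f z₂‖ = ‖f z₁‖ := hz₂.2
  have hloc : IsLocalMax (norm ∘ f) z₂ := by
    filter_upwards [hO.mem_nhds hz₂O] with z hz
    simpa [hz₂e] using hall z hz
  have hd : ∀ᶠ z in 𝓝 z₂, DifferentiableAt ℂ f z := by
    filter_upwards [hO.mem_nhds hz₂O] with z hz using hf.differentiableAt (hO.mem_nhds hz)
  have := (Complex.norm_eventually_eq_of_isLocalMax hd hloc).and (hO.mem_nhds hz₂O)
  obtain ⟨s, hs, hsb⟩ := Metric.nhds_basis_ball.eventually_iff.1 this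
  have hw : z₂ + (s / 2 : ℝ) ∈ ball z₂ s := by
    rw [mem_ball, dist_eq_norm, add_sub_cancel_left, Complex.norm_real, Real.norm_eq_abs,
      abs_of_pos (half_pos hs)]
    linarith
  obtain ⟨h1, h2⟩ := hsb hw
  have h3 : z₂ + (s / 2 : ℝ) ∈ S ∩ (fun z => ‖f z‖) ⁻¹' {‖f z₁‖} :=
    ⟨⟨h2, by rw [h1]; exact hz₂.1.2⟩, by simpa [hz₂e] using h1⟩
  have h4 := hmax2 h3
  simp only [mem_setOf_eq, Complex.add_re, Complex.ofReal_re] at h4
  linarith

/-- admissible comparison curves -/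
def Inn (K : Set ℂ) (p : ℂ → ℂ) : Prop :=
  DifferentiableOn ℂ p (ball 0 1 \ {0}) ∧
  (∃ C s : ℝ, 0 < s ∧ ∀ ζ : ℂ, ζ ≠ 0 → ‖ζ‖ < s → ‖ζ‖ * ‖p ζ‖ ≤ C) ∧
  ∀ ε > 0, ∃ β < 1, ∀ ζ : ℂ, β < ‖ζ‖ → ‖ζ‖ < 1 → p ζ ∈ thickening ε K

theorem Inn.const {K : Set ℂ} {z : ℂ} (hz : z ∈ K) : Inn K fun _ => z :=
  ⟨differentiableOn_const _, ⟨‖z‖, 1, one_pos, fun ζ _ h => by
      nlinarith [norm_nonneg z, norm_nonneg ζ]⟩,
    fun ε hε => ⟨0, one_pos, fun _ _ _ => self_subset_thickening hε K hz⟩⟩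

theorem Inn.comb {K : Set ℂ} (hK : Convex ℝ K) {p q : ℂ → ℂ} (hp : Inn K p) (hq : Inn K q)
    {μ : ℝ} (h0 : 0 ≤ μ) (h1 : μ ≤ 1) : Inn K fun ζ => ((1 - μ : ℝ) : ℂ) * p ζ + μ * q ζ := by
  obtain ⟨hp1, ⟨C, s, hs, hp2⟩, hp3⟩ := hp
  obtain ⟨hq1, ⟨C', s', hs', hq2⟩, hq3⟩ := hq
  refine ⟨(hp1.const_mul _).add (hq1.const_mul _), ⟨(1 - μ) * C + μ * C', min s s', lt_min hs hs',
    fun ζ hζ h => ?_⟩, fun ε hε => ?_⟩
  · have a1 := hp2 ζ hζ (lt_of_lt_of_le h (min_le_left _ _))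
    have a2 := hq2 ζ hζ (lt_of_lt_of_le h (min_le_right _ _))
    have a3 := norm_add_le (((1 - μ : ℝ) : ℂ) * p ζ) (μ * q ζ)
    rw [norm_mul, norm_mul, Complex.norm_real, Complex.norm_real, Real.norm_eq_abs,
      Real.norm_eq_abs, abs_of_nonneg h0, abs_of_nonneg (sub_nonneg.2 h1)] at a3
    have a4 := mul_le_mul_of_nonneg_left a3 (norm_nonneg ζ)
    have a5 := mul_le_mul_of_nonneg_left a1 (sub_nonneg.2 h1)
    have a6 := mul_le_mul_of_nonneg_left a2 h0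
    nlinarith
  · obtain ⟨β, hβ, h⟩ := hp3 ε hε
    obtain ⟨β', hβ', h'⟩ := hq3 ε hε
    refine ⟨max β β', max_lt hβ hβ', fun ζ a1 a2 => ?_⟩
    have := hK.thickening ε (h ζ (lt_of_le_of_lt (le_max_left _ _) a1) a2)
      (h' ζ (lt_of_le_of_lt (le_max_right _ _) a1) a2) (sub_nonneg.2 h1) h0 (by ring)
    simpa only [Complex.real_smul] using this

/-- The properties of the inverted exterior map used in the sequel. -/
structure ExtMap (K : Set ℂ) (ψ : ℂ → ℂ) : Prop where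
  diff : DifferentiableOn ℂ ψ (ball 0 1)
  inj : InjOn ψ (ball 0 1)
  zero : ψ 0 = 0
  out : ∀ a ∈ ball (0 : ℂ) 1, a ≠ 0 → (ψ a)⁻¹ ∉ K
  pos1 : ∀ a ∈ ball (0 : ℂ) 1, a ≠ 0 → ∀ z ∈ K,
    0 ≤ (((ψ a)⁻¹ - z) / (a * deriv ψ a / ψ a ^ 2)).re
  pos2 : ∀ a ∈ ball (0 : ℂ) 1, a ≠ 0 → ∀ b : ℂ, ‖b‖ = ‖a‖ →
    0 ≤ (((ψ a)⁻¹ - (ψ b)⁻¹) / (a * deriv ψ a / ψ a ^ 2)).re
  near : ∀ ε > 0, ∃ β < 1, ∀ b : ℂ, β < ‖b‖ → ‖b‖ < 1 → (ψ b)⁻¹ ∈ thickening ε K

theorem exists_extMap {K : Set ℂ} (hK : IsCompact K) (hKc : Convex ℝ K) {δ : ℝ} (hδ : 0 < δ)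
    (hb : ball 0 δ ⊆ K) : ∃ ψ, ExtMap K ψ := by
  set U : Set ℂ := {w : ℂ | w = 0 ∨ w⁻¹ ∉ K} with hUdef
  have hU : IsOpen U := isOpen_invSet hK
  have h0U : (0 : ℂ) ∈ U := Or.inl rfl
  have h0K : (0 : ℂ) ∈ K := hb (mem_ball_self hδ)
  set R : ℝ := δ⁻¹ + 1
  have hRpos : 0 < R := by positivity
  have hUR : U ⊆ ball 0 R := by
    intro w hw
    rw [mem_ball_zero_iff]
    by_cases h0 : w = 0
    · simpa [h0] using hRpos
    · have h1 : δ ≤ ‖w⁻¹‖ := by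
        by_contra h
        exact hw.resolve_left h0 (hb (mem_ball_zero_iff.2 (not_le.1 h)))
      have h2 := inv_anti₀ hδ h1
      rw [norm_inv, inv_inv] at h2
      linarith
  have hstar : StarConvex ℝ (0 : ℂ) U := by
    intro y hy a b ha hb' hab
    rw [smul_zero, zero_add]
    by_cases h0 : b • y = 0
    · exact Or.inl h0
    · refine Or.inr fun h => ?_
      have hy0 : y ≠ 0 := fun e => h0 (by simp [e])
      have hb0 : (b : ℂ) ≠ 0 := fun e => h0 (by simp [Complex.real_smul, e])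
      refine hy.resolve_left hy0 ?_
      have := hKc h0K h ha hb' hab
      rw [smul_zero, zero_add, Complex.real_smul, Complex.real_smul] at this
      convert this using 1
      field_simp
  have hsc : IsSimplyConnected U := by
    have := hstar.contractibleSpace ⟨0, h0U⟩
    exact SimplyConnectedSpace.ofContractible U
  obtain ⟨φ, ⟨hφd, hφi, hφm, hφ0⟩, hφs⟩ := riemann hU hsc h0U hUR
  obtain ⟨-, ψ, hψ', hψd, hψφ⟩ := exists_inverse hU hφd hφi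
  rw [hφs] at hψd
  have hψU : ∀ a ∈ ball (0 : ℂ) 1, ψ a ∈ U ∧ φ (ψ a) = a := by
    intro a ha
    rw [← hφs] at ha
    obtain ⟨w, hw, rfl⟩ := ha
    rw [hψφ w hw]
    exact ⟨hw, rfl⟩
  have hψ0 : ψ 0 = 0 := by rw [← hφ0, hψφ 0 h0U, hφ0]
  have hψi : InjOn ψ (ball 0 1) := fun a ha b hb e => by
    rw [← (hψU a ha).2, e, (hψU b hb).2]
  have hψne : ∀ a ∈ ball (0 : ℂ) 1, a ≠ 0 → ψ a ≠ 0 := fun a ha h0 e =>
    h0 (hψi ha (mem_ball_self one_pos) (e.trans hψ0.symm))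
  have hout : ∀ a ∈ ball (0 : ℂ) 1, a ≠ 0 → (ψ a)⁻¹ ∉ K := fun a ha h0 =>
    (hψU a ha).1.resolve_left (hψne a ha h0)
  have hKU : ∀ z ∉ K, z ≠ 0 ∧ z⁻¹ ∈ U := fun z hz =>
    ⟨fun e => hz (e ▸ h0K), Or.inr (by simpa using hz)⟩
  have hφne : ∀ z ∉ K, φ z⁻¹ ≠ 0 := fun z hz e =>
    inv_ne_zero (hKU z hz).1 (hφi (hKU z hz).2 h0U (e.trans hφ0.symm))
  -- P1
  have hP1 : ∀ ε > 0, ∃ β < 1, ∀ b : ℂ, β < ‖b‖ → ‖b‖ < 1 → (ψ b)⁻¹ ∈ thickening ε K := by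
    intro ε hε
    set C : Set ℂ := {w | w = 0 ∨ w⁻¹ ∉ thickening ε K}
    have hCU : C ⊆ U := fun w hw => hw.imp id fun h h' => h (self_subset_thickening hε K h')
    have hCc : IsClosed C := by
      rw [← isOpen_compl_iff]
      have : Cᶜ = {0}ᶜ ∩ (fun w : ℂ => w⁻¹) ⁻¹' thickening ε K := by
        ext w; simp [C]
      rw [this]
      exact continuousOn_inv₀.isOpen_inter_preimage isOpen_compl_singleton isOpen_thickening
    have hCk : IsCompact C :=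
      isCompact_of_isClosed_isBounded hCc (isBounded_ball.subset (hCU.trans hUR))
    obtain ⟨w₀, hw₀, hmax⟩ := hCk.exists_isMaxOn ⟨0, Or.inl rfl⟩ (hφd.continuousOn.mono hCU).norm
    refine ⟨‖φ w₀‖, mem_ball_zero_iff.1 (hφm (hCU hw₀)), fun b h1 h2 => ?_⟩
    by_contra h
    have h3 : ‖φ (ψ b)‖ ≤ ‖φ w₀‖ := hmax (Or.inr h)
    rw [(hψU b (mem_ball_zero_iff.2 h2)).2] at h3
    linarith
  -- P2
  have hP2 : ∀ β < 1, ∃ ε > 0, ∀ z ∉ K, ‖φ z⁻¹‖ ≤ β → z ∉ thickening ε K := by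
    intro β hβ
    have hsub : closedBall (0 : ℂ) β ⊆ ball 0 1 := closedBall_subset_ball hβ
    have hCk : IsCompact (ψ '' closedBall 0 β) :=
      (isCompact_closedBall 0 β).image_of_continuousOn (hψd.continuousOn.mono hsub)
    obtain ⟨ε, hε, hth⟩ := hK.exists_thickening_subset_open (isOpen_invSet hCk) (by
      intro z hz
      by_cases h0 : z = 0
      · exact Or.inl h0
      · refine Or.inr ?_
        rintro ⟨a, ha, e⟩
        have := (hψU a (hsub ha)).1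
        rw [e] at this
        rcases this with h | h
        · exact inv_ne_zero h0 h
        · exact h (by simpa using hz))
    refine ⟨ε, hε, fun z hz h1 h2 => ?_⟩
    rcases hth h2 with h | h
    · exact (hKU z hz).1 h
    · exact h ⟨φ z⁻¹, mem_closedBall_zero_iff.2 h1, hψφ _ (hKU z hz).2⟩
  -- Schwarz
  have hS : ∀ w ∈ U, ‖w‖ ≤ R * ‖φ w‖ := by
    intro w hw
    have := Complex.dist_le_div_mul_dist_of_mapsTo_ball (R₂ := R) hψd
      (fun a ha => by rw [hψ0]; exact ball_subset_closedBall (hUR (hψU a ha).1)) (hφm hw)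
    simpa [hψ0, hψφ w hw] using this
  -- quasi-convexity
  have hQC : ∀ p, Inn K p → ∀ ζ ∈ ball (0 : ℂ) 1, ζ ≠ 0 → p ζ ∉ K → ‖ζ‖ ≤ ‖φ (p ζ)⁻¹‖ := by
    rintro p ⟨hp1, ⟨C, s, hs, hp2⟩, hp3⟩ ζ₀ hζ₀ hζ₀0 hpζ₀
    set O : Set ℂ := (ball 0 1 \ {0}) ∩ p ⁻¹' Kᶜ
    have hD : IsOpen (ball (0 : ℂ) 1 \ {0}) := isOpen_ball.sdiff isClosed_singleton
    have hO : IsOpen O := hp1.continuousOn.isOpen_inter_preimage hD hK.isClosed.isOpen_compl
    have hQd : DifferentiableOn ℂ (fun ζ => ζ / φ (p ζ)⁻¹) O := by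
      refine differentiableOn_id.div ?_ fun ζ hζ => hφne _ hζ.2
      exact hφd.comp ((hp1.mono inter_subset_left).inv fun ζ hζ => (hKU _ hζ.2).1)
        fun ζ hζ => (hKU _ hζ.2).2
    have key : ∀ n : ℕ, ∀ ζ ∈ O, ‖ζ * (ζ / φ (p ζ)⁻¹) ^ (n + 1)‖ < 2 := by
      intro n
      have hfd : DifferentiableOn ℂ (fun ζ => ζ * (ζ / φ (p ζ)⁻¹) ^ (n + 1)) O :=
        differentiableOn_id.mul (hQd.pow _)
      refine maxp hO hfd ?_
      obtain ⟨β, hβ0, hβ1, hβ2⟩ : ∃ β : ℝ, 0 ≤ β ∧ β < 1 ∧ 1 / 2 ≤ β ^ (n + 1) := by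
        refine ⟨(1 / 2 : ℝ) ^ (((n + 1 : ℕ) : ℝ)⁻¹), by positivity,
          Real.rpow_lt_one (by norm_num) (by norm_num) (by positivity), ?_⟩
        rw [Real.rpow_inv_natCast_pow (by norm_num) (Nat.succ_ne_zero n)]
      obtain ⟨ε, hε, h2⟩ := hP2 β hβ1
      obtain ⟨β', hβ', h3⟩ := hp3 ε hε
      set B : ℝ := (R * max C 1) ^ (n + 1)
      have hB : 0 < B := by positivity
      set s' : ℝ := min s B⁻¹
      have hs' : 0 < s' := lt_min hs (inv_pos.2 hB)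
      set An : Set ℂ := closedBall 0 β' \ ball 0 s'
      have hAn : An ⊆ ball 0 1 \ {0} := by
        intro ζ hζ
        refine ⟨closedBall_subset_ball hβ' hζ.1, fun e => hζ.2 ?_⟩
        rw [mem_singleton_iff.1 e]
        exact mem_ball_self hs'
      have hAnk : IsCompact An := (isCompact_closedBall 0 β').diff isOpen_ball
      set S' : Set ℂ := An ∩ p ⁻¹' (thickening ε K)ᶜ
      have hS'k : IsCompact S' := hAnk.of_isClosed_subset
        ((hp1.continuousOn.mono hAn).preimage_isClosed_of_isClosed hAnk.isClosed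
          isOpen_thickening.isClosed_compl) inter_subset_left
      have hS'O : S' ⊆ O := fun ζ hζ => ⟨hAn hζ.1, fun h => hζ.2 (self_subset_thickening hε K h)⟩
      have hfin : IsCompact (S' ∩ (fun ζ => ‖ζ * (ζ / φ (p ζ)⁻¹) ^ (n + 1)‖) ⁻¹' Ici 2) :=
        hS'k.of_isClosed_subset ((hfd.continuousOn.mono hS'O).norm.preimage_isClosed_of_isClosed
          hS'k.isClosed isClosed_Ici) inter_subset_left
      convert hfin using 1
      ext ζ
      refine ⟨fun ⟨hζ, hge⟩ => ⟨?_, hge⟩, fun ⟨h1, h2⟩ => ⟨hS'O h1, h2⟩⟩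
      have hζ1 : ‖ζ‖ < 1 := mem_ball_zero_iff.1 hζ.1.1
      have hζ0 : ζ ≠ 0 := hζ.1.2
      have hρ : 0 < ‖φ (p ζ)⁻¹‖ := norm_pos_iff.2 (hφne _ hζ.2)
      rw [norm_mul, norm_pow, norm_div] at hge
      have hth : p ζ ∉ thickening ε K := by
        refine h2 _ hζ.2 ?_
        refine le_of_pow_le_pow_left₀ (Nat.succ_ne_zero n) hβ0 (le_trans ?_ hβ2)
        rw [div_pow, ← mul_div_assoc, le_div_iff₀ (by positivity)] at hge
        have a1 : ‖ζ‖ ^ (n + 1) ≤ 1 := pow_le_one₀ (norm_nonneg _) hζ1.le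
        have a2 : ‖ζ‖ * ‖ζ‖ ^ (n + 1) ≤ 1 := mul_le_one₀ hζ1.le (by positivity) a1
        change _ ^ (n + 1) ≤ _
        linarith
      refine ⟨⟨?_, ?_⟩, hth⟩
      · rw [mem_closedBall_zero_iff]
        by_contra h
        exact hth (h3 ζ (not_le.1 h) hζ1)
      · intro h
        rw [mem_ball_zero_iff] at h
        have a1 := hp2 ζ hζ0 (lt_of_lt_of_le h (min_le_left _ _))
        have a2 := hS _ (hKU _ hζ.2).2
        have hpz : 0 < ‖p ζ‖ := norm_pos_iff.2 (hKU _ hζ.2).1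
        rw [norm_inv, inv_le_iff_one_le_mul₀ hpz] at a2
        have a3 : ‖ζ‖ / ‖φ (p ζ)⁻¹‖ ≤ R * max C 1 := by
          rw [div_le_iff₀ hρ]
          have b1 := mul_le_mul_of_nonneg_left a2 (norm_nonneg ζ)
          have b2 : ‖ζ‖ * ‖p ζ‖ ≤ max C 1 := a1.trans (le_max_left _ _)
          have b3 := mul_le_mul_of_nonneg_left b2 (mul_pos hRpos hρ).le
          nlinarith
        have a4 : (‖ζ‖ / ‖φ (p ζ)⁻¹‖) ^ (n + 1) ≤ B := pow_le_pow_left₀ (by positivity) a3 _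
        have a5 : ‖ζ‖ < B⁻¹ := lt_of_lt_of_le h (min_le_right _ _)
        have a6 : ‖ζ‖ * B < 1 := by
          have := mul_lt_mul_of_pos_right a5 hB
          rwa [inv_mul_cancel₀ hB.ne'] at this
        have a7 := mul_le_mul_of_nonneg_left a4 (norm_nonneg ζ)
        linarith
    by_contra hlt
    have hρ : 0 < ‖φ (p ζ₀)⁻¹‖ := norm_pos_iff.2 (hφne _ hpζ₀)
    have h1 : 1 < ‖ζ₀‖ / ‖φ (p ζ₀)⁻¹‖ := by rw [one_lt_div hρ]; exact not_le.1 hlt
    have hz : 0 < ‖ζ₀‖ := norm_pos_iff.2 hζ₀0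
    obtain ⟨n, hn⟩ := pow_unbounded_of_one_lt (2 / ‖ζ₀‖) h1
    have h2 := key n ζ₀ ⟨⟨hζ₀, hζ₀0⟩, hpζ₀⟩
    rw [norm_mul, norm_pow, norm_div, pow_succ] at h2
    rw [div_lt_iff₀ hz] at hn
    have h3 : 0 < (‖ζ₀‖ / ‖φ (p ζ₀)⁻¹‖) ^ n * ‖ζ₀‖ := by positivity
    nlinarith
  -- rotated exterior map is admissible
  have hψ'0 : deriv ψ 0 ≠ 0 := deriv_ne_zero_of_injOn isOpen_ball hψd hψi (mem_ball_self one_pos)
  have hInn : ∀ u : ℂ, ‖u‖ = 1 → Inn K fun ζ => (ψ (ζ * u))⁻¹ := by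
    intro u hu
    have hu0 : u ≠ 0 := by rintro rfl; simp at hu
    have hnorm : ∀ ζ : ℂ, ‖ζ * u‖ = ‖ζ‖ := fun ζ => by rw [norm_mul, hu, mul_one]
    refine ⟨?_, ?_, fun ε hε => ?_⟩
    · refine (hψd.comp (differentiableOn_id.mul_const u) fun ζ hζ => ?_).inv fun ζ hζ => ?_
      · simpa [hu] using hζ.1
      · exact hψne _ (by simpa [hu] using hζ.1) (mul_ne_zero hζ.2 hu0)
    · have h1 := (hψd.differentiableAt (ball_mem_nhds 0 one_pos)).hasDerivAt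
      have h2 := (hasDerivAt_iff_tendsto_slope_zero.1 h1).inv₀ hψ'0
      have h3 := h2.norm.eventually (gt_mem_nhds (lt_add_one ‖(deriv ψ 0)⁻¹‖))
      rw [eventually_nhdsWithin_iff] at h3
      obtain ⟨s, hs, hsb⟩ := Metric.nhds_basis_ball.eventually_iff.1 h3
      refine ⟨_, s, hs, fun ζ h0 hζ => le_of_eq_of_le ?_
        (hsb (x := ζ * u) (by simpa [hu] using hζ) (mul_ne_zero h0 hu0)).le⟩
      simp [hψ0, hu, mul_comm]
    · obtain ⟨β, hβ, h⟩ := hP1 ε hε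
      exact ⟨β, hβ, fun ζ h1 h2 => h _ (by rwa [hnorm]) (by rwa [hnorm])⟩
  -- positivity
  have hpos : ∀ a ∈ ball (0 : ℂ) 1, a ≠ 0 → ∀ p, Inn K p →
      0 ≤ (((ψ a)⁻¹ - p (‖a‖ : ℝ)) / (a * deriv ψ a / ψ a ^ 2)).re := by
    intro a ha ha0 p hp
    have hna : 0 < ‖a‖ := norm_pos_iff.2 ha0
    have hna' : ((‖a‖ : ℝ) : ℂ) ≠ 0 := by exact_mod_cast hna.ne'
    set z := p (‖a‖ : ℝ)
    set w := (ψ a)⁻¹ with hw
    have hwK : w ∉ K := hout a ha ha0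
    have hu : ‖a / (‖a‖ : ℝ)‖ = 1 := by simp [hna.ne']
    set c : ℝ → ℂ := fun t => ((1 - t : ℝ) : ℂ) * z + t * w with hc
    have hc1 : c 1 = w := by simp [hc]
    have hcd : HasDerivAt c (w - z) 1 := by
      have h1 : HasDerivAt (fun t : ℝ => (t : ℂ)) 1 1 := Complex.ofRealCLM.hasDerivAt
      have h2 := ((h1.const_sub 1).mul_const z).add (h1.mul_const w)
      have e1 : c = (fun y : ℝ => (1 - (y : ℂ)) * z) + fun y : ℝ => (y : ℂ) * w := by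
        ext t; simp [hc]
      rw [e1, show w - z = -1 * z + 1 * w by ring]
      exact h2
    have hge : ∀ t : ℝ, 0 ≤ t → t ≤ 1 → c t ∉ K → ‖a‖ ≤ ‖φ (c t)⁻¹‖ := by
      intro t h0 h1 hct
      have := hQC _ (hp.comb hKc (hInn _ hu) h0 h1) (‖a‖ : ℝ) (by simpa using ha) hna'
      simp only [mul_div_cancel₀ _ hna'] at this
      simpa [hc, z, hw] using this hct
    have hψa := hψU a ha
    have hdψ : deriv ψ a = (deriv φ (ψ a))⁻¹ := by
      have := (hψ' _ hψa.1).deriv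
      rwa [hψa.2] at this
    have hφ' : HasDerivAt φ (deriv ψ a)⁻¹ (c 1)⁻¹ := by
      rw [hc1, hw, inv_inv, hdψ, inv_inv]
      exact (hφd.differentiableAt (hU.mem_nhds hψa.1)).hasDerivAt
    have hΦ : HasDerivAt (fun t => φ (c t)⁻¹) ((-(w - z) / (c 1) ^ 2) • (deriv ψ a)⁻¹) 1 :=
      HasDerivAt.scomp_of_eq (h := fun t => (c t)⁻¹) (x := (1 : ℝ)) hφ'
        (hcd.inv (by rw [hc1]; exact (hKU w hwK).1)) rfl
    have hN := hΦ.norm_sq
    have hΦ1 : φ (c 1)⁻¹ = a := by rw [hc1, hw, inv_inv, hψa.2]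
    have hsl := (hasDerivAt_iff_tendsto_slope.1 hN).mono_left (nhdsLT_le_nhdsNE 1)
    have hev : ∀ᶠ t in 𝓝[<] (1 : ℝ), slope (fun t => ‖φ (c t)⁻¹‖ ^ 2) 1 t ≤ 0 := by
      have e1 : ∀ᶠ t in 𝓝 (1 : ℝ), c t ∈ Kᶜ :=
        hcd.continuousAt.preimage_mem_nhds (hK.isClosed.isOpen_compl.mem_nhds (by rwa [hc1]))
      filter_upwards [eventually_nhdsWithin_of_eventually_nhds e1, Ioo_mem_nhdsLT zero_lt_one]
        with t h1 h2
      rw [slope_def_field, hΦ1]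
      refine div_nonpos_of_nonneg_of_nonpos ?_ (by linarith [h2.2])
      have := hge t h2.1.le h2.2.le h1
      nlinarith
    have hle := le_of_tendsto hsl hev
    rw [hΦ1, hc1] at hle
    have hψa0 := hψne a ha ha0
    have hd0 : deriv ψ a ≠ 0 := deriv_ne_zero_of_injOn isOpen_ball hψd hψi ha
    have e : (-(w - z) / w ^ 2) • (deriv ψ a)⁻¹ = -(a * ((w - z) / (a * deriv ψ a / ψ a ^ 2))) := by
      rw [hw, smul_eq_mul]; field_simp
    rw [e, inner_neg_right, Complex.inner, mul_comm a, mul_assoc, Complex.mul_conj,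
      Complex.mul_re, Complex.ofReal_re, Complex.ofReal_im, mul_zero, sub_zero] at hle
    have := Complex.normSq_pos.2 ha0
    by_contra h
    nlinarith [not_le.1 h]
  refine ⟨ψ, hψd, hψi, hψ0, hout, fun a ha h0 z hz => hpos a ha h0 _ (Inn.const hz),
    fun a ha h0 b hb => ?_, hP1⟩
  have hna : 0 < ‖a‖ := norm_pos_iff.2 h0
  have hna' : ((‖a‖ : ℝ) : ℂ) ≠ 0 := by exact_mod_cast hna.ne'
  have := hpos a ha h0 _ (hInn (b / (‖a‖ : ℝ)) (by simp [hb, hna.ne']))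
  simpa only [mul_div_cancel₀ _ hna'] using this

end Crest.Agent.Lead.Cz
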