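import Mathlib
import Crest.Agent.Lead.CzExt
import Crest.Agent.Lead.CzAv

/-! The Cauchy / double layer kernels of the exterior map and the scalar `L²` estimate. -/

open Set Filter Metric Topology MeasureTheory

namespace Crest.Agent.Lead.Cz

local notation "conj" => starRingEnd ℂ

noncomputable def eta (ψ : ℂ → ℂ) (a : ℂ) : ℂ := deriv ψ a / dslope ψ 0 a
noncomputable def kap (ψ : ℂ → ℂ) (a b : ℂ) : ℂ := eta ψ a * ψ b / (ψ b - ψ a)
noncomputable def pp (a b : ℂ) : ℂ := (b + a) / (b - a)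
noncomputable def hh (ψ : ℂ → ℂ) (a b : ℂ) : ℂ := 2 * kap ψ a b - pp a b

theorem re_inv_nonneg {x : ℂ} (h : 0 ≤ x.re) : 0 ≤ (x⁻¹).re := by
  rw [Complex.inv_re]
  exact div_nonneg h (Complex.normSq_nonneg _)

theorem pp_re (a b : ℂ) : (pp a b).re = (‖b‖ ^ 2 - ‖a‖ ^ 2) / Complex.normSq (b - a) := by
  simp only [pp, Complex.div_re, Complex.sq_norm, Complex.normSq_apply, Complex.add_re,
    Complex.add_im, Complex.sub_re, Complex.sub_im]
  ring

theorem pp_conj {a b : ℂ} {β : ℝ} (hb : ‖b‖ = β) (hβ : 0 < β) :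
    conj (pp a b) = (β ^ 2 + conj a * b) / (β ^ 2 - conj a * b) := by
  have hb0 : b ≠ 0 := norm_pos_iff.1 (hb ▸ hβ)
  have e : (β : ℂ) ^ 2 = conj b * b := by
    rw [Complex.conj_mul', hb]
  rw [pp, map_div₀, map_add, map_sub, e, ← add_mul, ← sub_mul, mul_div_mul_right _ _ hb0]

theorem cm_ne {α β : ℝ} (hα : 0 < α) (hαβ : α < β) (s t : ℝ) :
    circleMap 0 β t ≠ circleMap 0 α s := fun e => by
  have := congrArg norm e
  rw [cm_norm hα, cm_norm (hα.trans hαβ)] at this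
  linarith

theorem cm_ne0 {α : ℝ} (hα : 0 < α) (s : ℝ) : circleMap 0 α s ≠ 0 :=
  norm_pos_iff.1 (by rwa [cm_norm hα])

theorem pp_cont {α β : ℝ} (hα : 0 < α) (hαβ : α < β) :
    Continuous (Function.uncurry fun s t => pp (circleMap 0 α s) (circleMap 0 β t)) := by
  refine Continuous.div ?_ ?_ fun x => sub_ne_zero.2 (cm_ne hα hαβ _ _)
  all_goals fun_prop

theorem mean_pp {α β : ℝ} (hα : 0 < α) (hαβ : α < β) (hβ : β < 1) {w : ℂ → ℂ}
    (hw : DifferentiableOn ℂ w (ball 0 1)) (t : ℝ) :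
    ∫ s, w (circleMap 0 α s) * pp (circleMap 0 α s) (circleMap 0 β t) ∂mu = w 0 := by
  have hb := cm_ne0 (hα.trans hαβ) t
  rw [mean (f := fun a => w a * pp a (circleMap 0 β t)) (ρ := β) ?_ hα hαβ]
  · simp [pp, hb]
  · refine (hw.mono (ball_subset_ball hβ.le)).mul (DifferentiableOn.div ?_ ?_ fun a ha e => ?_)
    · fun_prop
    · fun_prop
    · rw [← sub_eq_zero.1 e, mem_ball_zero_iff, cm_norm (hα.trans hαβ)] at ha
      exact ha.ne rfl

theorem mean_pp_conj {α β : ℝ} (hα : 0 < α) (hαβ : α < β) (hβ : β < 1) {φ : ℂ → ℂ}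
    (hφ : DifferentiableOn ℂ φ (ball 0 1)) (s : ℝ) :
    ∫ t, conj (pp (circleMap 0 α s) (circleMap 0 β t)) * φ (circleMap 0 β t) ∂mu = φ 0 := by
  have hβ0 := hα.trans hαβ
  simp only [fun t => pp_conj (a := circleMap 0 α s) (cm_norm hβ0 t) hβ0]
  have h1 : β < β ^ 2 / α := by rw [lt_div_iff₀ hα]; nlinarith
  have hβc : (β : ℂ) ≠ 0 := by exact_mod_cast hβ0.ne'
  rw [mean (f := fun b => (β ^ 2 + conj (circleMap 0 α s) * b) / (β ^ 2 - conj (circleMap 0 α s) * b)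
    * φ b) (ρ := min 1 (β ^ 2 / α)) ?_ hβ0 (lt_min hβ h1)]
  · simp [hβc]
  · refine (DifferentiableOn.div ?_ ?_ fun b hb e => ?_).mul
      (hφ.mono (ball_subset_ball (min_le_left _ _)))
    · fun_prop
    · fun_prop
    · have h2 := congrArg norm (sub_eq_zero.1 e)
      rw [norm_mul, Complex.norm_conj, cm_norm hα, norm_pow, Complex.norm_real, Real.norm_eq_abs,
        sq_abs] at h2
      have h3 : ‖b‖ < β ^ 2 / α := lt_of_lt_of_le (mem_ball_zero_iff.1 hb) (min_le_right _ _)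
      rw [lt_div_iff₀ hα] at h3
      linarith

theorem mean_pp2 {α β : ℝ} (hα : 0 < α) (hαβ : α < β) (hβ : β < 1) (s : ℝ) :
    ∫ t, pp (circleMap 0 α s) (circleMap 0 β t) ∂mu = 1 := by
  have := mean_pp_conj hα hαβ hβ (φ := fun _ => 1) (differentiableOn_const _) s
  simp only [mul_one, integral_conj] at this
  simpa using congrArg conj this

namespace ExtMap
variable {K : Set ℂ} {ψ : ℂ → ℂ} (E : ExtMap K ψ)
include E

theorem dne {a : ℂ} (ha : a ∈ ball (0 : ℂ) 1) : deriv ψ a ≠ 0 :=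
  deriv_ne_zero_of_injOn isOpen_ball E.diff E.inj ha

theorem ne0 {a : ℂ} (ha : a ∈ ball (0 : ℂ) 1) (h0 : a ≠ 0) : ψ a ≠ 0 := fun e =>
  h0 (E.inj ha (mem_ball_self one_pos) (e.trans E.zero.symm))

theorem sub_ne {a b : ℂ} (ha : a ∈ ball (0 : ℂ) 1) (hb : b ∈ ball (0 : ℂ) 1) (h : b ≠ a) :
    ψ b - ψ a ≠ 0 := sub_ne_zero.2 fun e => h (E.inj hb ha e)

theorem ds_ne {a b : ℂ} (ha : a ∈ ball (0 : ℂ) 1) (hb : b ∈ ball (0 : ℂ) 1) : dslope ψ b a ≠ 0 := by
  by_cases h : a = b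
  · rw [h, dslope_same]; exact E.dne hb
  · rw [dslope_of_ne _ h, slope_def_field]
    exact div_ne_zero (E.sub_ne hb ha h) (sub_ne_zero.2 h)

theorem ds_diff {b : ℂ} (hb : b ∈ ball (0 : ℂ) 1) : DifferentiableOn ℂ (dslope ψ b) (ball 0 1) :=
  (Complex.differentiableOn_dslope (isOpen_ball.mem_nhds hb)).2 E.diff

theorem eta_diff : DifferentiableOn ℂ (eta ψ) (ball 0 1) :=
  (E.diff.deriv isOpen_ball).div (E.ds_diff (mem_ball_self one_pos))
    fun _ ha => E.ds_ne ha (mem_ball_self one_pos)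

theorem eta_zero : eta ψ 0 = 1 := by
  rw [eta, dslope_same, div_self (E.dne (mem_ball_self one_pos))]

theorem eta_eq {a : ℂ} (h0 : a ≠ 0) : eta ψ a = a * deriv ψ a / ψ a := by
  rw [eta, dslope_of_ne _ h0, slope_def_field, E.zero, sub_zero, sub_zero, div_div_eq_mul_div,
    mul_comm]

theorem hfirst {b : ℂ} (hb : b ∈ ball (0 : ℂ) 1) (h0 : b ≠ 0) :
    ∃ g : ℂ → ℂ, DifferentiableOn ℂ g (ball 0 1) ∧ g 0 = 1 ∧
      ∀ a ∈ ball (0 : ℂ) 1, a ≠ b → g a = hh ψ a b := by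
  set N : ℂ → ℂ := fun a => 2 * eta ψ a * ψ b / dslope ψ b a - (b + a) with hN
  have hNd : DifferentiableOn ℂ N (ball 0 1) :=
    (((E.eta_diff.const_mul 2).mul_const _).div (E.ds_diff hb) fun a ha => E.ds_ne ha hb).sub
      (differentiableOn_id.const_add b)
  have hψb := E.ne0 hb h0
  have hNb : N b = 0 := by
    have := E.dne hb
    simp only [hN, dslope_same, E.eta_eq h0]
    field_simp
    ring
  have key : ∀ a ∈ ball (0 : ℂ) 1, a ≠ b → -dslope N b a = hh ψ a b := by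
    intro a ha hab
    have h1 := E.sub_ne ha hb hab.symm
    have h2 := E.sub_ne hb ha hab
    have h3 := sub_ne_zero.2 hab
    have h4 := sub_ne_zero.2 hab.symm
    rw [dslope_of_ne _ hab, slope_def_field, hNb, hN]
    simp only [dslope_of_ne _ hab, slope_def_field, hh, kap, pp]
    field_simp
    ring
  refine ⟨fun a => -dslope N b a,
    ((Complex.differentiableOn_dslope (isOpen_ball.mem_nhds hb)).2 hNd).neg, ?_, key⟩
  simp only
  rw [key 0 (mem_ball_self one_pos) h0.symm]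
  simp only [hh, kap, pp, E.eta_zero, E.zero]
  field_simp
  ring

theorem hsecond {a : ℂ} (ha : a ∈ ball (0 : ℂ) 1) (h0 : a ≠ 0) :
    ∃ g : ℂ → ℂ, DifferentiableOn ℂ g (ball 0 1) ∧ g 0 = 1 ∧
      ∀ b ∈ ball (0 : ℂ) 1, b ≠ a → g b = hh ψ a b := by
  set N : ℂ → ℂ := fun b => 2 * eta ψ a * ψ b / dslope ψ a b - (b + a) with hN
  have hNd : DifferentiableOn ℂ N (ball 0 1) :=
    ((E.diff.const_mul _).div (E.ds_diff ha) fun b hb => E.ds_ne hb ha).sub
      (differentiableOn_id.add_const a)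
  have hψa := E.ne0 ha h0
  have hNa : N a = 0 := by
    have := E.dne ha
    simp only [hN, dslope_same, E.eta_eq h0]
    field_simp
    ring
  have key : ∀ b ∈ ball (0 : ℂ) 1, b ≠ a → dslope N a b = hh ψ a b := by
    intro b hb hab
    have h1 := E.sub_ne ha hb hab
    have h3 := sub_ne_zero.2 hab
    rw [dslope_of_ne _ hab, slope_def_field, hNa, hN]
    simp only [dslope_of_ne _ hab, slope_def_field, hh, kap, pp]
    field_simp
    ring
  refine ⟨dslope N a, (Complex.differentiableOn_dslope (isOpen_ball.mem_nhds ha)).2 hNd, ?_, key⟩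
  rw [key 0 (mem_ball_self one_pos) h0.symm]
  simp only [hh, kap, pp, E.zero]
  field_simp
  ring

theorem hpos_sph {a b : ℂ} (hb : b ∈ ball (0 : ℂ) 1) (h0 : b ≠ 0) (hab : ‖a‖ = ‖b‖)
    (hne : a ≠ b) : 0 ≤ (hh ψ a b).re := by
  have ha : a ∈ ball (0 : ℂ) 1 := by rwa [mem_ball_zero_iff, hab, ← mem_ball_zero_iff]
  have ha0 : a ≠ 0 := norm_pos_iff.1 (hab ▸ norm_pos_iff.2 h0)
  have h1 := re_inv_nonneg (E.pos2 a ha ha0 b hab.symm)
  have e : (((ψ a)⁻¹ - (ψ b)⁻¹) / (a * deriv ψ a / ψ a ^ 2))⁻¹ = kap ψ a b := by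
    have := E.ne0 ha ha0
    have := E.ne0 hb h0
    have := E.sub_ne ha hb hne.symm
    have := E.dne ha
    rw [kap, E.eta_eq ha0]
    field_simp
  rw [e] at h1
  rw [hh, Complex.sub_re, pp_re, hab, sub_self, zero_div, sub_zero]
  simpa using h1

theorem hpos {a b : ℂ} (hb : b ∈ ball (0 : ℂ) 1) (hab : ‖a‖ < ‖b‖) : 0 ≤ (hh ψ a b).re := by
  have hbp : 0 < ‖b‖ := (norm_nonneg a).trans_lt hab
  have h0 : b ≠ 0 := norm_pos_iff.1 hbp
  obtain ⟨g, hg, -, hgh⟩ := E.hfirst hb h0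
  have hb1 : ‖b‖ < 1 := mem_ball_zero_iff.1 hb
  have hsph : ∀ y : ℂ, ‖y‖ = ‖b‖ → 0 ≤ (g y).re := by
    have h1 : ∀ y : ℂ, ‖y‖ = ‖b‖ → y ≠ b → 0 ≤ (g y).re := fun y hy hne => by
      rw [hgh y (by rwa [mem_ball_zero_iff, hy]) hne]
      exact E.hpos_sph hb h0 hy hne
    intro y hy
    by_cases hne : y = b
    swap
    · exact h1 y hy hne
    subst hne
    have hc : ContinuousAt (fun θ : ℝ => (g (Complex.exp (θ * Complex.I) * y)).re) 0 := by
      refine Complex.continuous_re.continuousAt.comp (ContinuousAt.comp ?_ (by fun_prop))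
      simpa using hg.continuousOn.continuousAt (isOpen_ball.mem_nhds hb)
    have ht := hc.tendsto.mono_left (nhdsWithin_le_nhds (s := Ioi 0))
    simp only [Complex.ofReal_zero, zero_mul, Complex.exp_zero, one_mul] at ht
    refine ge_of_tendsto ht ?_
    filter_upwards [Ioo_mem_nhdsGT Real.pi_pos] with θ hθ
    refine h1 _ (by simp) fun e => ?_
    have e2 : Complex.exp (θ * Complex.I) = 1 := by
      simpa [h0] using e
    have e3 := congrArg Complex.im e2
    rw [Complex.exp_ofReal_mul_I_im, Complex.one_im] at e3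
    exact (Real.sin_pos_of_pos_of_lt_pi hθ.1 hθ.2).ne' e3
  have hd : DiffContOnCl ℂ (fun y => Complex.exp (-g y)) (ball 0 ‖b‖) := by
    refine DifferentiableOn.diffContOnCl ?_
    rw [closure_ball 0 hbp.ne']
    exact (hg.mono (closedBall_subset_ball hb1)).neg.cexp
  have := Complex.norm_le_of_forall_mem_frontier_norm_le (C := 1) isBounded_ball hd (fun y hy => by
    rw [frontier_ball 0 hbp.ne', mem_sphere_zero_iff_norm] at hy
    rw [Complex.norm_exp, Real.exp_le_one_iff, Complex.neg_re, neg_nonpos]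
    exact hsph y hy) (subset_closure (mem_ball_zero_iff.2 hab))
  rw [Complex.norm_exp, Real.exp_le_one_iff, Complex.neg_re, neg_nonpos,
    hgh a (mem_ball_zero_iff.2 (hab.trans hb1)) (by rintro rfl; exact hab.ne rfl)] at this
  exact this

variable {α β : ℝ}

theorem kap_cont (hα : 0 < α) (hαβ : α < β) (hβ : β < 1) :
    Continuous (Function.uncurry fun s t => kap ψ (circleMap 0 α s) (circleMap 0 β t)) := by
  have h1 := cont_cm E.eta_diff.continuousOn hα (hαβ.trans hβ)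
  have h2 := cont_cm E.diff.continuousOn hα (hαβ.trans hβ)
  have h3 := cont_cm E.diff.continuousOn (hα.trans hαβ) hβ
  exact ((h1.comp continuous_fst).mul (h3.comp continuous_snd)).div
    ((h3.comp continuous_snd).sub (h2.comp continuous_fst)) fun x =>
      E.sub_ne (cm_mem hα (hαβ.trans hβ) _) (cm_mem (hα.trans hαβ) hβ _) (cm_ne hα hαβ _ _)

theorem hh_cont (hα : 0 < α) (hαβ : α < β) (hβ : β < 1) :
    Continuous (Function.uncurry fun s t => hh ψ (circleMap 0 α s) (circleMap 0 β t)) :=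
  (continuous_const.mul (E.kap_cont hα hαβ hβ)).sub (pp_cont hα hαβ)

theorem mean_h1 {r : ℝ} (hr : 0 < r) (hr1 : r < 1) {b : ℂ} (hb : b ∈ ball (0 : ℂ) 1) (h0 : b ≠ 0)
    (hbr : ‖b‖ ≠ r) {w : ℂ → ℂ} (hw : DifferentiableOn ℂ w (ball 0 1)) :
    ∫ s, w (circleMap 0 r s) * hh ψ (circleMap 0 r s) b ∂mu = w 0 := by
  obtain ⟨g, hg, hg0, hgh⟩ := E.hfirst hb h0
  have := mean (hw.mul hg) hr hr1
  simp only [Pi.mul_apply, hg0, mul_one] at this
  rw [← this]
  congr 1
  ext s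
  rw [hgh _ (cm_mem hr hr1 s) fun e => hbr (by rw [← e, cm_norm hr])]

theorem mean_h2 (hα : 0 < α) (hαβ : α < β) (hβ : β < 1) (s' s : ℝ) :
    ∫ t, hh ψ (circleMap 0 α s) (circleMap 0 β t) ∂mu = 1 ∧
    ∫ t, conj (pp (circleMap 0 α s') (circleMap 0 β t)) *
      hh ψ (circleMap 0 α s) (circleMap 0 β t) ∂mu = 1 := by
  obtain ⟨g, hg, hg0, hgh⟩ := E.hsecond (cm_mem hα (hαβ.trans hβ) s) (cm_ne0 hα s)
  simp only [← fun t => hgh _ (cm_mem (hα.trans hαβ) hβ t) (cm_ne hα hαβ s t)]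
  exact ⟨(mean hg (hα.trans hαβ) hβ).trans hg0, (mean_pp_conj hα hαβ hβ hg s').trans hg0⟩

/-- zero winding number -/
theorem wind (hα : 0 < α) (hαβ : α < β) (hβ : β < 1) (s : ℝ) :
    ∫ t, kap ψ (circleMap 0 β t) (circleMap 0 α s) ∂mu = 0 := by
  have h1 := E.mean_h1 (hα.trans hαβ) hβ (cm_mem hα (hαβ.trans hβ) s) (cm_ne0 hα s)
    (by rw [cm_norm hα]; exact hαβ.ne) (differentiableOn_const 1)
  have h2 := mean_pp2 hα hαβ hβ s
  have e : ∀ t, kap ψ (circleMap 0 β t) (circleMap 0 α s) =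
      (1 * hh ψ (circleMap 0 β t) (circleMap 0 α s) - pp (circleMap 0 α s) (circleMap 0 β t)) / 2 := by
    intro t
    have h3 := sub_ne_zero.2 (cm_ne hα hαβ s t)
    have h4 := sub_ne_zero.2 (cm_ne hα hαβ s t).symm
    simp only [hh, pp]
    field_simp
    ring
  have c1 := cont_cm E.eta_diff.continuousOn (hα.trans hαβ) hβ
  have c3 := cont_cm E.diff.continuousOn (hα.trans hαβ) hβ
  have c4 : Continuous fun t => pp (circleMap 0 α s) (circleMap 0 β t) :=
    (pp_cont hα hαβ).comp (by fun_prop : Continuous fun t => (s, t))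
  have c5 : Continuous fun t => 1 * hh ψ (circleMap 0 β t) (circleMap 0 α s) := by
    refine continuous_const.mul ((continuous_const.mul ((c1.mul continuous_const).div
      (continuous_const.sub c3) fun t => ?_)).sub (Continuous.div ?_ ?_ fun t => ?_))
    · exact E.sub_ne (cm_mem (hα.trans hαβ) hβ _) (cm_mem hα (hαβ.trans hβ) _)
        (cm_ne hα hαβ _ _).symm
    · fun_prop
    · fun_prop
    · exact sub_ne_zero.2 (cm_ne hα hαβ s t).symm
  simp only [e]
  rw [integral_div, int_sub c5 c4, h1, h2, sub_self, zero_div]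

/-- the scalar `L²` estimate -/
theorem l2 (hα : 0 < α) (hαβ : α < β) (hβ : β < 1) {w : ℂ → ℂ}
    (hw : DifferentiableOn ℂ w (ball 0 1)) (hw0 : w 0 = 0) (g : ℂ) :
    ∫ t, ‖∫ s, kap ψ (circleMap 0 α s) (circleMap 0 β t) * (g + conj (w (circleMap 0 α s))) ∂mu‖ ^ 2
      ∂mu ≤ ‖g‖ ^ 2 + 2 * ∫ s, ‖w (circleMap 0 α s)‖ ^ 2 ∂mu := by
  have hα1 := hαβ.trans hβ
  have hβ0 := hα.trans hαβ
  have hne : ∀ t, ‖circleMap 0 β t‖ ≠ α := fun t => by rw [cm_norm hβ0]; exact hαβ.ne'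
  have := l2_abstract (pp_cont hα hαβ) (E.hh_cont hα hαβ hβ)
    (fun s t => by
      rw [pp_re, cm_norm hα, cm_norm hβ0]
      exact div_nonneg (by nlinarith) (Complex.normSq_nonneg _))
    (fun s t => E.hpos (cm_mem hβ0 hβ t) (by rwa [cm_norm hα, cm_norm hβ0]))
    (fun t => by simpa using mean_pp hα hαβ hβ (differentiableOn_const 1) t)
    (fun t => by
      simpa using E.mean_h1 hα hα1 (cm_mem hβ0 hβ t) (cm_ne0 hβ0 t) (hne t)
        (differentiableOn_const 1))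
    (mean_pp2 hα hαβ hβ) (fun s => (E.mean_h2 hα hαβ hβ s s).1)
    (φ := fun s => conj (w (circleMap 0 α s)))
    (Complex.continuous_conj.comp (cont_cm hw.continuousOn hα hα1))
    (fun t => by simpa [hw0] using mean_pp hα hαβ hβ hw t)
    (fun t => by simpa [hw0] using E.mean_h1 hα hα1 (cm_mem hβ0 hβ t) (cm_ne0 hβ0 t) (hne t) hw)
    (by rw [integral_conj, mean hw hα hα1, hw0, map_zero])
    (fun s' s => (E.mean_h2 hα hαβ hβ s' s).2) g
  simp only [Complex.norm_conj] at this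
  refine le_of_eq_of_le ?_ this
  congr 1
  ext t
  congr 3
  ext s
  simp only [hh]
  ring

end ExtMap

end Crest.Agent.Lead.Cz
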