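import Mathlib
import Crest.Agent.Lead.CzKer
import Crest.Agent.Lead.CzHS

/-! The resolvent kernel on level curves, contour functional calculus and the main inequality. -/

open Set Filter Metric Topology MeasureTheory Matrix Polynomial
open scoped ComplexOrder

set_option maxHeartbeats 400000

namespace Crest.Agent.Lead.Cz

local notation "conj" => starRingEnd ℂ

variable {n m : Type*} [Fintype n] [DecidableEq n] [Fintype m] [DecidableEq m]

/-- numerical range inside `K` -/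
def WIn (A : Matrix n n ℂ) (K : Set ℂ) : Prop :=
  ∀ ξ : n → ℂ, ∃ z ∈ K, star ξ ⬝ᵥ (A *ᵥ ξ) = z * (star ξ ⬝ᵥ ξ)

noncomputable def kk (ψ : ℂ → ℂ) (A : Matrix n n ℂ) (a : ℂ) : Matrix n n ℂ :=
  eta ψ a • (1 - ψ a • A)⁻¹

/-- contour functional calculus -/
noncomputable def II (ψ : ℂ → ℂ) (A : Matrix n n ℂ) (β : ℝ) (e : ℂ → ℂ) : Matrix n n ℂ :=
  avM fun t => e (ψ (circleMap 0 β t))⁻¹ • kk ψ A (circleMap 0 β t)

theorem avM_add {p q : Type*} {f g : ℝ → Matrix p q ℂ} (hf : Continuous f) (hg : Continuous g) :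
    (avM fun t => f t + g t) = avM f + avM g := by
  ext i j
  simp only [avM, of_apply, Matrix.add_apply]
  rw [int_add] <;> fun_prop

theorem avM_smul {p q : Type*} (c : ℂ) (f : ℝ → Matrix p q ℂ) :
    (avM fun t => c • f t) = c • avM f := by
  ext i j
  simp only [avM, of_apply, Matrix.smul_apply, smul_eq_mul, integral_const_mul]

theorem avM_smul_const {p q : Type*} (f : ℝ → ℂ) (X : Matrix p q ℂ) :
    (avM fun t => f t • X) = (∫ t, f t ∂mu) • X := by
  ext i j
  simp only [avM, of_apply, Matrix.smul_apply, smul_eq_mul, integral_mul_const]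

namespace ExtMap
variable {K : Set ℂ} {ψ : ℂ → ℂ} (E : ExtMap K ψ) {A : Matrix n n ℂ}
include E

theorem det_ne (hW : WIn A K) {a : ℂ} (ha : a ∈ ball (0 : ℂ) 1) : (1 - ψ a • A).det ≠ 0 := by
  intro h
  obtain ⟨ξ, hξ, h0⟩ := Matrix.exists_mulVec_eq_zero_iff.2 h
  obtain ⟨z, hz, e⟩ := hW ξ
  have h1 : star ξ ⬝ᵥ ((1 - ψ a • A) *ᵥ ξ) = 0 := by rw [h0, dotProduct_zero]
  rw [sub_mulVec, one_mulVec, smul_mulVec, dotProduct_sub, dotProduct_smul, e, smul_eq_mul] at h1
  have h2 : star ξ ⬝ᵥ ξ ≠ 0 := fun h => hξ (dotProduct_star_self_eq_zero.1 h)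
  have h3 : ψ a * z = 1 := by
    have : (1 - ψ a * z) * (star ξ ⬝ᵥ ξ) = 0 := by linear_combination h1
    linear_combination -(mul_eq_zero.1 this).resolve_right h2
  have h4 : a ≠ 0 := by
    rintro rfl
    simp [E.zero] at h3
  refine E.out a ha h4 ?_
  rwa [← eq_inv_of_mul_eq_one_right h3]

theorem kk_hol (hW : WIn A K) : Hol (kk ψ A) := by
  intro i j
  have h : Hol fun a => (1 : Matrix n n ℂ) - ψ a • A := fun i j => by
    simp only [Matrix.sub_apply, Matrix.smul_apply, smul_eq_mul]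
    exact (E.diff.mul_const _).const_sub _
  exact E.eta_diff.mul (h.inv (fun a ha => E.det_ne hW ha) i j)

theorem kk_zero : kk ψ A 0 = 1 := by simp [kk, E.eta_zero, E.zero]

theorem kk_left (hW : WIn A K) {a : ℂ} (ha : a ∈ ball (0 : ℂ) 1) :
    (1 - ψ a • A) * kk ψ A a = eta ψ a • 1 := by
  rw [kk, Matrix.mul_smul, Matrix.mul_nonsing_inv _ (E.det_ne hW ha).isUnit]

theorem kk_psd (hW : WIn A K) {a : ℂ} (ha : a ∈ ball (0 : ℂ) 1) (h0 : a ≠ 0) :
    (kk ψ A a + (kk ψ A a)ᴴ).PosSemidef := by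
  refine PosSemidef.of_dotProduct_mulVec_nonneg (isHermitian_add_transpose_self _) fun ξ => ?_
  set ζ := (1 - ψ a • A)⁻¹ *ᵥ ξ with hζ
  have hξ : ξ = (1 - ψ a • A) *ᵥ ζ := by
    rw [hζ, mulVec_mulVec, Matrix.mul_nonsing_inv _ (E.det_ne hW ha).isUnit, one_mulVec]
  obtain ⟨z, hz, e⟩ := hW ζ
  have h1 : star ζ ⬝ᵥ ξ = (1 - ψ a * z) * (star ζ ⬝ᵥ ζ) := by
    conv_lhs => rw [hξ]
    rw [sub_mulVec, one_mulVec, smul_mulVec, dotProduct_sub, dotProduct_smul, e, smul_eq_mul]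
    ring
  have h2 : star ξ ⬝ᵥ (kk ψ A a *ᵥ ξ) = eta ψ a * conj (star ζ ⬝ᵥ ξ) := by
    rw [kk, smul_mulVec, dotProduct_smul, ← hζ, smul_eq_mul, star_dotProduct]
    rfl
  have h3 : star ξ ⬝ᵥ ((kk ψ A a)ᴴ *ᵥ ξ) = conj (star ξ ⬝ᵥ (kk ψ A a *ᵥ ξ)) := by
    rw [dotProduct_mulVec, ← star_mulVec, star_dotProduct]
    rfl
  obtain ⟨N, hN, eN⟩ : ∃ N : ℝ, 0 ≤ N ∧ star ζ ⬝ᵥ ζ = N := by
    have := dotProduct_star_self_nonneg ζ
    obtain ⟨h1, h2⟩ := Complex.nonneg_iff.1 this
    exact ⟨_, h1, Complex.ext (by simp) (by simpa using h2.symm)⟩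
  have h4 := E.pos1 a ha h0 z hz
  have hψ := E.ne0 ha h0
  have hd := E.dne ha
  set x := ((ψ a)⁻¹ - z) / (a * deriv ψ a / ψ a ^ 2)
  have h5 : 1 - ψ a * z = eta ψ a * x := by
    rw [E.eta_eq h0]; simp only [x]; field_simp
  rw [add_mulVec, dotProduct_add, h3, Complex.add_conj, h2, h1, eN, h5, Complex.zero_le_real]
  have h6 : eta ψ a * conj (eta ψ a * x * N) = (Complex.normSq (eta ψ a) * N : ℝ) * conj x := by
    rw [map_mul, map_mul, Complex.conj_ofReal, Complex.ofReal_mul, ← Complex.mul_conj]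
    ring
  rw [h6, Complex.re_ofReal_mul, Complex.conj_re]
  have := Complex.normSq_nonneg (eta ψ a)
  positivity

theorem kk_comm (hW : WIn A K) {a : ℂ} (ha : a ∈ ball (0 : ℂ) 1) (q : ℂ[X]) :
    kk ψ A a * aeval A q = aeval A q * kk ψ A a := by
  have hu := (E.det_ne hW ha).isUnit
  have h1 : Commute (1 - ψ a • A) (aeval A q) := by
    refine (Commute.one_left _).sub_left (Commute.smul_left ?_ _)
    have : Commute (aeval A (X : ℂ[X])) (aeval A q) := (Commute.all _ _).map _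
    simpa using this
  rw [kk, Matrix.smul_mul, Matrix.mul_smul]
  congr 1
  calc (1 - ψ a • A)⁻¹ * aeval A q
      = (1 - ψ a • A)⁻¹ * (aeval A q * (1 - ψ a • A)) * (1 - ψ a • A)⁻¹ := by
        rw [Matrix.mul_assoc, Matrix.mul_assoc, Matrix.mul_nonsing_inv _ hu, Matrix.mul_one]
    _ = aeval A q * (1 - ψ a • A)⁻¹ := by
        rw [← h1.eq, ← Matrix.mul_assoc, Matrix.nonsing_inv_mul _ hu, Matrix.one_mul]

variable {V : Set ℂ} {α β : ℝ}

theorem gam_cont (h0 : 0 < β) (h1 : β < 1) : Continuous fun t => (ψ (circleMap 0 β t))⁻¹ :=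
  (cont_cm E.diff.continuousOn h0 h1).inv₀ fun t => E.ne0 (cm_mem h0 h1 t) (cm_ne0 h0 t)

theorem comp_cont (h0 : 0 < β) (h1 : β < 1) (hΓ : ∀ t, (ψ (circleMap 0 β t))⁻¹ ∈ V) {e : ℂ → ℂ}
    (he : DifferentiableOn ℂ e V) : Continuous fun t => e (ψ (circleMap 0 β t))⁻¹ :=
  he.continuousOn.comp_continuous (E.gam_cont h0 h1) hΓ

/-- Cauchy's theorem along a level curve -/
theorem cauchy (hV : IsOpen V) (hVc : Convex ℝ V) (h0 : 0 < β) (h1 : β < 1)
    (hΓ : ∀ t, (ψ (circleMap 0 β t))⁻¹ ∈ V) {e : ℂ → ℂ} (he : DifferentiableOn ℂ e V) :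
    ∫ t, e (ψ (circleMap 0 β t))⁻¹ * (eta ψ (circleMap 0 β t) * (ψ (circleMap 0 β t))⁻¹) ∂mu = 0 := by
  obtain ⟨P, hP⟩ := hVc.exists_forall_hasDerivWithinAt he
  refine ftc_zero (g := fun t => Complex.I * P (ψ (circleMap 0 β t))⁻¹) (fun t => ?_) ?_ ?_
  · have hb := cm_mem h0 h1 t
    have hψ := E.ne0 hb (cm_ne0 h0 t)
    have a1 := (E.diff.differentiableAt (isOpen_ball.mem_nhds hb)).hasDerivAt.scomp t
      (hasDerivAt_circleMap 0 β t)
    have a2 := a1.inv hψ
    have a3 := ((hP _ (hΓ t)).hasDerivAt (hV.mem_nhds (hΓ t))).scomp_of_eq t a2 rfl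
    have a4 := a3.const_mul Complex.I
    refine a4.congr_deriv ?_
    rw [E.eta_eq (cm_ne0 h0 t)]
    simp only [smul_eq_mul, Function.comp]
    field_simp
    rw [Complex.I_sq]
    ring
  · exact (E.comp_cont h0 h1 hΓ he).mul
      ((cont_cm E.eta_diff.continuousOn h0 h1).mul (E.gam_cont h0 h1))
  · have := periodic_circleMap 0 β 0
    rw [zero_add] at this
    simp only [this]

theorem II_cont (hW : WIn A K) (h0 : 0 < β) (h1 : β < 1)
    (hΓ : ∀ t, (ψ (circleMap 0 β t))⁻¹ ∈ V) {e : ℂ → ℂ} (he : DifferentiableOn ℂ e V) :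
    Continuous fun t => e (ψ (circleMap 0 β t))⁻¹ • kk ψ A (circleMap 0 β t) :=
  (E.comp_cont h0 h1 hΓ he).smul ((E.kk_hol hW).cont h0 h1)

theorem A_kk (hW : WIn A K) {b : ℂ} (hb : b ∈ ball (0 : ℂ) 1) (h0 : b ≠ 0) :
    A * kk ψ A b = (ψ b)⁻¹ • kk ψ A b + (-(eta ψ b * (ψ b)⁻¹)) • (1 : Matrix n n ℂ) := by
  have h := E.kk_left hW hb
  have hψ := E.ne0 hb h0
  rw [Matrix.sub_mul, Matrix.one_mul, Matrix.smul_mul] at h
  have h2 : ψ b • (A * kk ψ A b) = kk ψ A b - eta ψ b • 1 := by rw [← h]; abel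
  have h3 := congrArg (fun X => (ψ b)⁻¹ • X) h2
  simp only [smul_smul, inv_mul_cancel₀ hψ, one_smul, smul_sub] at h3
  rw [h3, neg_smul, mul_comm, sub_eq_add_neg]

theorem II_mul (hW : WIn A K) (hV : IsOpen V) (hVc : Convex ℝ V) (h0 : 0 < β) (h1 : β < 1)
    (hΓ : ∀ t, (ψ (circleMap 0 β t))⁻¹ ∈ V) {e : ℂ → ℂ} (he : DifferentiableOn ℂ e V) :
    II ψ A β (fun z => z * e z) = A * II ψ A β e := by
  have c1 := E.II_cont hW h0 h1 hΓ (differentiableOn_id.mul he)
  have c2 := (E.comp_cont h0 h1 hΓ he).mul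
      ((cont_cm E.eta_diff.continuousOn h0 h1).mul (E.gam_cont h0 h1))
  rw [II, II, mul_avM _ (E.II_cont hW h0 h1 hΓ he)]
  have e1 : ∀ t, A * (e (ψ (circleMap 0 β t))⁻¹ • kk ψ A (circleMap 0 β t)) =
      ((ψ (circleMap 0 β t))⁻¹ * e (ψ (circleMap 0 β t))⁻¹) • kk ψ A (circleMap 0 β t) +
      (e (ψ (circleMap 0 β t))⁻¹ * (eta ψ (circleMap 0 β t) * (ψ (circleMap 0 β t))⁻¹)) •
        (-1 : Matrix n n ℂ) := by
    intro t
    rw [Matrix.mul_smul, E.A_kk hW (cm_mem h0 h1 t) (cm_ne0 h0 t)]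
    module
  simp only [e1]
  rw [avM_add, avM_smul_const, E.cauchy hV hVc h0 h1 hΓ he, zero_smul, add_zero]
  · exact c1
  · exact c2.smul continuous_const

theorem II_add (hW : WIn A K) (h0 : 0 < β) (h1 : β < 1)
    (hΓ : ∀ t, (ψ (circleMap 0 β t))⁻¹ ∈ V) {e e' : ℂ → ℂ} (he : DifferentiableOn ℂ e V)
    (he' : DifferentiableOn ℂ e' V) :
    II ψ A β (fun z => e z + e' z) = II ψ A β e + II ψ A β e' := by
  rw [II, II, II, ← avM_add (E.II_cont hW h0 h1 hΓ he) (E.II_cont hW h0 h1 hΓ he')]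
  simp only [add_smul]

theorem II_poly (hW : WIn A K) (hV : IsOpen V) (hVc : Convex ℝ V) (h0 : 0 < β) (h1 : β < 1)
    (hΓ : ∀ t, (ψ (circleMap 0 β t))⁻¹ ∈ V) {e : ℂ → ℂ} (he : DifferentiableOn ℂ e V) (p : ℂ[X]) :
    II ψ A β (fun z => p.eval z * e z) = aeval A p * II ψ A β e := by
  induction p using Polynomial.induction_on with
  | C c =>
    simp only [eval_C, aeval_C, II, ← smul_smul, avM_smul, Algebra.algebraMap_eq_smul_one,
      Matrix.smul_mul, Matrix.one_mul]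
  | add p q hp hq =>
    rw [map_add, Matrix.add_mul, ← hp, ← hq, ← E.II_add hW h0 h1 hΓ
      (p.differentiableOn.fun_mul he) (q.differentiableOn.fun_mul he)]
    simp only [eval_add, add_mul]
  | monomial k c hp =>
    have e1 : C c * X ^ (k + 1) = X * (C c * X ^ k) := by ring
    rw [e1, map_mul, aeval_X, Matrix.mul_assoc, ← hp,
      ← E.II_mul hW hV hVc h0 h1 hΓ ((C c * X ^ k).differentiableOn.fun_mul he)]
    simp only [eval_mul, eval_X, mul_assoc]

theorem II_one (hW : WIn A K) (h0 : 0 < β) (h1 : β < 1) : II ψ A β (fun _ => 1) = 1 := by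
  ext i j
  simp only [II, avM, of_apply, one_smul]
  rw [mean (E.kk_hol hW i j) h0 h1, E.kk_zero]

theorem II_F (hW : WIn A K) (hV : IsOpen V) (hVc : Convex ℝ V) (h0 : 0 < β) (h1 : β < 1)
    (hΓ : ∀ t, (ψ (circleMap 0 β t))⁻¹ ∈ V) {χ q : ℂ[X]} (hχ : aeval A χ = 0)
    {e : ℂ → ℂ} (he : DifferentiableOn ℂ e V) :
    II ψ A β (fun z => q.eval z + χ.eval z * e z) = aeval A q := by
  have a1 := E.II_poly hW hV hVc h0 h1 hΓ (differentiableOn_const 1) q
  have a2 := E.II_poly hW hV hVc h0 h1 hΓ he χ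
  rw [E.II_one hW h0 h1, Matrix.mul_one] at a1
  rw [hχ, Matrix.zero_mul] at a2
  simp only [mul_one] at a1
  rw [E.II_add hW h0 h1 hΓ q.differentiableOn (χ.differentiableOn.fun_mul he), a1, a2, add_zero]

theorem M1 (hW : WIn A K) (hV : IsOpen V) (hVc : Convex ℝ V) (hα : 0 < α) (hαβ : α < β)
    (h1 : β < 1) (hΓ : ∀ t, (ψ (circleMap 0 β t))⁻¹ ∈ V) (s : ℝ)
    (hΓa : (ψ (circleMap 0 α s))⁻¹ ∈ V) {F : ℂ → ℂ} (hF : DifferentiableOn ℂ F V) :
    (avM fun t => (kap ψ (circleMap 0 α s) (circleMap 0 β t) * F (ψ (circleMap 0 β t))⁻¹) •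
      kk ψ A (circleMap 0 β t)) = kk ψ A (circleMap 0 α s) * II ψ A β F := by
  have h0 := hα.trans hαβ
  have haB := cm_mem hα (hαβ.trans h1) s
  have hψa := E.ne0 haB (cm_ne0 hα s)
  have hne := cm_ne hα hαβ s
  have hwind := E.wind hα hαβ h1 s
  generalize circleMap 0 α s = a at haB hψa hne hwind hΓa ⊢
  have hu := (E.det_ne hW haB).isUnit
  have c0 := E.comp_cont h0 h1 hΓ hF
  have c2 := (E.kk_hol hW).cont h0 h1
  have cη := cont_cm E.eta_diff.continuousOn h0 h1
  have cψ := cont_cm E.diff.continuousOn h0 h1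
  have c1 : Continuous fun t => kap ψ a (circleMap 0 β t) :=
    (continuous_const.mul cψ).div (cψ.sub continuous_const) fun t =>
      E.sub_ne haB (cm_mem h0 h1 t) (hne t)
  have c3 : Continuous fun t => kap ψ (circleMap 0 β t) a :=
    (cη.mul continuous_const).div (continuous_const.sub cψ) fun t =>
      E.sub_ne (cm_mem h0 h1 t) haB (hne t).symm
  have hds : DifferentiableOn ℂ (dslope F (ψ a)⁻¹) V :=
    (Complex.differentiableOn_dslope (hV.mem_nhds hΓa)).2 hF
  have z1 : ∫ t, kap ψ (circleMap 0 β t) a * F (ψ (circleMap 0 β t))⁻¹ ∂mu = 0 := by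
    have e1 : ∀ t, kap ψ (circleMap 0 β t) a * F (ψ (circleMap 0 β t))⁻¹ =
        F (ψ a)⁻¹ * kap ψ (circleMap 0 β t) a + dslope F (ψ a)⁻¹ (ψ (circleMap 0 β t))⁻¹ *
          (eta ψ (circleMap 0 β t) * (ψ (circleMap 0 β t))⁻¹) := by
      intro t
      have b1 := sub_smul_dslope F (ψ a)⁻¹ (ψ (circleMap 0 β t))⁻¹
      have b2 := E.sub_ne (cm_mem h0 h1 t) haB (hne t).symm
      have b3 := E.ne0 (cm_mem h0 h1 t) (cm_ne0 h0 t)
      rw [eq_add_of_sub_eq b1.symm, smul_eq_mul, kap]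
      field_simp
      ring
    simp only [e1]
    rw [int_add, integral_const_mul, hwind,
      E.cauchy hV hVc h0 h1 hΓ hds, mul_zero, add_zero]
    · exact continuous_const.mul c3
    · exact (E.comp_cont h0 h1 hΓ hds).mul (cη.mul (E.gam_cont h0 h1))
  have z2 : (1 - ψ a • A) * (avM fun t => (kap ψ a (circleMap 0 β t) * F (ψ (circleMap 0 β t))⁻¹) •
      kk ψ A (circleMap 0 β t)) = eta ψ a • II ψ A β F := by
    rw [mul_avM]
    swap
    · exact (c1.mul c0).smul c2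
    have e1 : ∀ t, (1 - ψ a • A) * ((kap ψ a (circleMap 0 β t) * F (ψ (circleMap 0 β t))⁻¹) •
        kk ψ A (circleMap 0 β t)) = eta ψ a • (F (ψ (circleMap 0 β t))⁻¹ • kk ψ A (circleMap 0 β t)) +
        (kap ψ (circleMap 0 β t) a * F (ψ (circleMap 0 β t))⁻¹) • ((-eta ψ a) • (1 : Matrix n n ℂ)) := by
      intro t
      have b2 := E.sub_ne (cm_mem h0 h1 t) haB (hne t).symm
      have b2' := E.sub_ne haB (cm_mem h0 h1 t) (hne t)
      have b3 := E.ne0 (cm_mem h0 h1 t) (cm_ne0 h0 t)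
      rw [Matrix.mul_smul, Matrix.sub_mul, Matrix.one_mul, Matrix.smul_mul,
        E.A_kk hW (cm_mem h0 h1 t) (cm_ne0 h0 t)]
      simp only [kap]
      match_scalars
      · field_simp
      · field_simp
        ring
    simp only [e1]
    rw [avM_add, avM_smul, avM_smul_const, z1, zero_smul, add_zero, II]
    · exact (c0.smul c2).const_smul (eta ψ a)
    · exact (c3.mul c0).smul continuous_const
  rw [kk, Matrix.smul_mul, ← Matrix.mul_smul, ← z2, ← Matrix.mul_assoc,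
    Matrix.nonsing_inv_mul _ hu, Matrix.one_mul]

/-- the pairing estimate -/
theorem pair (hα : 0 < α) (hαβ : α < β) (h1 : β < 1) {u : ℂ → Matrix m m ℂ} (hu : Hol u)
    (hH : (u 0)ᴴ = u 0) {W : ℝ → Matrix m m ℂ} (hW : Continuous W) {κ : ℝ} (hκ : 0 < κ)
    (hrep : ∀ s (γ : Matrix m m ℂ), κ * trace (u (circleMap 0 α s) * γ) =
      ∫ t, kap ψ (circleMap 0 α s) (circleMap 0 β t) * trace (W t * γ) ∂mu) :
    κ ^ 2 * NN u α ≤ ∫ t, hs (W t) ∂mu := by
  have hα1 := hαβ.trans h1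
  set w : ℂ → Matrix m m ℂ := fun a => (1 / 2 : ℂ) • (u a - u 0) with hw
  have hwh : Hol w := fun i j => ((hu.sub (Hol.const (u 0))) i j).const_mul _
  have hw0 : w 0 = 0 := by simp [hw]
  set γ : ℝ → Matrix m m ℂ := fun s => u 0 + (w (circleMap 0 α s))ᴴ with hγ
  have cu := hu.cont hα hα1
  have cw := hwh.cont hα hα1
  have cγ : Continuous γ := continuous_const.add cw.matrix_conjTranspose
  have ck := E.kap_cont hα hαβ h1
  have hsw : ∀ a, hs (w a) = hs (u a - u 0) / 4 := by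
    intro a
    simp only [hs, hw, Matrix.smul_apply, smul_eq_mul, norm_mul, mul_pow, Finset.sum_div]
    refine Finset.sum_congr rfl fun i _ => Finset.sum_congr rfl fun j _ => ?_
    norm_num
    ring
  have hNN : NN u α = hs (u 0) + 2 * ∫ s, hs (w (circleMap 0 α s)) ∂mu := by
    simp only [hsw, integral_div, NN]
    ring
  have a1 : ∫ s, trace (u (circleMap 0 α s) * γ s) ∂mu = NN u α := by
    have e1 : ∀ s, trace (u (circleMap 0 α s) * γ s) = trace (u (circleMap 0 α s) * u 0) +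
        conj (trace (w (circleMap 0 α s) * u 0)) + 2 * (hs (w (circleMap 0 α s)) : ℂ) := by
      intro s
      have : u (circleMap 0 α s) = u 0 + (2 : ℂ) • w (circleMap 0 α s) := by
        simp [hw, smul_smul]
      rw [← tr_mul_ct, ← Complex.star_def, ← trace_conjTranspose, conjTranspose_mul, hH]
      simp only [hγ, Matrix.mul_add, trace_add]
      conv_lhs => enter [2]; rw [this]
      simp only [Matrix.add_mul, trace_add, Matrix.smul_mul, trace_smul, smul_eq_mul]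
      ring
    simp only [e1]
    have d1 := (cu.matrix_mul (continuous_const (y := u 0))).matrix_trace
    have d2 := Complex.continuous_conj.comp (cw.matrix_mul (continuous_const (y := u 0))).matrix_trace
    have d3 := (continuous_const (y := (2 : ℂ))).mul (Complex.continuous_ofReal.comp (cont_hs cw))
    rw [int_add, int_add, integral_conj,
      mean (hu.mul (Hol.const (u 0))).tr hα hα1, mean (hwh.mul (Hol.const (u 0))).tr hα hα1,
      integral_const_mul, integral_complex_ofReal, hNN, hw0]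
    · have a3 : trace (u 0 * u 0) = hs (u 0) := by rw [← tr_ct_mul, hH]
      simp [a3]
    exacts [d1, d2, d1.add d2, d3]
  set G : ℝ → Matrix m m ℂ := fun t =>
    avM fun s => kap ψ (circleMap 0 α s) (circleMap 0 β t) • γ s with hG
  have cG : Continuous G := by
    refine continuous_matrix fun i j => cont_int ?_
    exact (ck.comp continuous_swap).mul ((cγ.comp continuous_snd).matrix_elem i j)
  have a2 : (κ : ℂ) * NN u α = ∫ t, trace (W t * G t) ∂mu := by
    rw [← a1, ← integral_const_mul]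
    simp only [hrep]
    rw [swap_int (f := fun s t => kap ψ (circleMap 0 α s) (circleMap 0 β t) * trace (W t * γ s))
      (ck.mul ((hW.comp continuous_snd).matrix_mul (cγ.comp continuous_fst)).matrix_trace)]
    congr 1
    ext t
    have c1 : Continuous fun s => kap ψ (circleMap 0 α s) (circleMap 0 β t) • γ s :=
      (ck.comp (by fun_prop : Continuous fun s => (s, t))).smul cγ
    simp only [hG]
    rw [mul_avM _ c1, tr_avM (continuous_const.matrix_mul c1)]
    simp only [Matrix.mul_smul, trace_smul, smul_eq_mul]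
  have a3 : ∫ t, hs (G t) ∂mu ≤ NN u α := by
    rw [hNN]
    simp only [← fun s => hs_transpose (w (circleMap 0 α s))]
    simp only [hs]
    rw [int_sum, int_sum, Finset.mul_sum, ← Finset.sum_add_distrib]
    · refine Finset.sum_le_sum fun i _ => ?_
      rw [int_sum, int_sum, Finset.mul_sum, ← Finset.sum_add_distrib]
      · refine Finset.sum_le_sum fun j _ => ?_
        exact E.l2 hα hαβ h1 (hwh j i) (by rw [hw0]; rfl) (u 0 i j)
      · exact fun j => (cw.matrix_elem j i).norm.pow 2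
      · exact fun j => (cG.matrix_elem i j).norm.pow 2
    · exact fun i => continuous_finset_sum _ fun j _ => (cw.matrix_elem j i).norm.pow 2
    · exact fun i => continuous_finset_sum _ fun j _ => (cG.matrix_elem i j).norm.pow 2
  have a4 : 2 * (κ * NN u α) ≤ κ⁻¹ * ∫ t, hs (W t) ∂mu + κ * ∫ t, hs (G t) ∂mu := by
    have b1 := congrArg Complex.re a2
    have c1 := (hW.matrix_mul cG).matrix_trace
    rw [← Complex.ofReal_mul, Complex.ofReal_re, ← int_re c1] at b1
    rw [b1, ← integral_const_mul, ← integral_const_mul, ← integral_const_mul,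
      ← int_add (continuous_const.fun_mul (cont_hs hW)) (continuous_const.fun_mul (cont_hs cG))]
    exact integral_mono (intg (continuous_const.mul (Complex.continuous_re.comp c1)))
      (intg ((continuous_const.mul (cont_hs hW)).add (continuous_const.mul (cont_hs cG))))
      fun t => two_re_tr_le _ _ hκ
  have a5 := mul_le_mul_of_nonneg_left a3 hκ.le
  have a6 : κ * NN u α ≤ κ⁻¹ * ∫ t, hs (W t) ∂mu := by linarith
  have a7 := mul_le_mul_of_nonneg_left a6 hκ.le
  rw [← mul_assoc, ← mul_assoc, mul_inv_cancel₀ hκ.ne', one_mul] at a7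
  rwa [sq]

end ExtMap

end Crest.Agent.Lead.Cz
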