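import Mathlib
import Crest.Agent.Lead.CzCore

/-! The complete Crouzeix bound for matrices. -/

open Set Filter Metric Topology MeasureTheory Matrix Polynomial
open scoped ComplexOrder

set_option maxHeartbeats 400000

namespace Crest.Agent.Lead.Cz

local notation "conj" => starRingEnd ℂ

variable {n m : Type*} [Fintype n] [DecidableEq n] [Fintype m] [DecidableEq m]

/-- action of a block operator on `n × m` matrices -/
def tau (Q : m → m → Matrix n n ℂ) (x : Matrix n m ℂ) : Matrix n m ℂ :=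
  Matrix.of fun a c => ∑ b, ∑ d, Q c d a b * x b d

theorem tau_comm {Q : m → m → Matrix n n ℂ} {k : Matrix n n ℂ} (h : ∀ c d, k * Q c d = Q c d * k)
    (x : Matrix n m ℂ) : tau Q (k * x) = k * tau Q x := by
  have e : ∀ (x : Matrix n m ℂ) a c, tau Q x a c = ∑ d, (Q c d * x) a d := by
    intro x a c
    simp only [tau, of_apply, mul_apply]
    rw [Finset.sum_comm]
  ext a c
  rw [e, mul_apply]
  simp only [e, Finset.mul_sum]
  rw [Finset.sum_comm]
  refine Finset.sum_congr rfl fun d _ => ?_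
  rw [← Matrix.mul_assoc, ← h, Matrix.mul_assoc, mul_apply]

theorem main_ineq {K V : Set ℂ} {ψ : ℂ → ℂ} (E : ExtMap K ψ) {A : Matrix n n ℂ} (hW : WIn A K)
    (hV : IsOpen V) (hVc : Convex ℝ V) {δ : ℝ} (hδ : 0 < δ) (hKV : thickening δ K ⊆ V)
    {χ : ℂ[X]} (hχ : aeval A χ = 0) {F : ℂ → Matrix m m ℂ} {q : m → m → ℂ[X]}
    {e : m → m → ℂ → ℂ} (he : ∀ c d, DifferentiableOn ℂ (e c d) V)
    (hF : ∀ z ∈ V, ∀ c d, F z c d = (q c d).eval z + χ.eval z * e c d z) {M : ℝ}
    (hM : ∀ z ∈ V, ‖Matrix.toEuclideanCLM (n := m) (𝕜 := ℂ) (F z)‖ ≤ M)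
    {x y : Matrix n m ℂ} (hx : x ≠ 0) {κ : ℝ} (hκ : 0 < κ)
    (h1 : tau (fun c d => aeval A (q c d)) x = (κ : ℂ) • y)
    (h2 : ∀ v, trace (yᴴ * tau (fun c d => aeval A (q c d)) v) = κ * trace (xᴴ * v)) :
    κ ^ 2 ≤ 4 * M ^ 2 := by
  obtain ⟨β₀, hβ₀, hnear⟩ := E.near δ hδ
  set β₁ := max β₀ 0 with hβ₁
  have hβ₁1 : β₁ < 1 := max_lt hβ₀ one_pos
  set β := (β₁ + 1) / 2 with hβ
  have hβa : β₁ < β := by linarith
  have hβ1 : β < 1 := by linarith
  have hβ0 : 0 < β := lt_of_le_of_lt (le_max_right _ _) hβa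
  have hΓ : ∀ ρ, β₁ < ρ → ρ < 1 → ∀ t, (ψ (circleMap 0 ρ t))⁻¹ ∈ V := by
    intro ρ a1 a2 t
    have a0 : 0 < ρ := lt_of_le_of_lt (le_max_right _ _) a1
    exact hKV (hnear _ (by rw [cm_norm a0]; exact lt_of_le_of_lt (le_max_left _ _) a1)
      (by rwa [cm_norm a0]))
  have hΓβ := hΓ β hβa hβ1
  set Q : m → m → Matrix n n ℂ := fun c d => aeval A (q c d) with hQ
  have hk := E.kk_hol hW
  have hol : ∀ v w : Matrix n m ℂ, Hol fun a => vᴴ * kk ψ A a * w := fun v w =>
    ((Hol.const _).mul hk).mul (Hol.const _)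
  have her : ∀ v : Matrix n m ℂ, (vᴴ * kk ψ A 0 * v)ᴴ = vᴴ * kk ψ A 0 * v := fun v => by
    simp [E.kk_zero]
  have ck := hk.cont hβ0 hβ1
  have hFd : ∀ c d, DifferentiableOn ℂ (fun z => (q c d).eval z + χ.eval z * e c d z) V :=
    fun c d => (q c d).differentiableOn.add (χ.differentiableOn.mul (he c d))
  have cF : Continuous fun t => F (ψ (circleMap 0 β t))⁻¹ := by
    refine continuous_matrix fun c d => ?_
    simp only [fun t => hF _ (hΓβ t) c d]
    exact E.comp_cont hβ0 hβ1 hΓβ (hFd c d)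
  have cZ := (hol y x).cont hβ0 hβ1
  set B := ∫ t, hs (yᴴ * kk ψ A (circleMap 0 β t) * x) ∂mu with hB
  set Nx := NN fun a => xᴴ * kk ψ A a * x with hNx
  set Ny := NN fun a => yᴴ * kk ψ A a * y with hNy
  have hB1 : B ≤ 2 * (Nx β + Ny β) := by
    have a1 := int_hs_add (hol y x) (hol x y) hβ0 hβ1
    have a2 := int_hs_self (hol x x) (her x) hβ0 hβ1
    have a3 := int_hs_self (hol y y) (her y) hβ0 hβ1
    have e1 : ∀ (v w : Matrix n m ℂ) (k : Matrix n n ℂ),
        vᴴ * k * w + (wᴴ * k * v)ᴴ = vᴴ * (k + kᴴ) * w := by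
      intro v w k
      simp only [conjTranspose_mul, conjTranspose_conjTranspose, Matrix.mul_add, Matrix.add_mul,
        Matrix.mul_assoc]
    simp only [e1] at a1 a2 a3
    have a4 : 0 ≤ (trace (yᴴ * kk ψ A 0 * x * (xᴴ * kk ψ A 0 * y))).re := by
      have := tr_mul_ct (yᴴ * x)
      simp only [conjTranspose_mul, conjTranspose_conjTranspose] at this
      simp only [E.kk_zero, Matrix.mul_one, this, Complex.ofReal_re]
      exact hs_nonneg _
    have a5 : 0 ≤ ∫ t, hs (xᴴ * kk ψ A (circleMap 0 β t) * y) ∂mu :=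
      integral_nonneg fun t => hs_nonneg _
    have cP : ∀ v w : Matrix n m ℂ, Continuous fun t =>
        hs (vᴴ * (kk ψ A (circleMap 0 β t) + (kk ψ A (circleMap 0 β t))ᴴ) * w) := fun v w =>
      cont_hs ((continuous_const.matrix_mul (ck.add ck.matrix_conjTranspose)).matrix_mul
        continuous_const)
    have a6 := integral_mono (intg (continuous_const.fun_mul (cP y x)))
      (intg ((cP x x).fun_add (cP y y)))
      fun t => hs_psd (E.kk_psd hW (cm_mem hβ0 hβ1 t) (cm_ne0 hβ0 t)) x y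
    rw [integral_const_mul, int_add (cP x x) (cP y y), a1, a2, a3] at a6
    linarith
  have hstep : ∀ α, β₁ < α → α < β → κ ^ 2 * (Nx α + Ny α) ≤ 2 * M ^ 2 * B := by
    intro α hα1 hαβ
    have hα : 0 < α := lt_of_le_of_lt (le_max_right _ _) hα1
    have hΓα := hΓ α hα1 (hαβ.trans hβ1)
    have haB := cm_mem hα (hαβ.trans hβ1)
    have cκ : ∀ s, Continuous fun t => kap ψ (circleMap 0 α s) (circleMap 0 β t) := fun s =>
      (continuous_const.mul (cont_cm E.diff.continuousOn hβ0 hβ1)).div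
        ((cont_cm E.diff.continuousOn hβ0 hβ1).sub continuous_const) fun t =>
        E.sub_ne (haB s) (cm_mem hβ0 hβ1 t) (cm_ne hα hαβ s t)
    have cI : ∀ s (v : Matrix n m ℂ), Continuous fun t => kap ψ (circleMap 0 α s) (circleMap 0 β t) •
        (kk ψ A (circleMap 0 β t) * v * (F (ψ (circleMap 0 β t))⁻¹)ᵀ) := fun s v =>
      (cκ s).smul ((ck.matrix_mul continuous_const).matrix_mul cF.matrix_transpose)
    have M2 : ∀ s (v : Matrix n m ℂ), kk ψ A (circleMap 0 α s) * tau Q v =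
        avM fun t => kap ψ (circleMap 0 α s) (circleMap 0 β t) •
          (kk ψ A (circleMap 0 β t) * v * (F (ψ (circleMap 0 β t))⁻¹)ᵀ) := by
      intro s v
      have M1 := fun c d => E.M1 hW hV hVc hα hαβ hβ1 hΓβ s (hΓα s) (hFd c d)
      simp only [fun c d => E.II_F hW hV hVc hβ0 hβ1 hΓβ (q := q c d) hχ (he c d),
        ← fun c d t => hF _ (hΓβ t) c d] at M1
      ext i c
      have l1 : (kk ψ A (circleMap 0 α s) * tau Q v) i c =
          ∑ d, ∑ b, (kk ψ A (circleMap 0 α s) * aeval A (q c d)) i b * v b d := by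
        simp only [tau, mul_apply, of_apply, Finset.mul_sum, Finset.sum_mul, hQ, mul_assoc]
        rw [Finset.sum_comm, Finset.sum_comm (s := Finset.univ (α := m))]
        refine Finset.sum_congr rfl fun b _ => ?_
        rw [Finset.sum_comm]
      rw [l1]
      simp only [← M1, avM, of_apply, ← integral_mul_const]
      have cc : ∀ d b, Continuous fun t => ((kap ψ (circleMap 0 α s) (circleMap 0 β t) *
          F (ψ (circleMap 0 β t))⁻¹ c d) • kk ψ A (circleMap 0 β t)) i b * v b d := fun d b =>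
        ((((cκ s).mul (cF.matrix_elem c d)).smul ck).matrix_elem i b).mul continuous_const
      simp only [← fun d => int_sum Finset.univ (cc d)]
      rw [← int_sum Finset.univ fun d => continuous_finset_sum _ fun b _ => cc d b]
      congr 1
      ext t
      simp only [Matrix.smul_apply, smul_eq_mul, mul_apply, transpose_apply, Finset.mul_sum,
        Finset.sum_mul]
      refine Finset.sum_congr rfl fun d _ => Finset.sum_congr rfl fun b _ => ?_
      ring
    have px := E.pair hα hαβ hβ1 (hol x x) (her x)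
      (W := fun t => (F (ψ (circleMap 0 β t))⁻¹)ᵀ * (yᴴ * kk ψ A (circleMap 0 β t) * x))
      (cF.matrix_transpose.matrix_mul cZ) hκ (fun s γ => by
        have b1 := h2 (kk ψ A (circleMap 0 α s) * (x * γ))
        rw [tau_comm (fun c d => E.kk_comm hW (haB s) (q c d)), M2, mul_avM _ (cI s _),
          tr_avM (continuous_const.matrix_mul (cI s _))] at b1
        simp only [Matrix.mul_assoc]
        rw [← b1]
        congr 1
        ext t
        rw [Matrix.mul_smul, trace_smul, smul_eq_mul, trace_mul_comm (F _)ᵀ]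
        simp only [Matrix.mul_assoc])
    have py := E.pair hα hαβ hβ1 (hol y y) (her y)
      (W := fun t => (yᴴ * kk ψ A (circleMap 0 β t) * x) * (F (ψ (circleMap 0 β t))⁻¹)ᵀ)
      (cZ.matrix_mul cF.matrix_transpose) hκ (fun s γ => by
        have b1 : (κ : ℂ) * trace (yᴴ * kk ψ A (circleMap 0 α s) * y * γ) =
            trace (γ * yᴴ * (kk ψ A (circleMap 0 α s) * tau Q x)) := by
          rw [h1, Matrix.mul_smul, Matrix.mul_smul, trace_smul, smul_eq_mul, trace_mul_comm _ γ]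
          simp only [Matrix.mul_assoc]
        rw [b1, M2, mul_avM _ (cI s _), tr_avM (continuous_const.matrix_mul (cI s _))]
        congr 1
        ext t
        rw [Matrix.mul_smul, trace_smul, smul_eq_mul, trace_mul_comm _ γ]
        simp only [Matrix.mul_assoc])
    have qx := integral_mono (intg (cont_hs (cF.matrix_transpose.matrix_mul cZ)))
      (intg (continuous_const.fun_mul (cont_hs cZ))) fun t => hs_tr_mul_le (hM _ (hΓβ t)) _
    have qy := integral_mono (intg (cont_hs (cZ.matrix_mul cF.matrix_transpose)))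
      (intg (continuous_const.fun_mul (cont_hs cZ))) fun t => hs_mul_tr_le (hM _ (hΓβ t)) _
    rw [integral_const_mul] at qx qy
    linarith
  have hlim : κ ^ 2 * (Nx β + Ny β) ≤ 2 * M ^ 2 * B := by
    refine le_of_tendsto (((NN_tendsto (hol x x) hβ0 hβ1).add
      (NN_tendsto (hol y y) hβ0 hβ1)).const_mul (κ ^ 2)) ?_
    filter_upwards [Ioo_mem_nhdsLT hβa] with α hα using hstep α hα.1 hα.2
  have hS : 0 < Nx β + Ny β := by
    have a1 := NN_ge (fun a => xᴴ * kk ψ A a * x) β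
    have a2 := (hs_nonneg _).trans (NN_ge (fun a => yᴴ * kk ψ A a * y) β)
    have a3 : 0 < hs (xᴴ * kk ψ A 0 * x) := by
      refine lt_of_le_of_ne (hs_nonneg _) fun h => hx ?_
      have := hs_eq_zero h.symm
      rw [E.kk_zero, Matrix.mul_one] at this
      exact conjTranspose_mul_self_eq_zero.1 this
    linarith
  have := mul_le_mul_of_nonneg_left hB1 (by positivity : 0 ≤ 2 * M ^ 2)
  by_contra h
  nlinarith [not_le.1 h]

theorem exists_sing (Q : m → m → Matrix n n ℂ) :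
    (∀ v, hs (tau Q v) ≤ 0) ∨ ∃ (x y : Matrix n m ℂ) (κ : ℝ), x ≠ 0 ∧ 0 < κ ∧
      tau Q x = (κ : ℂ) • y ∧ (∀ v, trace (yᴴ * tau Q v) = κ * trace (xᴴ * v)) ∧
      ∀ v, hs (tau Q v) ≤ κ ^ 2 * hs v := by
  set T := Matrix.toEuclideanCLM (n := n × m) (𝕜 := ℂ)
    (Matrix.of fun i j : n × m => Q i.2 j.2 i.1 j.1) with hT
  let ι : Matrix n m ℂ → EuclideanSpace ℂ (n × m) := fun v => WithLp.toLp 2 fun i => v i.1 i.2
  have hι : ∀ v, T (ι v) = ι (tau Q v) := by
    intro v
    ext i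
    simp [hT, ι, tau, mulVec, dotProduct, Fintype.sum_prod_type]
  have hn : ∀ v, ‖ι v‖ ^ 2 = hs v := by
    intro v
    simp [ι, EuclideanSpace.norm_sq_eq, hs, Fintype.sum_prod_type]
  have hin : ∀ v w, inner ℂ (ι v) (ι w) = trace (vᴴ * w) := by
    intro v w
    simp only [ι, PiLp.inner_apply, Fintype.sum_prod_type, trace, diag, mul_apply,
      conjTranspose_apply, RCLike.inner_apply]
    rw [Finset.sum_comm]
    refine Finset.sum_congr rfl fun i _ => Finset.sum_congr rfl fun j _ => ?_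
    rw [mul_comm]; rfl
  have hsurj : ∀ X, ∃ v, ι v = X := fun X => ⟨Matrix.of fun a c => X (a, c), rfl⟩
  have hbd : ∀ v, hs (tau Q v) ≤ ‖T‖ ^ 2 * hs v := by
    intro v
    rw [← hn, ← hn, ← hι, ← mul_pow]
    exact pow_le_pow_left₀ (norm_nonneg _) (T.le_opNorm _) 2
  by_cases h0 : T = 0
  · left
    intro v
    simpa [h0] using hbd v
  right
  have hκ : 0 < ‖T‖ := norm_pos_iff.2 h0
  have : Nontrivial (EuclideanSpace ℂ (n × m)) := by
    by_contra h
    rw [not_nontrivial_iff_subsingleton] at h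
    exact h0 (Subsingleton.elim _ _)
  obtain ⟨X, hX, hmax⟩ := (isCompact_sphere (0 : EuclideanSpace ℂ (n × m)) 1).exists_isMaxOn
    (NormedSpace.sphere_nonempty.2 zero_le_one) T.continuous.norm.continuousOn
  have hX1 : ‖X‖ = 1 := by simpa using hX
  have hTX : ‖T X‖ = ‖T‖ := by
    refine le_antisymm (by simpa [hX1] using T.le_opNorm X) ?_
    exact T.opNorm_le_of_unit_norm (norm_nonneg _) fun Y hY => hmax (by simpa using hY)
  have hadj : ContinuousLinearMap.adjoint T (T X) = ((‖T‖ ^ 2 : ℝ) : ℂ) • X := by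
    have a1 : ‖ContinuousLinearMap.adjoint T (T X)‖ ≤ ‖T‖ ^ 2 := by
      have := (ContinuousLinearMap.adjoint T).le_opNorm (T X)
      rwa [LinearIsometryEquiv.norm_map, hTX, ← sq] at this
    have a2 : inner ℂ (ContinuousLinearMap.adjoint T (T X)) X = ((‖T‖ ^ 2 : ℝ) : ℂ) := by
      rw [ContinuousLinearMap.adjoint_inner_left, inner_self_eq_norm_sq_to_K, hTX]
      simp
    have a3 := @norm_sub_sq ℂ _ _ _ _ (ContinuousLinearMap.adjoint T (T X)) (((‖T‖ ^ 2 : ℝ) : ℂ) • X)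
    rw [inner_smul_right, a2, norm_smul, hX1, ← Complex.ofReal_mul, Complex.norm_real,
      Real.norm_eq_abs, abs_of_nonneg (by positivity)] at a3
    have a4 := pow_le_pow_left₀ (norm_nonneg _) a1 2
    rw [← sub_eq_zero, ← norm_eq_zero, ← sq_eq_zero_iff]
    refine le_antisymm ?_ (sq_nonneg _)
    rw [a3]
    simp only [RCLike.re_to_complex, Complex.ofReal_re]
    nlinarith
  obtain ⟨x, rfl⟩ := hsurj X
  have hκc : (‖T‖ : ℂ) ≠ 0 := by exact_mod_cast hκ.ne'
  refine ⟨x, (‖T‖ : ℂ)⁻¹ • tau Q x, ‖T‖, ?_, hκ, ?_, fun v => ?_, hbd⟩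
  · rintro rfl
    have := hn 0
    rw [hX1] at this
    simp [hs] at this
  · rw [smul_smul, mul_inv_cancel₀ hκc, one_smul]
  · have a1 := ContinuousLinearMap.adjoint_inner_left T (ι v) (T (ι x))
    rw [hadj, inner_smul_left, hι, hι, hin, hin, Complex.conj_ofReal] at a1
    rw [conjTranspose_smul, Matrix.smul_mul, trace_smul, ← a1]
    simp only [star_inv₀, Complex.star_def, Complex.conj_ofReal, smul_eq_mul, Complex.ofReal_pow]
    field_simp

theorem core0 {A : Matrix n n ℂ} {K V : Set ℂ} (hK : IsCompact K) (hKc : Convex ℝ K) {δ₀ : ℝ}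
    (hδ₀ : 0 < δ₀) (hb : ball 0 δ₀ ⊆ K) (hW : WIn A K)
    (hV : IsOpen V) (hVc : Convex ℝ V) {δ : ℝ} (hδ : 0 < δ) (hKV : thickening δ K ⊆ V)
    {χ : ℂ[X]} (hχ : aeval A χ = 0) {F : ℂ → Matrix m m ℂ} {q : m → m → ℂ[X]}
    {e : m → m → ℂ → ℂ} (he : ∀ c d, DifferentiableOn ℂ (e c d) V)
    (hF : ∀ z ∈ V, ∀ c d, F z c d = (q c d).eval z + χ.eval z * e c d z) {M : ℝ}
    (hM : ∀ z ∈ V, ‖Matrix.toEuclideanCLM (n := m) (𝕜 := ℂ) (F z)‖ ≤ M) (v : Matrix n m ℂ) :
    hs (tau (fun c d => aeval A (q c d)) v) ≤ 4 * M ^ 2 * hs v := by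
  obtain ⟨ψ, E⟩ := exists_extMap hK hKc hδ₀ hb
  rcases exists_sing (fun c d => aeval A (q c d)) with h | ⟨x, y, κ, hx, hκ, h1, h2, h3⟩
  · exact (h v).trans (mul_nonneg (by positivity) (hs_nonneg _))
  · exact (h3 v).trans (mul_le_mul_of_nonneg_right
      (main_ineq E hW hV hVc hδ hKV hχ he hF hM hx hκ h1 h2) (hs_nonneg _))

theorem isCompact_numRange (A : Matrix n n ℂ) :
    IsCompact ((fun x : EuclideanSpace ℂ n => inner ℂ x (Matrix.toEuclideanLin A x)) '' sphere 0 1) :=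
  (isCompact_sphere 0 1).image
    (continuous_id.inner (Matrix.toEuclideanCLM (n := n) (𝕜 := ℂ) A).continuous)

theorem wIn_of_unit {A : Matrix n n ℂ} {K : Set ℂ} (hK : K.Nonempty)
    (h : ∀ x : EuclideanSpace ℂ n, ‖x‖ = 1 → inner ℂ x (Matrix.toEuclideanLin A x) ∈ K) :
    WIn A K := by
  intro ξ
  by_cases h0 : ξ = 0
  · obtain ⟨z, hz⟩ := hK
    exact ⟨z, hz, by simp [h0]⟩
  set Y : EuclideanSpace ℂ n := WithLp.toLp 2 ξ
  have hY : ‖Y‖ ≠ 0 := norm_ne_zero_iff.2 fun e => h0 (by simpa [ Y ] using e)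
  have hYc : (‖Y‖ : ℂ) ≠ 0 := by exact_mod_cast hY
  refine ⟨_, h ((‖Y‖ : ℂ)⁻¹ • Y) (by simp [norm_smul, hY]), ?_⟩
  have e1 : star ξ ⬝ᵥ ξ = (‖Y‖ : ℂ) ^ 2 := by
    have := inner_self_eq_norm_sq_to_K (𝕜 := ℂ) Y
    rw [EuclideanSpace.inner_eq_star_dotProduct, dotProduct_comm] at this
    exact this
  have e2 : star ξ ⬝ᵥ (A *ᵥ ξ) = inner ℂ Y (Matrix.toEuclideanLin A Y) := by
    rw [EuclideanSpace.inner_eq_star_dotProduct, dotProduct_comm]
    rfl
  rw [map_smul, inner_smul_left, inner_smul_right, e1, e2]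
  simp only [map_inv₀, Complex.conj_ofReal]
  field_simp

/-- The complete Crouzeix bound. -/
theorem core' (A : Matrix n n ℂ) (V : Set ℂ) (hV : IsOpen V) (hVc : Convex ℝ V)
    (hAV : ∀ x : EuclideanSpace ℂ n, ‖x‖ = 1 → inner ℂ x (Matrix.toEuclideanLin A x) ∈ V)
    (χ : ℂ[X]) (hχ : aeval A χ = 0) (F : ℂ → Matrix m m ℂ) (q : m → m → ℂ[X])
    (e : m → m → ℂ → ℂ) (he : ∀ c d, DifferentiableOn ℂ (e c d) V)
    (hF : ∀ z ∈ V, ∀ c d, F z c d = (q c d).eval z + χ.eval z * e c d z) (M : ℝ)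
    (hM : ∀ z ∈ V, ‖Matrix.toEuclideanCLM (n := m) (𝕜 := ℂ) (F z)‖ ≤ M) (v : Matrix n m ℂ) :
    hs (tau (fun c d => aeval A (q c d)) v) ≤ 4 * M ^ 2 * hs v := by
  rcases isEmpty_or_nonempty n with hn | hn
  · simp [hs]
  set W := (fun x : EuclideanSpace ℂ n => inner ℂ x (Matrix.toEuclideanLin A x)) '' sphere 0 1
  have hWk : IsCompact W := isCompact_numRange A
  have hWV : W ⊆ V := by
    rintro _ ⟨x, hx, rfl⟩
    exact hAV x (by simpa using hx)
  obtain ⟨z₀, hz₀⟩ : W.Nonempty := (NormedSpace.sphere_nonempty.2 zero_le_one).image _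
  obtain ⟨ε, hε, hth⟩ := hWk.exists_thickening_subset_open hV hWV
  obtain ⟨R, hR, hWR⟩ := hWk.isBounded.subset_ball_lt 0 z₀
  set δ := ε / 2
  have hδ : 0 < δ := half_pos hε
  set K : Set ℂ := {z | ∀ w ∈ ball (0 : ℂ) δ, z + z₀ + w ∈ V} ∩ closedBall 0 R with hK
  have hKc : Convex ℝ K := by
    refine Convex.inter ?_ (convex_closedBall _ _)
    intro a ha b hb s t hs ht hst w hw
    have := hVc (ha w hw) (hb w hw) hs ht hst
    convert this using 1
    have e : (s : ℂ) + t = 1 := by exact_mod_cast hst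
    simp only [Complex.real_smul]
    linear_combination (-z₀ - w) * e
  have hKk : IsCompact K := by
    refine (isCompact_closedBall 0 R).inter_left ?_
    refine isClosed_of_closure_subset fun z hz w hw => ?_
    have hw' := mem_ball_zero_iff.1 hw
    obtain ⟨z', hz', hd⟩ := Metric.mem_closure_iff.1 hz _ (sub_pos.2 hw')
    have := hz' (w + (z - z')) (by
      rw [mem_ball_zero_iff]
      rw [dist_eq_norm] at hd
      linarith [norm_add_le w (z - z')])
    convert this using 1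
    ring
  have hin : ∀ z ∈ W, ∀ u : ℂ, ‖u‖ < δ → ∀ w ∈ ball (0 : ℂ) δ, z + u + w ∈ V := by
    intro z hz u hu w hw
    refine hth (mem_thickening_iff.2 ⟨z, hz, ?_⟩)
    rw [dist_eq_norm, show z + u + w - z = u + w by ring]
    have := mem_ball_zero_iff.1 hw
    have := norm_add_le u w
    simp only [δ] at *
    linarith
  have hb : ball 0 (min δ R) ⊆ K := by
    intro z hz
    rw [mem_ball_zero_iff, lt_min_iff] at hz
    refine ⟨fun w hw => ?_, mem_closedBall_zero_iff.2 hz.2.le⟩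
    rw [add_comm z]
    exact hin z₀ hz₀ z hz.1 w hw
  have hWI : WIn (A - z₀ • 1) K := by
    refine wIn_of_unit ⟨0, hb (mem_ball_self (lt_min hδ hR))⟩ fun x hx => ?_
    have hxW : inner ℂ x (Matrix.toEuclideanLin A x) ∈ W := ⟨x, by simpa using hx, rfl⟩
    have e1 : inner ℂ x (Matrix.toEuclideanLin (A - z₀ • 1) x) =
        inner ℂ x (Matrix.toEuclideanLin A x) - z₀ := by
      rw [map_sub, map_smul, LinearMap.sub_apply, LinearMap.smul_apply, inner_sub_right,
        inner_smul_right]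
      have : Matrix.toEuclideanLin (1 : Matrix n n ℂ) x = x := by
        ext i; simp
      rw [this, inner_self_eq_norm_sq_to_K, hx]
      simp
    rw [e1]
    refine ⟨fun w hw => ?_, ?_⟩
    · have := hin _ hxW 0 (by simpa using hδ) w hw
      simpa using this
    · have := hWR hxW
      rw [mem_ball, dist_eq_norm] at this
      exact mem_closedBall_zero_iff.2 this.le
  have hsh : ∀ p : ℂ[X], aeval (A - z₀ • 1) (p.comp (X + C z₀)) = aeval A p := by
    intro p
    rw [aeval_comp]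
    simp [Algebra.algebraMap_eq_smul_one]
  have hV' : IsOpen ((fun z => z + z₀) ⁻¹' V) := hV.preimage (by fun_prop)
  have := core0 (A := A - z₀ • 1) (V := (fun z => z + z₀) ⁻¹' V) hKk hKc (lt_min hδ hR) hb hWI hV'
    (hVc.translate_preimage_left z₀) hδ (fun z hz => by
      obtain ⟨k, hk, hd⟩ := mem_thickening_iff.1 hz
      have := hk.1 (z - k) (by rwa [mem_ball_zero_iff, ← dist_eq_norm])
      simp only [mem_preimage]
      convert this using 1
      ring)
    (χ := χ.comp (X + C z₀)) (by rw [hsh, hχ]) (F := fun z => F (z + z₀))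
    (q := fun c d => (q c d).comp (X + C z₀)) (e := fun c d z => e c d (z + z₀))
    (fun c d => (he c d).comp (differentiableOn_id.add_const z₀) fun z hz => hz)
    (fun z hz c d => by simp [eval_comp, hF _ hz c d]) (fun z hz => hM _ hz) v
  simpa only [hsh] using this

theorem core {n m : Type} [Fintype n] [DecidableEq n] [Fintype m] [DecidableEq m]
    (A : Matrix n n ℂ) (V : Set ℂ) (hV : IsOpen V) (hVc : Convex ℝ V)
    (hAV : ∀ x : EuclideanSpace ℂ n, ‖x‖ = 1 → inner ℂ x (Matrix.toEuclideanLin A x) ∈ V)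
    (χ : Polynomial ℂ) (hχ : Polynomial.aeval A χ = 0) (F : ℂ → Matrix m m ℂ)
    (q : m → m → Polynomial ℂ) (e : m → m → ℂ → ℂ) (he : ∀ c d, DifferentiableOn ℂ (e c d) V)
    (hF : ∀ z ∈ V, ∀ c d, F z c d = (q c d).eval z + χ.eval z * e c d z) (M : ℝ)
    (hM : ∀ z ∈ V, ‖Matrix.toEuclideanCLM (n := m) (𝕜 := ℂ) (F z)‖ ≤ M) (x : Matrix n m ℂ) :
    ∑ a, ∑ c, ‖∑ b, ∑ d, Polynomial.aeval A (q c d) a b * x b d‖ ^ 2 ≤
      4 * M ^ 2 * ∑ b, ∑ d, ‖x b d‖ ^ 2 :=
  core' A V hV hVc hAV χ hχ F q e he hF M hM x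

end Crest.Agent.Lead.Cz
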