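import Mathlib
import Crest.Agent.Lead.CzMain

/-! Toeplitz–Hausdorff theorem and the complete Crouzeix bound on a Hilbert space. -/

open Set Filter Metric Topology Matrix Polynomial

set_option maxHeartbeats 400000

namespace Crest.Agent.Lead.Cz

local notation "conj" => starRingEnd ℂ

variable {H : Type*} [NormedAddCommGroup H] [InnerProductSpace ℂ H]

theorem th_aux (B : H →L[ℂ] H) {x y : H} (hx : ‖x‖ = 1) (hy : ‖y‖ = 1)
    (h0 : inner ℂ x (B x) = 0) (h1 : inner ℂ y (B y) = 1) {t : ℝ} (ht0 : 0 ≤ t) (ht1 : t ≤ 1) :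
    ∃ z : H, ‖z‖ = 1 ∧ inner ℂ z (B z) = t := by
  obtain ⟨l, hl, hlc⟩ : ∃ l : ℂ, ‖l‖ = 1 ∧
      (l * (inner ℂ y (B x) - conj (inner ℂ x (B y)))).im = 0 := by
    set c := inner ℂ y (B x) - conj (inner ℂ x (B y))
    by_cases hc : c = 0
    · exact ⟨1, by simp, by simp [hc]⟩
    · have hn : ‖c‖ ≠ 0 := norm_ne_zero_iff.2 hc
      refine ⟨conj c / (‖c‖ : ℝ), by simp [hn], ?_⟩
      rw [div_mul_eq_mul_div, Complex.conj_mul', ← Complex.ofReal_pow, ← Complex.ofReal_div,
        Complex.ofReal_im]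
  set z : ℝ → H := fun r => ((1 - r : ℝ) * l : ℂ) • x + (r : ℂ) • y with hz
  have hzc : Continuous z := by simp only [hz]; fun_prop
  have him : ∀ r, (inner ℂ (z r) (B (z r))).im = 0 := by
    intro r
    simp only [hz, map_add, map_smul, inner_add_left, inner_add_right, inner_smul_left,
      inner_smul_right, h0, h1, map_mul, Complex.conj_ofReal]
    simp only [Complex.mul_im, Complex.sub_re, Complex.sub_im, Complex.conj_re,
      Complex.conj_im] at hlc
    simp only [Complex.add_im, Complex.mul_im, Complex.mul_re, Complex.add_re, Complex.ofReal_re,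
      Complex.ofReal_im, Complex.conj_re, Complex.conj_im, Complex.one_re, Complex.one_im,
      Complex.zero_re, Complex.zero_im]
    linear_combination (1 - r) * r * hlc
  have hφ : Continuous fun r => (inner ℂ (z r) (B (z r))).re - t * ‖z r‖ ^ 2 := by fun_prop
  have z0 : z 0 = l • x := by simp [hz]
  have z1 : z 1 = y := by simp [hz]
  obtain ⟨r, -, hr⟩ := intermediate_value_Icc zero_le_one hφ.continuousOn (a := 0) (b := 1)
    (show (0 : ℝ) ∈ Icc _ _ by
      simp only [z0, z1, map_smul, inner_smul_left, inner_smul_right, h0, h1, norm_smul, hl, hx, hy]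
      constructor <;> simp [ht0, ht1])
  have hne : z r ≠ 0 := by
    intro e
    have e1 : (r : ℂ) • y = -(((1 - r : ℝ) * l : ℂ) • x) := eq_neg_of_add_eq_zero_right e
    have e2 := congrArg (fun w => inner ℂ w (B w)) e1
    simp only [map_neg, map_smul, inner_neg_left, inner_neg_right, inner_smul_left,
      inner_smul_right, h0, h1, mul_zero, neg_zero, mul_one, Complex.conj_ofReal,
      mul_self_eq_zero, Complex.ofReal_eq_zero] at e2
    rw [e2, z0] at e
    have := congrArg norm e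
    simp [norm_smul, hl, hx] at this
  have hn : ‖z r‖ ≠ 0 := norm_ne_zero_iff.2 hne
  have hnc : (‖z r‖ : ℂ) ≠ 0 := by exact_mod_cast hn
  refine ⟨(‖z r‖ : ℂ)⁻¹ • z r, by simp [norm_smul, hn], ?_⟩
  have e : inner ℂ (z r) (B (z r)) = ((t * ‖z r‖ ^ 2 : ℝ) : ℂ) :=
    Complex.ext (by rw [Complex.ofReal_re]; exact sub_eq_zero.1 hr) (by rw [him, Complex.ofReal_im])
  rw [map_smul, inner_smul_left, inner_smul_right, e]
  simp only [map_inv₀, Complex.conj_ofReal, Complex.ofReal_mul, Complex.ofReal_pow]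
  field_simp

/-- Toeplitz–Hausdorff -/
theorem convex_numRange (A : H →L[ℂ] H) :
    Convex ℝ {w : ℂ | ∃ x : H, ‖x‖ = 1 ∧ w = inner ℂ x (A x)} := by
  rintro _ ⟨x, hx, rfl⟩ _ ⟨y, hy, rfl⟩ s t hs ht hst
  set a := inner ℂ x (A x) with ha
  set b := inner ℂ y (A y) with hb
  have e : (s : ℂ) + t = 1 := by exact_mod_cast hst
  by_cases hab : b = a
  · refine ⟨x, hx, ?_⟩
    rw [hab, ← add_smul, hst, one_smul]
  have hba : b - a ≠ 0 := sub_ne_zero.2 hab
  have key : ∀ z : H, ‖z‖ = 1 → inner ℂ z (((b - a)⁻¹ • (A - a • 1) : H →L[ℂ] H) z) =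
      (b - a)⁻¹ * (inner ℂ z (A z) - a) := by
    intro z hz
    simp [inner_smul_right, inner_sub_right, hz]
  obtain ⟨z, hz, h⟩ := th_aux ((b - a)⁻¹ • (A - a • 1)) hx hy (by rw [key x hx, ← ha]; simp)
    (by rw [key y hy, ← hb, inv_mul_cancel₀ hba]) ht (by linarith)
  refine ⟨z, hz, ?_⟩
  rw [key z hz, inv_mul_eq_iff_eq_mul₀ hba] at h
  simp only [Complex.real_smul]
  linear_combination -h + a * e

theorem crouzeix_hilbert (A : H →L[ℂ] H) (m d : ℕ) (B : Fin (d + 1) → Matrix (Fin m) (Fin m) ℂ)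
    (M : ℝ)
    (hM : ∀ x : H, ‖x‖ = 1 →
      ‖Matrix.toEuclideanCLM (n := Fin m) (𝕜 := ℂ)
          (∑ k : Fin (d + 1), (inner ℂ x (A x)) ^ (k : ℕ) • B k)‖ ≤ M)
    (v : PiLp 2 (fun _ : Fin m => H)) :
    ‖(WithLp.toLp 2 (fun i : Fin m => ∑ j : Fin m, ∑ k : Fin (d + 1), B k i j • (A ^ (k : ℕ)) (v j))
        : PiLp 2 (fun _ : Fin m => H))‖ ≤ 2 * M * ‖v‖ := by
  by_cases hv : v = 0
  · simp [hv]
    rfl
  have hvpos : 0 < ‖v‖ := norm_pos_iff.2 hv
  have hM0 : 0 ≤ M := by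
    obtain ⟨j, hj⟩ : ∃ j, v j ≠ 0 := by
      by_contra h
      push Not at h
      exact hv (PiLp.ext h)
    have hn : ‖v j‖ ≠ 0 := norm_ne_zero_iff.2 hj
    exact (norm_nonneg _).trans (hM ((‖v j‖ : ℂ)⁻¹ • v j) (by simp [norm_smul, hn]))
  set W := {w : ℂ | ∃ x : H, ‖x‖ = 1 ∧ w = inner ℂ x (A x)} with hW
  set P : ℂ → Matrix (Fin m) (Fin m) ℂ := fun z => ∑ k : Fin (d + 1), z ^ (k : ℕ) • B k with hP
  set E : Submodule ℂ H := Submodule.span ℂ
    (Set.range fun p : Fin (d + 1) × Fin m => (A ^ (p.1 : ℕ)) (v p.2)) with hE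
  have : FiniteDimensional ℂ E := FiniteDimensional.span_of_finite ℂ (Set.finite_range _)
  have hmem : ∀ k ≤ d, ∀ j, (A ^ k) (v j) ∈ E := fun k hk j =>
    Submodule.subset_span ⟨(⟨k, Nat.lt_succ_of_le hk⟩, j), rfl⟩
  set b := stdOrthonormalBasis ℂ E
  set A' : Matrix (Fin (Module.finrank ℂ E)) (Fin (Module.finrank ℂ E)) ℂ :=
    Matrix.of fun a c => inner ℂ (b a : H) (A (b c)) with hA'
  set co : H → Fin (Module.finrank ℂ E) → ℂ := fun w a => inner ℂ (b a : H) w with hco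
  have hexp : ∀ w ∈ E, w = ∑ a, co w a • (b a : H) := by
    intro w hw
    have := congrArg Subtype.val (b.sum_repr' ⟨w, hw⟩)
    simpa [hco, Submodule.coe_inner] using this.symm
  have hnorm : ∀ w ∈ E, ‖w‖ ^ 2 = ∑ a, ‖co w a‖ ^ 2 := by
    intro w hw
    exact (b.sum_sq_norm_inner_right ⟨w, hw⟩).symm
  have hstep : ∀ w ∈ E, co (A w) = A' *ᵥ co w := by
    intro w hw
    ext a
    conv_lhs => rw [hexp w hw]
    simp only [hco, map_sum, map_smul, inner_sum, inner_smul_right, mulVec, dotProduct, hA',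
      of_apply]
    exact Finset.sum_congr rfl fun c _ => mul_comm _ _
  have hpow : ∀ k ≤ d, ∀ j, co ((A ^ k) (v j)) = (A' ^ k) *ᵥ co (v j) := by
    intro k hk j
    induction k with
    | zero => simp
    | succ k ih =>
      rw [pow_succ', ContinuousLinearMap.mul_apply, hstep _ (hmem k (by omega) j), ih (by omega),
        mulVec_mulVec, ← pow_succ']
  have hW' : ∀ ξ : EuclideanSpace ℂ (Fin (Module.finrank ℂ E)), ‖ξ‖ = 1 →
      inner ℂ ξ (Matrix.toEuclideanLin A' ξ) ∈ W := by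
    intro ξ hξ
    set w : E := b.repr.symm ξ
    have hcw : co w = ξ.ofLp := by
      ext a
      have : b.repr w a = ξ a := by simp [w]
      rw [← this, b.repr_apply_apply]
      rfl
    refine ⟨w, (b.repr.symm.norm_map ξ).trans hξ, ?_⟩
    conv_rhs => enter [2]; rw [hexp w w.2]
    rw [sum_inner, EuclideanSpace.inner_eq_star_dotProduct]
    change (A' *ᵥ ξ.ofLp) ⬝ᵥ star ξ.ofLp = _
    rw [← hcw, ← hstep w w.2]
    simp only [dotProduct, inner_smul_left, Pi.star_apply, Complex.star_def]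
    exact Finset.sum_congr rfl fun c _ => mul_comm _ _
  have hPc : Continuous fun z => ‖Matrix.toEuclideanCLM (n := Fin m) (𝕜 := ℂ) (P z)‖ := by
    simp only [hP, map_sum, map_smul]
    fun_prop
  refine le_of_forall_pos_le_add fun ε hε => ?_
  set ε' := ε / (2 * ‖v‖)
  have hε' : 0 < ε' := by positivity
  obtain ⟨δ, hδ, hu⟩ := Metric.uniformContinuousOn_iff.1
    ((isCompact_closedBall (0 : ℂ) (‖A‖ + 1)).uniformContinuousOn_of_continuous hPc.continuousOn)
    ε' hε'
  have hbd : ∀ z ∈ thickening (min δ 1) W,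
      ‖Matrix.toEuclideanCLM (n := Fin m) (𝕜 := ℂ) (P z)‖ ≤ M + ε' := by
    intro z hz
    obtain ⟨_, ⟨x, hx, rfl⟩, hd⟩ := mem_thickening_iff.1 hz
    rw [lt_min_iff] at hd
    have a1 : ‖inner ℂ x (A x)‖ ≤ ‖A‖ := by
      have b1 := norm_inner_le_norm (𝕜 := ℂ) x (A x)
      have b2 := A.le_opNorm x
      rw [hx] at b1 b2
      linarith
    have a2 : ‖z‖ ≤ ‖A‖ + 1 := by
      have := norm_sub_norm_le z (inner ℂ x (A x))
      rw [← dist_eq_norm] at this
      linarith [hd.2]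
    have a3 := hu z (mem_closedBall_zero_iff.2 a2) _ (mem_closedBall_zero_iff.2 (by linarith)) hd.1
    have a4 := hM x hx
    rw [Real.dist_eq] at a3
    linarith [(abs_lt.1 a3).2]
  have main := core A' _ isOpen_thickening ((convex_numRange A).thickening (min δ 1))
    (fun ξ hξ => self_subset_thickening (lt_min hδ one_pos) _ (hW' ξ hξ)) 0 (map_zero _) P
    (fun i j => ∑ k : Fin (d + 1), C (B k i j) * X ^ (k : ℕ)) (fun _ _ _ => 0)
    (fun _ _ => differentiableOn_const _)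
    (fun z _ i j => by
      simp only [hP, Matrix.sum_apply, eval_finset_sum, Matrix.smul_apply, smul_eq_mul, eval_mul,
        eval_C, eval_pow, eval_X, mul_zero, add_zero]
      exact Finset.sum_congr rfl fun k _ => mul_comm _ _) (M + ε') hbd
    (Matrix.of fun a j => co (v j) a)
  have e1 : ‖v‖ ^ 2 = ∑ a, ∑ j, ‖(Matrix.of fun a j => co (v j) a) a j‖ ^ 2 := by
    rw [PiLp.norm_sq_eq_of_L2, Finset.sum_comm]
    exact Finset.sum_congr rfl fun j _ => hnorm _ (by simpa using hmem 0 (Nat.zero_le _) j)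
  rw [← e1] at main
  refine le_of_pow_le_pow_left₀ two_ne_zero (by positivity) ?_
  have e2 : 2 * M * ‖v‖ + ε = 2 * (M + ε') * ‖v‖ := by
    simp only [ε']
    field_simp
  rw [e2, mul_pow, mul_pow, show (2 : ℝ) ^ 2 = 4 by norm_num]
  refine le_of_eq_of_le ?_ main
  rw [PiLp.norm_sq_eq_of_L2, Finset.sum_comm]
  refine Finset.sum_congr rfl fun i _ => ?_
  have hout : ∑ j : Fin m, ∑ k : Fin (d + 1), B k i j • (A ^ (k : ℕ)) (v j) ∈ E :=
    E.sum_mem fun j _ => E.sum_mem fun k _ => E.smul_mem _ (hmem k (Nat.lt_succ_iff.1 k.2) j)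
  refine (hnorm _ hout).trans ?_
  refine Finset.sum_congr rfl fun a _ => ?_
  refine congrArg (fun w : ℂ => ‖w‖ ^ 2) ?_
  have e3 : ∀ (k : Fin (d + 1)) j, inner ℂ (b a : H) ((A ^ (k : ℕ)) (v j)) =
      ((A' ^ (k : ℕ)) *ᵥ co (v j)) a := fun k j => congrFun (hpow k (Nat.lt_succ_iff.1 k.2) j) a
  conv_rhs => rw [Finset.sum_comm]
  simp only [hco, inner_sum, inner_smul_right, e3]
  refine Finset.sum_congr rfl fun j _ => ?_
  simp only [map_sum, map_mul, map_pow, aeval_C, aeval_X, Algebra.algebraMap_eq_smul_one,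
    Matrix.smul_mul, Matrix.one_mul, Matrix.sum_apply, Matrix.smul_apply, smul_eq_mul, of_apply,
    mulVec, dotProduct, Finset.sum_mul, Finset.mul_sum, mul_assoc]
  rw [Finset.sum_comm]

end Crest.Agent.Lead.Cz
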