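import Crest.Prelude.Def_EditDistance

set_option autoImplicit false

namespace Crest.Agent.Lead.Edit
open Crest.GeometryTopology.EditDistance

variable {α β : Type*}

/-- one edit step (possibly trivial) -/
def Step (x y : List α) : Prop :=
  ∃ (l r : List α) (a : α), (x = l ++ r ∧ y = l ++ a :: r) ∨ (y = l ++ r ∧ x = l ++ a :: r) ∨
    ∃ b, x = l ++ a :: r ∧ y = l ++ b :: r

lemma step_of_adj {x y : List α} (h : (editGraph α).Adj x y) : Step x y := by
  unfold editGraph at h
  rw [SimpleGraph.fromRel_adj] at h
  obtain ⟨-, h | h⟩ := h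
  · rcases h with ⟨l, r, a, h1, h2⟩ | ⟨l, r, a, b, -, h1, h2⟩
    · exact ⟨l, r, a, Or.inl ⟨h1, h2⟩⟩
    · exact ⟨l, r, a, Or.inr (Or.inr ⟨b, h1, h2⟩)⟩
  · rcases h with ⟨l, r, a, h1, h2⟩ | ⟨l, r, a, b, -, h1, h2⟩
    · exact ⟨l, r, a, Or.inr (Or.inl ⟨h1, h2⟩)⟩
    · exact ⟨l, r, b, Or.inr (Or.inr ⟨a, h2, h1⟩)⟩

lemma adj_ins (l r : List α) (a : α) : (editGraph α).Adj (l ++ r) (l ++ a :: r) := by
  unfold editGraph
  rw [SimpleGraph.fromRel_adj]
  refine ⟨?_, Or.inl (Or.inl ⟨l, r, a, rfl, rfl⟩)⟩
  intro h
  have := congrArg List.length h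
  simp at this

lemma reach_nil (u : List α) : (editGraph α).Reachable [] u := by
  induction u with
  | nil => rfl
  | cons a u ih => exact ih.trans (adj_ins [] u a).reachable

lemma conn : (editGraph α).Connected :=
  { preconnected := fun u v => (reach_nil u).symm.trans (reach_nil v) }

lemma ed_comm (u v : List α) : editDist u v = editDist v u := SimpleGraph.dist_comm

@[simp] lemma ed_self (u : List α) : editDist u u = 0 := SimpleGraph.dist_self

lemma ed_triangle (u v w : List α) : editDist u w ≤ editDist u v + editDist v w :=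
  conn.dist_triangle

lemma ed_adj {x y : List α} (h : (editGraph α).Adj x y) : editDist x y ≤ 1 := by
  have := SimpleGraph.dist_le h.toWalk
  simpa [editDist] using this

lemma ed_ins (l r : List α) (a : α) : editDist (l ++ r) (l ++ a :: r) ≤ 1 := ed_adj (adj_ins l r a)

lemma ed_sub (l r : List α) (a b : α) : editDist (l ++ a :: r) (l ++ b :: r) ≤ 1 := by
  by_cases h : a = b
  · subst h; simp
  · apply ed_adj
    unfold editGraph
    rw [SimpleGraph.fromRel_adj]
    refine ⟨?_, Or.inl (Or.inr ⟨l, r, a, b, h, rfl, rfl⟩)⟩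
    intro h'
    simp at h'
    exact h h'

lemma ed_step {x y : List α} (h : Step x y) : editDist x y ≤ 1 := by
  obtain ⟨l, r, a, ⟨rfl, rfl⟩ | ⟨rfl, rfl⟩ | ⟨b, rfl, rfl⟩⟩ := h
  · exact ed_ins l r a
  · rw [ed_comm]; exact ed_ins l r a
  · exact ed_sub l r a b

lemma ed_induction (P : List α → List α → ℕ → Prop) (h0 : ∀ x, P x x 0)
    (hs : ∀ x y z n, Step x y → P y z n → P x z (n + 1)) (u v : List α) :
    P u v (editDist u v) := by
  obtain ⟨p, hp⟩ := (conn (α := α)).exists_walk_length_eq_dist u v
  unfold editDist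
  rw [← hp]
  clear hp
  induction p with
  | nil => exact h0 _
  | cons h p ih => exact hs _ _ _ _ (step_of_adj h) ih

/-- Lipschitz principle -/
lemma lip (d : List α → List α → ℕ) (K : ℕ) (h0 : ∀ x, d x x = 0) (hs : ∀ x y, d x y = d y x)
    (ht : ∀ x y z, d x z ≤ d x y + d y z) (hi : ∀ l r a, d (l ++ r) (l ++ a :: r) ≤ K)
    (hsub : ∀ l r a b, d (l ++ a :: r) (l ++ b :: r) ≤ K) (u v : List α) :
    d u v ≤ K * editDist u v := by
  refine ed_induction (fun x y n => d x y ≤ K * n) (fun x => by simp [h0]) ?_ u v
  intro x y z n hxy hyz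
  have : d x y ≤ K := by
    obtain ⟨l, r, a, ⟨rfl, rfl⟩ | ⟨rfl, rfl⟩ | ⟨b, rfl, rfl⟩⟩ := hxy
    · exact hi l r a
    · rw [hs]; exact hi l r a
    · exact hsub l r a b
  have := ht x y z
  rw [Nat.mul_succ]
  omega

lemma lip_map (φ : List α → List β) (K : ℕ)
    (hi : ∀ l r a, editDist (φ (l ++ r)) (φ (l ++ a :: r)) ≤ K)
    (hsub : ∀ l r a b, editDist (φ (l ++ a :: r)) (φ (l ++ b :: r)) ≤ K) (u v : List α) :
    editDist (φ u) (φ v) ≤ K * editDist u v :=
  lip (fun x y => editDist (φ x) (φ y)) K (fun _ => ed_self _) (fun _ _ => ed_comm _ _)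
    (fun _ _ _ => ed_triangle _ _ _) hi hsub u v

lemma length_le (u v : List α) : u.length ≤ v.length + editDist u v := by
  refine ed_induction (fun x y n => x.length ≤ y.length + n) (fun x => by simp) ?_ u v
  intro x y z n hxy hyz
  obtain ⟨l, r, a, ⟨rfl, rfl⟩ | ⟨rfl, rfl⟩ | ⟨b, rfl, rfl⟩⟩ := hxy <;> simp at * <;> omega

lemma length_le' (u v : List α) : v.length ≤ u.length + editDist u v := by
  rw [ed_comm]; exact length_le v u

lemma ed_append_left (c u v : List α) : editDist (c ++ u) (c ++ v) ≤ editDist u v := by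
  have := lip_map (fun x => c ++ x) 1 (fun l r a => by
    simpa using ed_ins (c ++ l) r a) (fun l r a b => by simpa using ed_sub (c ++ l) r a b) u v
  simpa using this

lemma ed_append_right (c u v : List α) : editDist (u ++ c) (v ++ c) ≤ editDist u v := by
  have := lip_map (fun x => x ++ c) 1 (fun l r a => by
    simpa using ed_ins l (r ++ c) a) (fun l r a b => by simpa using ed_sub l (r ++ c) a b) u v
  simpa using this

lemma ed_append (a b c d : List α) : editDist (a ++ b) (c ++ d) ≤ editDist a c + editDist b d := by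
  have h1 := ed_triangle (a ++ b) (c ++ b) (c ++ d)
  have h2 := ed_append_right b a c
  have h3 := ed_append_left c b d
  omega

lemma ed_nil (u : List α) : editDist [] u ≤ u.length := by
  induction u with
  | nil => simp
  | cons a u ih =>
    have h1 := ed_triangle [] u (a :: u)
    have h2 := ed_ins [] u a
    simp at h2 ⊢
    omega

lemma ed_le_add (u v : List α) : editDist u v ≤ u.length + v.length := by
  have h1 := ed_triangle u [] v
  have h2 := ed_nil u
  have h3 := ed_nil v
  rw [ed_comm u []] at h1
  omega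

lemma ed_mid (l r a b : List α) : editDist (l ++ a ++ r) (l ++ b ++ r) ≤ editDist a b :=
  (ed_append_right r _ _).trans (ed_append_left l _ _)

lemma ed_flatMap {ι : Type*} (L : List ι) (f g : ι → List α) :
    editDist (L.flatMap f) (L.flatMap g) ≤ (L.map fun i => editDist (f i) (g i)).sum := by
  induction L with
  | nil => simp
  | cons i L ih =>
    simp only [List.flatMap_cons, List.map_cons, List.sum_cons]
    exact (ed_append _ _ _ _).trans (by omega)

lemma ed_filterMap (f : α → Option β) (u v : List α) :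
    editDist (u.filterMap f) (v.filterMap f) ≤ editDist u v := by
  have := lip_map (fun x => x.filterMap f) 1 (fun l r a => by
    simp only [List.filterMap_append, List.filterMap_cons]
    cases f a with
    | none => simp
    | some c => exact ed_ins _ _ _) (fun l r a b => by
    simp only [List.filterMap_append, List.filterMap_cons]
    cases f a with
    | none =>
      cases f b with
      | none => simp
      | some c => exact ed_ins _ _ _
    | some c =>
      cases f b with
      | none => rw [ed_comm]; exact ed_ins _ _ _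
      | some c' => exact ed_sub _ _ _ _) u v
  simpa using this

lemma ed_map (f : α → β) (u v : List α) : editDist (u.map f) (v.map f) ≤ editDist u v := by
  have := ed_filterMap (fun a => some (f a)) u v
  simpa [List.filterMap_eq_map] using this

/-- token substitution: each symbol is replaced with a word of length at most `L` -/
lemma ed_tokens (f : α → List β) (L : ℕ) (hL : ∀ a, (f a).length ≤ L) (u v : List α) :
    editDist (u.flatMap f) (v.flatMap f) ≤ 2 * L * editDist u v := by
  refine lip_map (fun x => x.flatMap f) (2 * L) (fun l r a => ?_) (fun l r a b => ?_) u v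
  · simp only [List.flatMap_append, List.flatMap_cons]
    have := ed_mid (l.flatMap f) (r.flatMap f) [] (f a)
    have h2 := ed_nil (f a)
    have h3 := hL a
    simp only [List.append_nil, List.append_assoc] at this
    omega
  · simp only [List.flatMap_append, List.flatMap_cons]
    have := ed_mid (l.flatMap f) (r.flatMap f) (f a) (f b)
    have h2 := ed_le_add (f a) (f b)
    have h3 := hL a
    have h4 := hL b
    simp only [List.append_assoc] at this
    omega

/-- the classes of a partition of the alphabet -/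
lemma ed_classes {k : ℕ} (c : α → Fin k) (u v : List α) :
    ∑ i : Fin k, editDist (u.filter fun a => c a = i) (v.filter fun a => c a = i) ≤
      2 * editDist u v := by
  refine lip (fun x y => ∑ i : Fin k, editDist (x.filter fun a => c a = i)
    (y.filter fun a => c a = i)) 2 (fun x => by simp) (fun x y => ?_) (fun x y z => ?_)
    (fun l r a => ?_) (fun l r a b => ?_) u v
  · exact Finset.sum_congr rfl fun i _ => ed_comm _ _
  · rw [← Finset.sum_add_distrib]
    exact Finset.sum_le_sum fun i _ => ed_triangle _ _ _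
  · calc _ ≤ ∑ i : Fin k, if c a = i then 1 else 0 := by
          refine Finset.sum_le_sum fun i _ => ?_
          simp only [List.filter_append, List.filter_cons]
          by_cases h : c a = i
          · simp only [h, decide_true, if_true]; exact ed_ins _ _ _
          · simp [h]
      _ ≤ 2 := by simp
  · calc _ ≤ ∑ i : Fin k, ((if c a = i then 1 else 0) + (if c b = i then 1 else 0)) := by
          refine Finset.sum_le_sum fun i _ => ?_
          simp only [List.filter_append, List.filter_cons]
          by_cases h : c a = i <;> by_cases h' : c b = i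
          · simp only [h, h', decide_true, if_true]; exact (ed_sub _ _ _ _).trans (by omega)
          · simp only [h, h', decide_true, decide_false, if_true]
            rw [ed_comm]
            exact (ed_ins _ _ _).trans (by omega)
          · simp only [h, h', decide_true, decide_false, if_true]
            exact (ed_ins _ _ _).trans (by omega)
          · simp [h, h']
      _ ≤ 2 := by simp [Finset.sum_add_distrib]

lemma step_split {x y : List α} (h : Step x y) (x1 x2 : List α) (hx : x = x1 ++ x2) :
    ∃ y1 y2, y = y1 ++ y2 ∧ editDist x1 y1 + editDist x2 y2 ≤ 1 := by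
  obtain ⟨l, r, a, ⟨h1, rfl⟩ | ⟨rfl, h1⟩ | ⟨b, h1, rfl⟩⟩ := h
  · rw [h1, List.append_eq_append_iff] at hx
    rcases hx with ⟨c, rfl, rfl⟩ | ⟨c, rfl, rfl⟩
    · exact ⟨l ++ a :: c, x2, by simp, by simpa using ed_ins l c a⟩
    · exact ⟨x1, c ++ a :: r, by simp, by simpa using ed_ins c r a⟩
  · rw [h1, List.append_eq_append_iff] at hx
    rcases hx with ⟨c, rfl, h2⟩ | ⟨c, rfl, rfl⟩
    · rcases c with _ | ⟨a', c⟩
      · simp at h2
        subst h2
        exact ⟨l, r, rfl, by simpa [ed_comm (a :: r)] using ed_ins [] r a⟩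
      · simp at h2
        obtain ⟨rfl, rfl⟩ := h2
        exact ⟨l ++ c, x2, by simp, by simpa [ed_comm (l ++ a :: c)] using ed_ins l c a⟩
    · exact ⟨x1, c ++ r, by simp, by simpa [ed_comm (c ++ a :: r)] using ed_ins c r a⟩
  · rw [h1, List.append_eq_append_iff] at hx
    rcases hx with ⟨c, rfl, h2⟩ | ⟨c, rfl, rfl⟩
    · rcases c with _ | ⟨a', c⟩
      · simp at h2
        subst h2
        exact ⟨l, b :: r, rfl, by simpa using ed_sub [] r a b⟩
      · simp at h2
        obtain ⟨rfl, rfl⟩ := h2
        exact ⟨l ++ b :: c, x2, by simp, by simpa using ed_sub l c a b⟩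
    · exact ⟨x1, c ++ b :: r, by simp, by simpa using ed_sub c r a b⟩

lemma ed_split (x1 x2 y : List α) :
    ∃ y1 y2, y = y1 ++ y2 ∧ editDist x1 y1 + editDist x2 y2 ≤ editDist (x1 ++ x2) y := by
  have := ed_induction (fun x y n => ∀ x1 x2, x = x1 ++ x2 →
    ∃ y1 y2, y = y1 ++ y2 ∧ editDist x1 y1 + editDist x2 y2 ≤ n)
    (fun x x1 x2 h => ⟨x1, x2, h, by simp⟩) ?_ (x1 ++ x2) y
  · exact this x1 x2 rfl
  intro x y z n hxy hyz x1 x2 hx
  obtain ⟨y1, y2, hy, h1⟩ := step_split hxy x1 x2 hx
  obtain ⟨z1, z2, hz, h2⟩ := hyz y1 y2 hy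
  refine ⟨z1, z2, hz, ?_⟩
  have := ed_triangle x1 y1 z1
  have := ed_triangle x2 y2 z2
  omega

/-- rows lower bound -/
lemma ed_rows (φ : ℝ) (Rs : List (List α)) (Y : List α)
    (h : ∀ R ∈ Rs, ∀ Z, Z <:+: Y → φ ≤ editDist R Z) :
    Rs.length * φ ≤ editDist Rs.flatten Y := by
  induction Rs generalizing Y with
  | nil => simp
  | cons R Rs ih =>
    obtain ⟨y1, y2, rfl, hy⟩ := ed_split R Rs.flatten Y
    have h1 := h R (by simp) y1 (List.prefix_append y1 y2).isInfix
    have h2 := ih y2 fun R' hR' Z hZ => h R' (by simp [hR']) Z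
      (hZ.trans (List.suffix_append y1 y2).isInfix)
    have hy' : (editDist R y1 : ℝ) + editDist Rs.flatten y2 ≤ editDist (R ++ Rs.flatten) (y1 ++ y2) := by
      exact_mod_cast hy
    simp only [List.length_cons, List.flatten_cons]
    push_cast
    linarith

end Crest.Agent.Lead.Edit
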