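import Crest.Agent.Lead.EditBasic

set_option autoImplicit false

namespace Crest.Agent.Lead.Edit
open Crest.GeometryTopology.EditDistance

variable {α : Type*}

/-- sliding windows -/
def win (L : ℕ) : List α → List (List α)
  | [] => []
  | c :: t => (c :: t).take L :: win L t

lemma win_append (L : ℕ) (l r : List α) : ∃ B, B.length = l.length ∧ win L (l ++ r) = B ++ win L r := by
  induction l with
  | nil => exact ⟨[], rfl, rfl⟩
  | cons c l ih =>
    obtain ⟨B, h1, h2⟩ := ih
    exact ⟨(c :: (l ++ r)).take L :: B, by simp [h1], by simp [win, h2]⟩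

lemma win_append' (L : ℕ) (l : List α) :
    ∃ A, ∀ r, ∃ B, B.length ≤ L ∧ win L (l ++ r) = A ++ B ++ win L r := by
  induction l with
  | nil => exact ⟨[], fun r => ⟨[], by simp, rfl⟩⟩
  | cons c l ih =>
    by_cases h : L ≤ (c :: l).length
    · obtain ⟨A, hA⟩ := ih
      refine ⟨(c :: l).take L :: A, fun r => ?_⟩
      obtain ⟨B, h1, h2⟩ := hA r
      refine ⟨B, h1, ?_⟩
      have : (c :: (l ++ r)).take L = (c :: l).take L := by
        rw [← List.cons_append, List.take_append_of_le_length h]
      simp [win, h2, this]
    · refine ⟨[], fun r => ?_⟩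
      obtain ⟨B, h1, h2⟩ := win_append L (c :: l) r
      exact ⟨B, by omega, by simpa using h2⟩

lemma ed_win (L : ℕ) (u v : List α) : editDist (win L u) (win L v) ≤ (2 * L + 2) * editDist u v := by
  refine lip_map (win L) _ (fun l r a => ?_) (fun l r a b => ?_) u v
  · obtain ⟨A, hA⟩ := win_append' L l
    obtain ⟨B, h1, h2⟩ := hA r
    obtain ⟨B', h3, h4⟩ := hA (a :: r)
    rw [h2, h4]
    have := ed_mid A (win L r) B (B' ++ [(a :: r).take L])
    have h5 := ed_le_add B (B' ++ [(a :: r).take L])
    simp only [List.length_append, List.length_singleton] at h5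
    simp only [win, List.append_assoc, List.singleton_append] at this ⊢
    omega
  · obtain ⟨A, hA⟩ := win_append' L l
    obtain ⟨B, h1, h2⟩ := hA (a :: r)
    obtain ⟨B', h3, h4⟩ := hA (b :: r)
    rw [h2, h4]
    have := ed_mid A (win L r) (B ++ [(a :: r).take L]) (B' ++ [(b :: r).take L])
    have h5 := ed_le_add (B ++ [(a :: r).take L]) (B' ++ [(b :: r).take L])
    simp only [List.length_append, List.length_singleton] at h5
    simp only [win, List.append_assoc, List.singleton_append] at this ⊢
    omega

def pad (l : List Bool) : List Bool := l.flatMap fun b => [b, false]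

lemma pad_inj : ∀ {l l' : List Bool}, pad l = pad l' → l = l'
  | [], [], _ => rfl
  | [], _ :: _, h => by simp [pad] at h
  | _ :: _, [], h => by simp [pad] at h
  | a :: l, b :: l', h => by
    simp only [pad, List.flatMap_cons, List.cons_append, List.nil_append, List.cons.injEq,
      true_and] at h
    rw [h.1, pad_inj (l := l) (l' := l') h.2]

lemma pad_length (l : List Bool) : (pad l).length = 2 * l.length := by
  induction l with
  | nil => rfl
  | cons a l ih => simp [pad] at ih ⊢; omega

def enc (b a : ℕ) : List Bool := true :: true :: false :: pad ((List.range b).map a.testBit)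

lemma enc_length (b a : ℕ) : (enc b a).length = 2 * b + 3 := by
  simp [enc, pad_length]

lemma enc_inj {b a a' : ℕ} (ha : a < 2 ^ b) (ha' : a' < 2 ^ b) (h : enc b a = enc b a') :
    a = a' := by
  simp only [enc, List.cons.injEq, true_and] at h
  have h2 := pad_inj h
  rw [List.map_inj_left] at h2
  apply Nat.eq_of_testBit_eq
  intro i
  by_cases hi : i < b
  · exact h2 i (by simpa using hi)
  · have : 2 ^ b ≤ 2 ^ i := Nat.pow_le_pow_right (by norm_num) (by omega)
    rw [Nat.testBit_lt_two_pow (by omega), Nat.testBit_lt_two_pow (by omega)]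

open Classical in
noncomputable def decw (b : ℕ) (w : List Bool) : Option ℕ :=
  if h : ∃ a, a < 2 ^ b ∧ w = enc b a then some h.choose else none

lemma decw_enc {b a : ℕ} (ha : a < 2 ^ b) : decw b (enc b a) = some a := by
  have h : ∃ a', a' < 2 ^ b ∧ enc b a = enc b a' := ⟨a, ha, rfl⟩
  unfold decw
  rw [dif_pos h]
  congr 1
  exact (enc_inj ha h.choose_spec.1 h.choose_spec.2).symm

lemma decw_false (b : ℕ) (t : List Bool) : decw b ((false :: t).take (2 * b + 3)) = none := by
  unfold decw
  rw [dif_neg]
  rintro ⟨a, -, h⟩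
  simp [enc] at h

lemma decw_false' (b : ℕ) (c : Bool) (t : List Bool) :
    decw b ((c :: false :: t).take (2 * b + 3)) = none := by
  unfold decw
  rw [dif_neg]
  rintro ⟨a, -, h⟩
  simp [enc] at h

noncomputable def dec (b : ℕ) (y : List Bool) : List ℕ := (win (2 * b + 3) y).filterMap (decw b)

lemma dec_pad (b : ℕ) (l r : List Bool) : dec b (pad l ++ r) = dec b r := by
  induction l with
  | nil => rfl
  | cons c l ih =>
    have : pad (c :: l) ++ r = c :: false :: (pad l ++ r) := by simp [pad]
    rw [this, ← ih]
    simp only [dec, win, List.filterMap_cons, decw_false, decw_false']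

lemma dec_enc (b : ℕ) (w : List ℕ) (hw : ∀ a ∈ w, a < 2 ^ b) : dec b (w.flatMap (enc b)) = w := by
  induction w with
  | nil => rfl
  | cons a w ih =>
    have ih' := ih fun a' h => hw a' (by simp [h])
    have ha := hw a (by simp)
    have h1 : (enc b a ++ w.flatMap (enc b)).take (2 * b + 3) = enc b a := by
      rw [List.take_left' (enc_length b a)]
    have h2 : dec b (enc b a ++ w.flatMap (enc b)) =
        a :: dec b (pad (true :: (List.range b).map a.testBit) ++ w.flatMap (enc b)) := by
      have h3 : enc b a ++ w.flatMap (enc b) =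
        true :: (pad (true :: (List.range b).map a.testBit) ++ w.flatMap (enc b)) := by
        simp [enc, pad]
      rw [h3] at h1
      rw [h3]
      simp only [dec, win, List.filterMap_cons, h1, decw_enc ha]
    rw [List.flatMap_cons, h2, dec_pad, ih']

lemma ed_dec (b : ℕ) (u v : List Bool) :
    editDist (dec b u) (dec b v) ≤ (4 * b + 8) * editDist u v :=
  (ed_filterMap _ _ _).trans ((ed_win _ u v).trans (le_of_eq (by ring)))

lemma ed_enc_lower (b : ℕ) (u v : List ℕ) (hu : ∀ a ∈ u, a < 2 ^ b) (hv : ∀ a ∈ v, a < 2 ^ b) :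
    editDist u v ≤ (4 * b + 8) * editDist (u.flatMap (enc b)) (v.flatMap (enc b)) := by
  have := ed_dec b (u.flatMap (enc b)) (v.flatMap (enc b))
  rwa [dec_enc b u hu, dec_enc b v hv] at this

lemma ed_enc_upper (b : ℕ) (u v : List ℕ) :
    editDist (u.flatMap (enc b)) (v.flatMap (enc b)) ≤ (4 * b + 6) * editDist u v :=
  (ed_tokens (enc b) (2 * b + 3) (fun a => (enc_length b a).le) u v).trans (le_of_eq (by ring))

lemma enc_flat_length (b : ℕ) (u : List ℕ) : (u.flatMap (enc b)).length = (2 * b + 3) * u.length := by
  induction u with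
  | nil => rfl
  | cons a u ih => simp [enc_length, ih]; ring

end Crest.Agent.Lead.Edit
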