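import Mathlib

set_option autoImplicit false

namespace Crest.Agent.Lead.Edit
open Finset
open scoped ComplexConjugate

variable {G : Type*} [AddCommGroup G] [Fintype G]

lemma parseval (ψ : G → ℂ) :
    ∑ χ : AddChar G ℂ, ‖∑ x, ψ x * χ x‖ ^ 2 = Fintype.card G * ∑ x, ‖ψ x‖ ^ 2 := by
  classical
  have h : ∀ χ : AddChar G ℂ, ((‖∑ x, ψ x * χ x‖ ^ 2 : ℝ) : ℂ) =
      ∑ x, ∑ y, ψ x * conj (ψ y) * χ (x - y) := by
    intro χ
    rw [← Complex.normSq_eq_norm_sq, ← Complex.mul_conj, map_sum, Finset.sum_mul_sum]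
    refine Finset.sum_congr rfl fun x _ => Finset.sum_congr rfl fun y _ => ?_
    rw [sub_eq_add_neg, AddChar.map_add_eq_mul, AddChar.map_neg_eq_conj, map_mul]
    ring
  have h2 : ((∑ χ : AddChar G ℂ, ‖∑ x, ψ x * χ x‖ ^ 2 : ℝ) : ℂ) =
      ((Fintype.card G * ∑ x, ‖ψ x‖ ^ 2 : ℝ) : ℂ) := by
    rw [Complex.ofReal_sum]
    simp_rw [h]
    rw [Finset.sum_comm]
    push_cast
    rw [Finset.mul_sum]
    refine Finset.sum_congr rfl fun x _ => ?_
    rw [Finset.sum_comm]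
    simp_rw [← Finset.mul_sum, AddChar.sum_apply_eq_ite, sub_eq_zero]
    simp only [mul_ite, mul_zero, Finset.sum_ite_eq, Finset.mem_univ, if_true]
    rw [Complex.mul_conj, Complex.normSq_eq_norm_sq]
    push_cast
    ring
  exact_mod_cast h2

lemma energy (φ : G → ℂ) (u : G) :
    Fintype.card G * ∑ x, ‖φ x - φ (x + u)‖ ^ 2 =
      ∑ χ : AddChar G ℂ, ‖∑ x, φ x * χ x‖ ^ 2 * ‖1 - χ u‖ ^ 2 := by
  have h1 : ∑ x, ‖φ x - φ (x + u)‖ ^ 2 = ∑ x, ‖φ x - φ (x - u)‖ ^ 2 := by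
    refine Fintype.sum_equiv (Equiv.addRight u) _ _ fun x => ?_
    simp [norm_sub_rev]
  rw [h1, ← parseval]
  refine Finset.sum_congr rfl fun χ _ => ?_
  rw [← mul_pow, ← norm_mul]
  congr 2
  simp_rw [sub_mul, Finset.sum_sub_distrib]
  have : ∑ x, φ (x - u) * χ x = ∑ x, φ x * χ (x + u) := by
    refine (Fintype.sum_equiv (Equiv.addRight u) _ _ fun x => ?_).symm
    simp
  rw [this]
  simp_rw [AddChar.map_add_eq_mul, ← mul_assoc, ← Finset.sum_mul]
  ring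

lemma poincare_sq {U : Type*} [Fintype U] (u : U → G) (wt : U → ℝ) (hwt : ∀ a, 0 ≤ wt a) (z : G)
    (H : ∀ χ : AddChar G ℂ, χ z ≠ 1 → 1 ≤ ∑ a, wt a * ‖1 - χ (u a)‖ ^ 2) (φ : G → ℂ) :
    ∑ x, ‖φ x - φ (x + z)‖ ^ 2 ≤ 4 * ∑ a, wt a * ∑ x, ‖φ x - φ (x + u a)‖ ^ 2 := by
  have hc : (0 : ℝ) < Fintype.card G := by exact_mod_cast Fintype.card_pos
  refine le_of_mul_le_mul_left ?_ hc
  rw [energy]
  have : (Fintype.card G : ℝ) * (4 * ∑ a, wt a * ∑ x, ‖φ x - φ (x + u a)‖ ^ 2) =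
      ∑ χ : AddChar G ℂ, ‖∑ x, φ x * χ x‖ ^ 2 * (4 * ∑ a, wt a * ‖1 - χ (u a)‖ ^ 2) := by
    calc _ = 4 * ∑ a, wt a * (Fintype.card G * ∑ x, ‖φ x - φ (x + u a)‖ ^ 2) := by
          rw [Finset.mul_sum, Finset.mul_sum, Finset.mul_sum]
          refine Finset.sum_congr rfl fun a _ => by ring
      _ = _ := by
          simp_rw [energy, Finset.mul_sum]
          rw [Finset.sum_comm]
          refine Finset.sum_congr rfl fun χ _ => Finset.sum_congr rfl fun a _ => by ring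
  rw [this]
  refine Finset.sum_le_sum fun χ _ => mul_le_mul_of_nonneg_left ?_ (by positivity)
  by_cases h : χ z = 1
  · rw [h]
    simp only [sub_self, norm_zero]
    have : 0 ≤ ∑ a, wt a * ‖1 - χ (u a)‖ ^ 2 :=
      Finset.sum_nonneg fun a _ => mul_nonneg (hwt a) (by positivity)
    nlinarith
  · have h1 := H χ h
    have h2 : ‖1 - χ z‖ ≤ 2 := by
      calc _ ≤ ‖(1 : ℂ)‖ + ‖χ z‖ := norm_sub_le _ _
        _ = 2 := by simp; norm_num
    have h3 : ‖1 - χ z‖ ^ 2 ≤ 2 ^ 2 := pow_le_pow_left₀ (norm_nonneg _) h2 2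
    linarith

open MeasureTheory in
lemma cut_eq (a b t : ℝ) :
    ‖(if t < a then (1 : ℂ) else 0) - (if t < b then (1 : ℂ) else 0)‖ ^ 2 =
      (Set.Ico (min a b) (max a b)).indicator (fun _ => (1 : ℝ)) t := by
  by_cases h1 : t < a <;> by_cases h2 : t < b
  · rw [Set.indicator_of_notMem]
    · simp [h1, h2]
    · simp [h1, h2]
  · rw [Set.indicator_of_mem]
    · simp [h1, h2]
    · simp only [Set.mem_Ico, min_le_iff, lt_max_iff]
      exact ⟨Or.inr (not_lt.1 h2), Or.inl h1⟩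
  · rw [Set.indicator_of_mem]
    · simp [h1, h2]
    · simp only [Set.mem_Ico, min_le_iff, lt_max_iff]
      exact ⟨Or.inl (not_lt.1 h1), Or.inr h2⟩
  · rw [Set.indicator_of_notMem]
    · simp [h1, h2]
    · simp [h1, h2]

open MeasureTheory in
lemma cut_int (a b : ℝ) :
    Integrable (fun t : ℝ => ‖(if t < a then (1 : ℂ) else 0) - (if t < b then (1 : ℂ) else 0)‖ ^ 2) ∧
    ∫ t : ℝ, ‖(if t < a then (1 : ℂ) else 0) - (if t < b then (1 : ℂ) else 0)‖ ^ 2 = |a - b| := by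
  simp_rw [cut_eq]
  constructor
  · exact (integrable_indicator_iff measurableSet_Ico).2 (integrableOn_const (by simp))
  · rw [integral_indicator measurableSet_Ico]
    simp only [integral_const, MeasurableSet.univ, measureReal_restrict_apply, Set.univ_inter,
      smul_eq_mul, mul_one]
    rw [Real.volume_real_Ico_of_le (min_le_max), max_sub_min_eq_abs, abs_sub_comm]

open MeasureTheory in
lemma poincare_abs {U : Type*} [Fintype U] (u : U → G) (wt : U → ℝ) (hwt : ∀ a, 0 ≤ wt a) (z : G)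
    (H : ∀ χ : AddChar G ℂ, χ z ≠ 1 → 1 ≤ ∑ a, wt a * ‖1 - χ (u a)‖ ^ 2) (φ : G → ℝ) :
    ∑ x, |φ x - φ (x + z)| ≤ 4 * ∑ a, wt a * ∑ x, |φ x - φ (x + u a)| := by
  simp_rw [← fun a b => (cut_int a b).2]
  rw [← integral_finsetSum _ fun x _ => (cut_int _ _).1]
  simp_rw [← integral_finsetSum _ fun x _ => (cut_int _ _).1, ← integral_const_mul]
  have hi : ∀ a, Integrable (fun t : ℝ => wt a * ∑ x, ‖(if t < φ x then (1 : ℂ) else 0) -
      (if t < φ (x + u a) then (1 : ℂ) else 0)‖ ^ 2) := fun a =>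
    (integrable_finsetSum _ fun x _ => (cut_int _ _).1).const_mul _
  rw [← integral_finsetSum _ fun a _ => hi a, ← integral_const_mul]
  refine integral_mono (integrable_finsetSum _ fun x _ => (cut_int _ _).1)
    ((integrable_finsetSum _ fun a _ => hi a).const_mul _) fun t => ?_
  exact poincare_sq u wt hwt z H fun x => if t < φ x then 1 else 0

lemma poincare_l1 {U : Type*} [Fintype U] (u : U → G) (wt : U → ℝ) (hwt : ∀ a, 0 ≤ wt a) (z : G)
    (H : ∀ χ : AddChar G ℂ, χ z ≠ 1 → 1 ≤ ∑ a, wt a * ‖1 - χ (u a)‖ ^ 2)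
    (φ : G → lp (fun _ : ℕ => ℝ) 1) :
    ∑ x, ‖φ x - φ (x + z)‖ ≤ 4 * ∑ a, wt a * ∑ x, ‖φ x - φ (x + u a)‖ := by
  have hs : ∀ f g : lp (fun _ : ℕ => ℝ) 1, HasSum (fun i => |f i - g i|) ‖f - g‖ := by
    intro f g
    have := lp.hasSum_norm (p := 1) (by simp) (f - g)
    simpa using this
  have h1 : HasSum (fun i => ∑ x, |φ x i - φ (x + z) i|) (∑ x, ‖φ x - φ (x + z)‖) :=
    hasSum_sum fun x _ => hs _ _
  have h2 : HasSum (fun i => 4 * ∑ a, wt a * ∑ x, |φ x i - φ (x + u a) i|)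
      (4 * ∑ a, wt a * ∑ x, ‖φ x - φ (x + u a)‖) :=
    (hasSum_sum fun a _ => (hasSum_sum fun x _ => hs _ _).mul_left _).mul_left _
  exact hasSum_le (fun i => poincare_abs u wt hwt z H fun x => φ x i) h1 h2

/-- averaging over a nontrivial root of unity -/
lemma root_avg (γ : ℂ) (n R : ℕ) (hn : 0 < n) (h1 : γ ^ n = 1) (hγ : γ ≠ 1) (hR : 2 * n ≤ R) :
    (R : ℝ) ≤ ∑ r ∈ range R, ‖1 - γ ^ r‖ ^ 2 := by
  have hnorm : ‖γ‖ = 1 := by
    have := congrArg norm h1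
    rw [norm_pow, norm_one] at this
    exact (pow_eq_one_iff_of_nonneg (norm_nonneg _) hn.ne').1 this
  have hsq : ∀ r, ‖1 - γ ^ r‖ ^ 2 = 2 - 2 * (γ ^ r).re := by
    intro r
    have h : ‖γ ^ r‖ ^ 2 = 1 := by rw [norm_pow, hnorm]; simp
    rw [← Complex.normSq_eq_norm_sq] at h ⊢
    rw [Complex.normSq_sub, h, one_mul, Complex.conj_re]
    simp
    ring
  have hz : ∑ r ∈ range n, γ ^ r = 0 := by
    have := mul_geom_sum γ n
    rw [h1, sub_self] at this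
    exact (mul_eq_zero.1 this).resolve_left (sub_ne_zero.2 hγ)
  have hper : ∀ a b : ℕ, ∑ r ∈ range (n * a + b), γ ^ r = ∑ r ∈ range b, γ ^ r := by
    intro a b
    induction a with
    | zero => simp
    | succ a ih =>
      rw [show n * (a + 1) + b = n + (n * a + b) by ring, Finset.sum_range_add, hz, zero_add]
      simp_rw [pow_add γ n, h1, one_mul]
      exact ih
  have hb : (∑ r ∈ range R, γ ^ r).re ≤ n := by
    rw [← Nat.div_add_mod R n, hper]
    calc _ ≤ ‖∑ r ∈ range (R % n), γ ^ r‖ := Complex.re_le_norm _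
      _ ≤ ∑ r ∈ range (R % n), ‖γ ^ r‖ := norm_sum_le _ _
      _ = (R % n : ℕ) := by simp [norm_pow, hnorm]
      _ ≤ n := by exact_mod_cast (Nat.mod_lt R hn).le
  simp_rw [hsq]
  rw [Finset.sum_sub_distrib, ← Finset.mul_sum, ← Complex.re_sum]
  simp only [sum_const, card_range, nsmul_eq_mul]
  have : (2 * n : ℝ) ≤ R := by exact_mod_cast hR
  linarith

end Crest.Agent.Lead.Edit
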