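import Crest.Agent.Lead.EditStep
import Crest.Agent.Lead.EditCode

set_option autoImplicit false

namespace Crest.Agent.Lead.Edit
open Crest.GeometryTopology.EditDistance

def Good.mono {m ℓ ℓ' M M' : ℕ} {C C' F F' : ℝ} (D : Good m ℓ M C F) (h0 : ℓ = ℓ') (h1 : M ≤ M')
    (h2 : C ≤ C') (h3 : F' ≤ F) : Good m ℓ' M' C' F' :=
  { D with
    hlen := fun x => (D.hlen x).trans h0
    hsym := fun x a ha => (D.hsym x a ha).trans_le h1
    hsum := D.hsum.trans h2
    hlow := fun s x hs => h3.trans (D.hlow s x hs) }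

lemma levels {k : ℕ} (p : ℕ → Fin k → ℕ) (h q w w₀ R P0 : ℕ) (hw₀ : 2 ≤ w₀) (hp : ∀ s i, 2 ≤ p s i)
    (hp' : ∀ s < h, ∀ i, p s i ≤ P0) (hP0 : 0 < P0) (hq0 : 0 < q)
    (hc : ∀ s i s' i', (s, i) ≠ (s', i') → Nat.Coprime (p s i) (p s' i'))
    (hq : q ≤ 2 ^ w) (hw : 2 * (4 * w + 2) ≤ k) (j : ℕ) (hj : j ≤ h) :
    ∀ m, 0 < m → (∀ s < j, ∀ i, Nat.Coprime m (p s i)) → 2 * (m * P0 ^ (j + w₀)) ≤ R →
      Nonempty (Good m ((q * k) ^ j) (m * (P0 * k) ^ j)
        (((1 / w₀) ^ j + 4 * R / q) * (q * k) ^ j) ((q * k / 4) ^ j)) := by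
  have hqR : (0 : ℝ) < q := by exact_mod_cast hq0
  have hwR : (2 : ℝ) ≤ w₀ := by exact_mod_cast hw₀
  induction j with
  | zero =>
    intro m hm _ hR
    have h1 : 2 * m ≤ R := by
      have : 0 < P0 ^ (0 + w₀) := by positivity
      nlinarith
    refine ⟨(base m R hm h1).mono (by simp) (by simp) ?_ (by simp)⟩
    have : (0 : ℝ) ≤ 4 * R / q := by positivity
    simp only [pow_zero, mul_one]
    linarith
  | succ j ih =>
    intro m hm hmc hR
    have hD : ∀ i, Nonempty (Good (m * p j i) ((q * k) ^ j) (m * P0 * (P0 * k) ^ j)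
        (((1 / w₀) ^ j + 4 * R / q) * (q * k) ^ j) ((q * k / 4) ^ j)) := by
      intro i
      have hpi := hp' j (by omega) i
      obtain ⟨D⟩ := ih (by omega) (m * p j i) (Nat.mul_pos hm (by have := hp j i; omega))
        (fun s hs i' => Nat.Coprime.mul_left (hmc s (by omega) i')
          (hc _ _ _ _ (by simp; omega))) (by
          refine le_trans ?_ hR
          rw [show j + 1 + w₀ = (j + w₀) + 1 by ring, pow_succ P0 (j + w₀)]
          have : m * p j i * P0 ^ (j + w₀) ≤ m * P0 * P0 ^ (j + w₀) := by gcongr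
          nlinarith)
      exact ⟨D.mono rfl (by gcongr) le_rfl le_rfl⟩
    have D := fun i => Classical.choice (hD i)
    have hR' : 2 * (m * P0 ^ w₀) ≤ R := by
      refine le_trans ?_ hR
      have : P0 ^ w₀ ≤ P0 ^ (j + 1 + w₀) := Nat.pow_le_pow_right hP0 (by omega)
      gcongr
    refine ⟨(step D q w w₀ R P0 (by omega) hm (hp j) (hp' j (by omega)) hP0 hR'
      (fun i i' hi => hc _ _ _ _ (by simpa using hi)) (hmc j (by omega)) hq hw (by positivity)
      ?_).mono (by ring) (le_of_eq (by ring)) ?_ (le_of_eq (by ring))⟩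
    · push_cast
      have : (0 : ℝ) ≤ q * k := by positivity
      gcongr
      linarith
    · push_cast
      have hX : (0 : ℝ) ≤ (q * k) ^ (j + 1) := by positivity
      have hw0 : (0 : ℝ) < w₀ := by linarith
      have e : 2 * (R : ℝ) * (k * (q * k) ^ j) +
          k * (q * (((1 / w₀) ^ j + 4 * R / q) * (q * k) ^ j) / w₀) =
          ((1 / w₀) ^ (j + 1) + (2 * R / q + (4 * R / q) / w₀)) * (q * k) ^ (j + 1) := by
        rw [pow_succ (1 / (w₀ : ℝ)), pow_succ (q * k : ℝ)]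
        generalize (1 / (w₀ : ℝ)) ^ j = A
        generalize (q * k : ℝ) ^ j = B
        field_simp
        ring
      rw [e]
      refine mul_le_mul_of_nonneg_right ?_ hX
      have h1 : (4 * (R : ℝ) / q) / w₀ ≤ (4 * R / q) / 2 :=
        div_le_div_of_nonneg_left (by positivity) (by norm_num) hwR
      have h2 : (4 * (R : ℝ) / q) / 2 = 2 * R / q := by ring
      have h3 : (4 * (R : ℝ) / q) = 2 * R / q + 2 * R / q := by ring
      linarith

lemma distortion {m ℓ M : ℕ} {C F : ℝ} (D : Good m ℓ M C F) (hm : 2 ≤ m) (hF : 0 < F) (b : ℕ)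
    (hb : M ≤ 2 ^ b) (f : List Bool → lp (fun _ : ℕ => ℝ) 1) (s Ds : ℝ) (hs : 0 < s)
    (H : ∀ x y : List Bool, x.length = (2 * b + 3) * ℓ → y.length = (2 * b + 3) * ℓ → x ≠ y →
      s * (editDist x y : ℝ) ≤ ‖f x - f y‖ ∧ ‖f x - f y‖ ≤ Ds * s * (editDist x y : ℝ)) :
    0 ≤ Ds ∧ F ≤ 4 * (4 * b + 6) * (4 * b + 8) * C * Ds := by
  set e : D.G → List Bool := fun x => (D.E x).flatMap (enc b) with he
  have hel : ∀ x, (e x).length = (2 * b + 3) * ℓ := fun x => by
    rw [he]; simp only; rw [enc_flat_length, D.hlen]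
  have hlow : ∀ x, F ≤ (4 * b + 8) * (editDist (e x) (e (x + D.z)) : ℝ) := by
    intro x
    have h1 := D.hlow 1 x (by
      intro h
      have := Int.le_of_dvd one_pos h
      omega)
    rw [one_smul] at h1
    refine h1.trans ?_
    exact_mod_cast ed_enc_lower b _ _ (fun a ha => (D.hsym _ a ha).trans_le hb)
      (fun a ha => (D.hsym _ a ha).trans_le hb)
  have hne : ∀ x, e x ≠ e (x + D.z) := by
    intro x h
    have := hlow x
    rw [← h] at this
    simp at this
    linarith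
  have hD : 0 ≤ Ds := by
    obtain ⟨h1, h2⟩ := H _ _ (hel 0) (hel _) (hne 0)
    have h3 : (1 : ℝ) ≤ editDist (e 0) (e (0 + D.z)) := by exact_mod_cast ed_pos (hne 0)
    by_contra hcon
    have : Ds * (s * (editDist (e 0) (e (0 + D.z)) : ℝ)) < 0 :=
      mul_neg_of_neg_of_pos (not_le.1 hcon) (by positivity)
    have := norm_nonneg (f (e 0) - f (e (0 + D.z)))
    linarith
  refine ⟨hD, ?_⟩
  have hup : ∀ a x, ‖f (e x) - f (e (x + D.u a))‖ ≤ Ds * s * ((4 * b + 6) * D.cost a) := by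
    intro a x
    have h1 : (editDist (e x) (e (x + D.u a)) : ℝ) ≤ (4 * b + 6) * D.cost a := by
      refine le_trans ?_ (mul_le_mul_of_nonneg_left (D.hcost a x) (by positivity))
      exact_mod_cast ed_enc_upper b _ _
    refine le_trans ?_ (mul_le_mul_of_nonneg_left h1 (by positivity))
    by_cases h : e x = e (x + D.u a)
    · rw [← h]; simp
    · exact (H _ _ (hel _) (hel _) h).2
  have hP := poincare_l1 D.u D.wt D.hwt D.z D.hchar fun x => f (e x)
  have hc : (0 : ℝ) < Fintype.card D.G := by exact_mod_cast Fintype.card_pos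
  have h1 : (Fintype.card D.G : ℝ) * (s * F) ≤ (4 * b + 8) * ∑ x, ‖f (e x) - f (e (x + D.z))‖ := by
    rw [Finset.mul_sum]
    calc _ = ∑ _x : D.G, s * F := by simp
      _ ≤ _ := Finset.sum_le_sum fun x _ => by
        have h2 := (H _ _ (hel _) (hel _) (hne x)).1
        have h3 := mul_le_mul_of_nonneg_left (hlow x) hs.le
        have h4 := mul_le_mul_of_nonneg_left h2 (by positivity : (0 : ℝ) ≤ 4 * b + 8)
        linarith
  have h2 : ∑ a, D.wt a * ∑ x, ‖f (e x) - f (e (x + D.u a))‖ ≤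
      Fintype.card D.G * (Ds * s * (4 * b + 6)) * C := by
    refine le_trans ?_ (mul_le_mul_of_nonneg_left D.hsum (by positivity))
    rw [Finset.mul_sum]
    refine Finset.sum_le_sum fun a _ => ?_
    have h3 : ∑ x, ‖f (e x) - f (e (x + D.u a))‖ ≤
        Fintype.card D.G * (Ds * s * ((4 * b + 6) * D.cost a)) := by
      calc _ ≤ ∑ _x : D.G, Ds * s * ((4 * b + 6) * D.cost a) := Finset.sum_le_sum fun x _ => hup a x
        _ = _ := by simp
    calc _ ≤ D.wt a * (Fintype.card D.G * (Ds * s * ((4 * b + 6) * D.cost a))) :=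
          mul_le_mul_of_nonneg_left h3 (D.hwt a)
      _ = _ := by ring
  have h3 : (Fintype.card D.G : ℝ) * (s * F) ≤
      Fintype.card D.G * (s * (4 * (4 * b + 6) * (4 * b + 8) * C * Ds)) := by
    calc _ ≤ (4 * b + 8) * (4 * (Fintype.card D.G * (Ds * s * (4 * b + 6)) * C)) := by
          refine h1.trans (mul_le_mul_of_nonneg_left (hP.trans ?_) (by positivity))
          linarith
      _ = _ := by ring
  exact le_of_mul_le_mul_left (le_of_mul_le_mul_left h3 hc) hs

lemma many_primes (h : ℕ) (hh : 256 ≤ h) : h ^ 4 + 1 ≤ Nat.primeCounting (h ^ 6) := by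
  have h1 := Chebyshev.pi_ge (h ^ 6)
  have hR : (256 : ℝ) ≤ h := by exact_mod_cast hh
  have hl : 0 < Real.log h := Real.log_pos (by linarith)
  have hl2 : Real.log h ≤ h := Real.log_le_self (by linarith)
  have h2 := Real.log_two_gt_d9
  push_cast at h1
  have h3 : Real.log ((h : ℝ) ^ 6 + 1) ≤ 7 * h := by
    have : (h : ℝ) ^ 6 + 1 ≤ h ^ 7 := by
      have : (1 : ℝ) ≤ h ^ 6 := one_le_pow₀ (by linarith)
      calc (h : ℝ) ^ 6 + 1 ≤ 256 * (h : ℝ) ^ 6 := by linarith
        _ ≤ h * (h : ℝ) ^ 6 := by gcongr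
        _ = (h : ℝ) ^ 7 := by ring
    refine (Real.log_le_log (by positivity) this).trans ?_
    rw [Real.log_pow]
    push_cast
    linarith
  have h4 : ((h : ℝ) ^ 4 + 1) ≤ (h ^ 6 * Real.log 2 - Real.log (h ^ 6 + 1)) / Real.log (h ^ 6) := by
    rw [Real.log_pow, le_div_iff₀ (by positivity)]
    push_cast
    have h5 : (1 : ℝ) ≤ h ^ 4 := one_le_pow₀ (by linarith)
    have h6 : ((h : ℝ) ^ 4 + 1) * (6 * Real.log h) ≤ (2 * h ^ 4) * (6 * h) := by
      gcongr; linarith
    have h7 : (h : ℝ) ^ 6 * (1 / 2) ≤ h ^ 6 * Real.log 2 := by gcongr; linarith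
    have h8 : (256 : ℝ) * h ^ 5 ≤ h ^ 6 := by
      calc (256 : ℝ) * h ^ 5 ≤ h * h ^ 5 := by gcongr
        _ = _ := by ring
    have h9 : (h : ℝ) ≤ h ^ 5 := by
      calc (h : ℝ) = 1 * h := by ring
        _ ≤ h ^ 4 * h := by gcongr
        _ = _ := by ring
    have h10 : (2 * (h : ℝ) ^ 4) * (6 * h) = 12 * h ^ 5 := by ring
    linarith
  exact_mod_cast h4.trans h1

lemma main_level (h : ℕ) (hh : 256 ≤ h) : ∃ n : ℕ, n ≤ h ^ (14 * h ^ 2) ∧
    ∀ (f : List Bool → lp (fun _ : ℕ => ℝ) 1) (s D : ℝ), 0 < s →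
      (∀ x y : List Bool, x.length = n → y.length = n → x ≠ y →
        s * (editDist x y : ℝ) ≤ ‖f x - f y‖ ∧ ‖f x - f y‖ ≤ D * s * (editDist x y : ℝ)) →
      Real.exp (h * Real.log h / 2) ≤ D := by
  have hpr : ∀ i ≤ h ^ 4, Nat.nth Nat.Prime i ≤ h ^ 6 := by
    intro i hi
    have h1 := many_primes h hh
    have : Nat.nth Nat.Prime i < h ^ 6 + 1 := Nat.nth_lt_of_lt_count (by
      change i < Nat.primeCounting (h ^ 6)
      omega)
    omega
  have hinj := Nat.nth_injective Nat.infinite_setOfPred_prime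
  have hcop : ∀ a b, a ≠ b → Nat.Coprime (Nat.nth Nat.Prime a) (Nat.nth Nat.Prime b) :=
    fun a b hab => (Nat.coprime_primes (Nat.prime_nth_prime a) (Nat.prime_nth_prime b)).2
      fun h => hab (hinj h)
  have h0 : 0 < h := by omega
  have h2 : h ≤ 2 ^ h := Nat.lt_two_pow_self.le
  set k := h ^ 3 with hk
  set R := 2 * h ^ (12 * h + 6) with hR
  set q := 8 * h ^ (13 * h + 6) with hq
  have hidx : ∀ s < h, ∀ i : Fin k, s * k + i < h ^ 4 := by
    intro s hs i
    have := i.2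
    calc s * k + i < (s + 1) * k := by nlinarith
      _ ≤ h * k := by gcongr; omega
      _ = h ^ 4 := by rw [hk]; ring
  obtain ⟨G⟩ := levels (k := k) (fun s i => Nat.nth Nat.Prime (s * k + i)) h q
    (3 + h * (13 * h + 6)) h R (h ^ 6) (by omega) (fun s i => (Nat.prime_nth_prime _).two_le)
    (fun s hs i => hpr _ (hidx s hs i).le) (by positivity) (by positivity)
    (fun s i s' i' hne => hcop _ _ fun he => hne (by
      have hk0 : 0 < k := by positivity
      have e1 : s = s' := by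
        have := congrArg (· / k) he
        simp only [Nat.add_comm _ (i : ℕ), Nat.add_comm _ (i' : ℕ),
          Nat.add_mul_div_right _ _ hk0, Nat.div_eq_of_lt i.2, Nat.div_eq_of_lt i'.2] at this
        omega
      subst e1
      have : i = i' := Fin.ext (by omega)
      rw [this]))
    (by
      rw [hq, pow_add 2 3, pow_mul]
      gcongr
      norm_num)
    (by rw [hk]; nlinarith [Nat.mul_le_mul hh (le_refl (h * h)), Nat.mul_le_mul hh (le_refl h)])
    h le_rfl (Nat.nth Nat.Prime (h ^ 4)) (Nat.prime_nth_prime _).pos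
    (fun s hs i => hcop _ _ (hidx s hs i).ne')
    (by
      rw [hR, ← pow_mul, show 12 * h + 6 = 6 + 6 * (h + h) by ring, pow_add h 6]
      have := hpr _ le_rfl
      gcongr)
  refine ⟨(2 * k + 3) * (q * k) ^ h, ?_, ?_⟩
  · have e1 : 2 * k + 3 ≤ h ^ 4 := by
      have : 0 < k := by positivity
      calc 2 * k + 3 ≤ 256 * k := by omega
        _ ≤ h * k := by gcongr
        _ = h ^ 4 := by rw [hk]; ring
    have e2 : q * k ≤ h ^ (13 * h + 10) := by
      calc q * k ≤ (h * h ^ (13 * h + 6)) * h ^ 3 := by rw [hq, hk]; gcongr; omega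
        _ = _ := by ring
    calc _ ≤ h ^ 4 * (h ^ (13 * h + 10)) ^ h := by gcongr
      _ = h ^ (4 + (13 * h + 10) * h) := by rw [← pow_mul, ← pow_add]
      _ ≤ _ := Nat.pow_le_pow_right h0 (by nlinarith)
  intro f s D hs H
  have hR' : (256 : ℝ) ≤ h := by exact_mod_cast hh
  have hqk : (0 : ℝ) < q * k := by positivity
  obtain ⟨hD, hF⟩ := distortion G (Nat.prime_nth_prime _).two_le (by positivity) k (by
    have := hpr _ le_rfl
    calc _ ≤ h ^ 6 * (h ^ 6 * h ^ 3) ^ h := by gcongr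
      _ = h ^ (6 + 9 * h) := by rw [← pow_add, ← pow_mul, ← pow_add]
      _ ≤ (2 ^ h) ^ (6 + 9 * h) := by gcongr
      _ = 2 ^ (h * (6 + 9 * h)) := by rw [← pow_mul]
      _ ≤ 2 ^ k := Nat.pow_le_pow_right (by norm_num) (by
        rw [hk]; nlinarith [Nat.mul_le_mul hh (le_refl (h * h)), Nat.mul_le_mul hh (le_refl h)]))
    f s D hs H
  have e1 : (4 * (R : ℝ) / q) = (1 / h) ^ h := by
    rw [hR, hq]
    push_cast
    rw [one_div, inv_pow, show 13 * h + 6 = (12 * h + 6) + h by ring, pow_add (h : ℝ) (12 * h + 6) h]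
    field_simp
    norm_num
  rw [e1, div_pow] at hF
  have e2 : (4 : ℝ) * (4 * k + 6) * (4 * k + 8) * 2 ≤ h ^ 8 := by
    have hk1 : (1 : ℝ) ≤ k := by exact_mod_cast (by positivity : 0 < k)
    have hk2 : (k : ℝ) = h ^ 3 := by rw [hk]; push_cast; rfl
    calc (4 : ℝ) * (4 * k + 6) * (4 * k + 8) * 2 ≤ 4 * (10 * k) * (12 * k) * 2 := by
          gcongr <;> linarith
      _ = 960 * k ^ 2 := by ring
      _ ≤ h ^ 2 * k ^ 2 := by gcongr; nlinarith
      _ = h ^ 8 := by rw [hk2]; ring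
  have e3 : (h : ℝ) ^ h ≤ 4 ^ h * h ^ 8 * D := by
    have hX : (0 : ℝ) < (q * k) ^ h := by positivity
    have hY : (0 : ℝ) < (h : ℝ) ^ h := by positivity
    have hZ : (0 : ℝ) < (4 : ℝ) ^ h := by positivity
    rw [div_le_iff₀ hZ, one_div, inv_pow] at hF
    have e4 : (q * k : ℝ) ^ h * h ^ h ≤ (q * k) ^ h * (4 ^ h * (4 * (4 * k + 6) * (4 * k + 8) * 2) * D) := by
      calc _ ≤ 4 * (4 * k + 6) * (4 * k + 8) * ((((h : ℝ) ^ h)⁻¹ + ((h : ℝ) ^ h)⁻¹) * (q * k) ^ h) *
            D * 4 ^ h * h ^ h := mul_le_mul_of_nonneg_right hF hY.le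
        _ = _ := by field_simp; ring
    refine (le_of_mul_le_mul_left e4 hX).trans ?_
    gcongr
  have hL : 4 * Real.log 4 ≤ Real.log h := by
    have : Real.log 256 = 4 * Real.log 4 := by
      rw [show (256 : ℝ) = 4 ^ 4 by norm_num, Real.log_pow]; norm_num
    rw [← this]
    exact Real.log_le_log (by norm_num) hR'
  have hL0 : 0 < Real.log h := Real.log_pos (by linarith)
  have e5 : (h : ℝ) ^ h = Real.exp (h * Real.log h) := by
    rw [← Real.log_pow, Real.exp_log (by positivity)]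
  have e6 : (4 : ℝ) ^ h * h ^ 8 ≤ Real.exp (h * Real.log h / 2) := by
    have a1 : (4 : ℝ) ^ h = Real.exp (h * Real.log 4) := by
      rw [← Real.log_pow, Real.exp_log (by positivity)]
    have a2 : (h : ℝ) ^ 8 = Real.exp (8 * Real.log h) := by
      rw [show (8 : ℝ) = (8 : ℕ) by norm_num, ← Real.log_pow, Real.exp_log (by positivity)]
    rw [a1, a2, ← Real.exp_add]
    apply Real.exp_le_exp.2
    nlinarith
  have e7 : Real.exp (h * Real.log h / 2) * Real.exp (h * Real.log h / 2) ≤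
      Real.exp (h * Real.log h / 2) * D := by
    rw [← Real.exp_add, add_halves, ← e5]
    exact e3.trans (mul_le_mul_of_nonneg_right e6 hD)
  exact le_of_mul_le_mul_left e7 (Real.exp_pos _)

lemma choose_level (g : ℕ → ℕ) (hg : ∀ h, h ≤ g h) (h₀ d : ℕ) (hd : g h₀ ≤ d) :
    ∃ h, h₀ ≤ h ∧ g h ≤ d ∧ d < g (h + 1) := by
  by_contra hcon
  push Not at hcon
  have : ∀ n, g (h₀ + n) ≤ d := by
    intro n
    induction n with
    | zero => exact hd
    | succ n ih => exact hcon (h₀ + n) (by omega) ih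
  have h1 := this (d + 1)
  have h2 := hg (h₀ + (d + 1))
  omega

lemma log_bound (h d : ℕ) (hh : 256 ≤ h) (hd : h ≤ d) (hd' : d < (h + 1) ^ (14 * (h + 1) ^ 2)) :
    1 / 44 * Real.sqrt (Real.log d * Real.log (Real.log d)) ≤ h * Real.log h / 2 := by
  have hR : (256 : ℝ) ≤ h := by exact_mod_cast hh
  have hdR : (h : ℝ) ≤ d := by exact_mod_cast hd
  have a1 : (d : ℝ) ≤ ((h : ℝ) + 1) ^ (14 * (h + 1) ^ 2) := by exact_mod_cast hd'.le
  clear hd' hd hh
  have hL0 : 0 < Real.log h := Real.log_pos (by linarith)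
  have hL1 : Real.log h ≤ h := Real.log_le_self (by linarith)
  have hd0 : 0 < Real.log d := Real.log_pos (by linarith)
  have h1 : Real.log d ≤ 112 * h ^ 2 * Real.log h := by
    have a2 := Real.log_le_log (by linarith) a1
    rw [Real.log_pow] at a2
    push_cast at a2
    clear a1
    have a3 : Real.log ((h : ℝ) + 1) ≤ 2 * Real.log h := by
      have : (h : ℝ) + 1 ≤ h ^ 2 := by nlinarith
      have := Real.log_le_log (by linarith) this
      rwa [Real.log_pow] at this
    have a4 : 0 ≤ Real.log ((h : ℝ) + 1) := Real.log_nonneg (by linarith)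
    calc _ ≤ 14 * ((h : ℝ) + 1) ^ 2 * Real.log (h + 1) := a2
      _ ≤ 14 * (2 * h) ^ 2 * (2 * Real.log h) := by gcongr; linarith
      _ = _ := by ring
  clear a1
  have h2 : Real.log (Real.log d) ≤ 4 * Real.log h := by
    have a1 : Real.log d ≤ (h : ℝ) ^ 4 := by
      calc _ ≤ 112 * h ^ 2 * Real.log h := h1
        _ ≤ h * h ^ 2 * h := by gcongr; linarith
        _ = _ := by ring
    have := Real.log_le_log hd0 a1
    rwa [Real.log_pow] at this
  have h3 : Real.sqrt (Real.log d * Real.log (Real.log d)) ≤ 22 * (h * Real.log h) := by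
    apply Real.sqrt_le_iff.2
    refine ⟨by positivity, ?_⟩
    calc _ ≤ Real.log d * (4 * Real.log h) := mul_le_mul_of_nonneg_left h2 hd0.le
      _ ≤ (112 * h ^ 2 * Real.log h) * (4 * Real.log h) := by gcongr
      _ = 448 * (h * Real.log h) ^ 2 := by ring
      _ ≤ 484 * (h * Real.log h) ^ 2 := by gcongr; norm_num
      _ = _ := by ring
  linarith

theorem edit_main (h₀ : ℕ) (hh₀ : 256 ≤ h₀) :
    ∃ c : ℝ, 0 < c ∧ ∃ d₀ : ℕ, ∀ d : ℕ, d₀ ≤ d → ∃ n : ℕ, n ≤ d ∧
      ∀ (f : List Bool → lp (fun _ : ℕ => ℝ) 1) (s D : ℝ), 0 < s →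
        (∀ x y : List Bool, x.length = n → y.length = n → x ≠ y →
          s * (editDist x y : ℝ) ≤ ‖f x - f y‖ ∧ ‖f x - f y‖ ≤ D * s * (editDist x y : ℝ)) →
        Real.exp (c * Real.sqrt (Real.log d * Real.log (Real.log d))) ≤ D := by
  have hg : ∀ h : ℕ, h ≤ h ^ (14 * h ^ 2) := by
    intro h
    rcases Nat.eq_zero_or_pos h with rfl | h0
    · simp
    · exact Nat.le_self_pow (by positivity) h
  refine ⟨1 / 44, by norm_num, h₀ ^ (14 * h₀ ^ 2), fun d hd => ?_⟩
  obtain ⟨h, h1, h2, h3⟩ := choose_level (fun h => h ^ (14 * h ^ 2)) hg h₀ d hd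
  obtain ⟨n, hn, H⟩ := main_level h (hh₀.trans h1)
  refine ⟨n, hn.trans h2, fun f s D hs Hf => le_trans ?_ (H f s D hs Hf)⟩
  exact Real.exp_le_exp.2 (log_bound h d (hh₀.trans h1) ((hg h).trans h2) h3)

end Crest.Agent.Lead.Edit
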