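import Crest.Agent.Lead.EditBasic

set_option autoImplicit false

namespace Crest.Agent.Lead.Edit
open Crest.GeometryTopology.EditDistance

variable {α ι : Type*}

lemma prefix_flatMap (d : ι) (f : ι → List α) (L : List ι) (Z : List α) (h : Z <+: L.flatMap f) :
    ∃ L2 P n, L2 <+: L ∧ P <:+: f n ∧ Z = L2.flatMap f ++ P := by
  induction L generalizing Z with
  | nil =>
    simp at h
    exact ⟨[], [], d, List.nil_prefix, List.nil_infix, by simp [h]⟩
  | cons n L ih =>
    rw [List.flatMap_cons] at h
    rcases List.prefix_or_prefix_of_prefix h (List.prefix_append (f n) (L.flatMap f)) with h1 | h1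
    · exact ⟨[], Z, n, List.nil_prefix, h1.isInfix, by simp⟩
    · obtain ⟨Z', rfl⟩ := h1
      rw [List.prefix_append_right_inj] at h
      obtain ⟨L2, P, n', h1, h2, rfl⟩ := ih Z' h
      exact ⟨n :: L2, P, n', by simpa using h1, h2, by simp⟩

lemma infix_flatMap (d : ι) (f : ι → List α) (L : List ι) (Z : List α) (h : Z <:+: L.flatMap f) :
    ∃ S L2 P n1 n2, L2 <:+: L ∧ S <:+: f n1 ∧ P <:+: f n2 ∧ Z = S ++ L2.flatMap f ++ P := by
  induction L generalizing Z with
  | nil =>
    simp at h
    exact ⟨[], [], [], d, d, List.nil_infix, List.nil_infix, List.nil_infix, by simp [h]⟩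
  | cons n L ih =>
    rw [List.flatMap_cons, List.infix_append_iff] at h
    rcases h with h | h | ⟨l1, l2, rfl, h1, h2⟩
    · exact ⟨Z, [], [], n, d, List.nil_infix, h, List.nil_infix, by simp⟩
    · obtain ⟨S, L2, P, n1, n2, h1, h2, h3, h4⟩ := ih Z h
      exact ⟨S, L2, P, n1, n2, h1.trans (List.suffix_cons n L).isInfix, h2, h3, h4⟩
    · obtain ⟨L2, P, n', h3, h4, rfl⟩ := prefix_flatMap d f L l2 h2
      exact ⟨l1, L2, P, n, n', h3.isInfix.trans (List.suffix_cons n L).isInfix, h1.isInfix, h4,
        by simp⟩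

lemma length_flatMap_const (f : ι → List α) (c : ℕ) (L : List ι) (h : ∀ i ∈ L, (f i).length = c) :
    (L.flatMap f).length = L.length * c := by
  induction L with
  | nil => simp
  | cons i L ih =>
    simp only [List.flatMap_cons, List.length_append, List.length_cons]
    rw [ih fun j hj => h j (by simp [hj]), h i (by simp)]
    ring

def tag {k : ℕ} (i : Fin k) (w : List ℕ) : List ℕ := w.map fun a => a * k + i

def cls {k : ℕ} (hk : 0 < k) (a : ℕ) : Fin k := ⟨a % k, Nat.mod_lt _ hk⟩

@[simp] lemma tag_length {k : ℕ} (i : Fin k) (w : List ℕ) : (tag i w).length = w.length := by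
  simp [tag]

lemma cls_tag {k : ℕ} (hk : 0 < k) (i : Fin k) (w : List ℕ) : ∀ a ∈ tag i w, cls hk a = i := by
  intro a ha
  simp only [tag, List.mem_map] at ha
  obtain ⟨b, -, rfl⟩ := ha
  ext
  simp [cls, Nat.mod_eq_of_lt i.2]

lemma ed_tag_le {k : ℕ} (i : Fin k) (u v : List ℕ) : editDist (tag i u) (tag i v) ≤ editDist u v :=
  ed_map _ u v

lemma le_ed_tag {k : ℕ} (i : Fin k) (u v : List ℕ) : editDist u v ≤ editDist (tag i u) (tag i v) := by
  have hk : 0 < k := Fin.pos i
  have h : ∀ w : List ℕ, (tag i w).map (· / k) = w := by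
    intro w
    simp only [tag, List.map_map]
    conv_rhs => rw [← List.map_id w]
    refine List.map_congr_left fun a _ => ?_
    simp only [Function.comp, id]
    rw [Nat.add_comm, Nat.add_mul_div_right _ _ hk, Nat.div_eq_of_lt i.2, zero_add]
  have := ed_map (· / k) (tag i u) (tag i v)
  rwa [h, h] at this

lemma filter_tag {k : ℕ} (hk : 0 < k) (i j : Fin k) (w : List ℕ) :
    (tag j w).filter (fun a => cls hk a = i) = if j = i then tag j w else [] := by
  split_ifs with h
  · rw [List.filter_eq_self]
    intro a ha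
    simp [cls_tag hk j w a ha, h]
  · rw [List.filter_eq_nil_iff]
    intro a ha
    simp [cls_tag hk j w a ha, h]

lemma filter_infix_tag {k : ℕ} (hk : 0 < k) (i j : Fin k) (w S : List ℕ) (hS : S <:+: tag j w)
    (h : j ≠ i) : S.filter (fun a => cls hk a = i) = [] := by
  rw [List.filter_eq_nil_iff]
  intro a ha
  simp [cls_tag hk j w a (hS.subset ha), h]

lemma filter_flatMap_tag {k : ℕ} (hk : 0 < k) (i : Fin k) (L : List ι) (c : ι → Fin k)
    (w : ι → List ℕ) :
    (L.flatMap fun e => tag (c e) (w e)).filter (fun a => cls hk a = i) =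
      (L.filter fun e => c e = i).flatMap fun e => tag (c e) (w e) := by
  induction L with
  | nil => rfl
  | cons e L ih =>
    simp only [List.flatMap_cons, List.filter_append, ih, filter_tag, List.filter_cons]
    by_cases h : c e = i <;> simp [h]

def row {k : ℕ} (b : Fin k → List ℕ) : List ℕ := (List.finRange k).flatMap fun i => tag i (b i)

lemma row_length {k ℓ : ℕ} (b : Fin k → List ℕ) (hb : ∀ i, (b i).length = ℓ) :
    (row b).length = k * ℓ := by
  unfold row
  rw [length_flatMap_const _ ℓ _ fun i _ => by simp [hb]]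
  simp

lemma filter_row {k : ℕ} (hk : 0 < k) (i : Fin k) (b : Fin k → List ℕ) :
    (row b).filter (fun a => cls hk a = i) = tag i (b i) := by
  unfold row
  rw [filter_flatMap_tag hk i (List.finRange k) (fun i => i) b]
  have : (List.finRange k).filter (fun e => decide (e = i)) = [i] := by
    have h1 := List.filter_eq (l := List.finRange k) i
    rw [h1, List.count_eq_one_of_mem (List.nodup_finRange k) (List.mem_finRange i)]
    rfl
  rw [this]
  simp

lemma ed_row {k : ℕ} (b b' : Fin k → List ℕ) :
    editDist (row b) (row b') ≤ ∑ i, editDist (b i) (b' i) := by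
  refine (ed_flatMap _ _ _).trans ?_
  rw [← Fin.sum_univ_def]
  exact Finset.sum_le_sum fun i _ => ed_tag_le _ _ _

lemma row_lower {k q ℓ w : ℕ} {F : ℝ} (hF0 : 0 ≤ F) (hF : F ≤ ℓ) (hw : 2 * (4 * w + 2) ≤ k)
    (b : Fin k → List ℕ) (Yb : ℕ → Fin k → List ℕ) (hb : ∀ i, (b i).length = ℓ)
    (hY : ∀ t i, (Yb t i).length = ℓ)
    (hbad : ∀ t < q, (Finset.univ.filter fun i => (editDist (b i) (Yb t i) : ℝ) < F).card ≤ w)
    (Z : List ℕ) (hZ : Z <:+: (List.range q).flatMap fun t => row (Yb t)) :
    k * F / 4 ≤ editDist (row b) Z := by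
  classical
  have hk : 0 < k := by omega
  have hkR : (0 : ℝ) ≤ k := by positivity
  by_cases hlen : 2 * (k * ℓ) < Z.length
  · have h1 := length_le' (row b) Z
    rw [row_length b hb] at h1
    have h2 : k * ℓ ≤ editDist (row b) Z := by omega
    have h3 : (k : ℝ) * ℓ ≤ editDist (row b) Z := by exact_mod_cast h2
    have : k * F ≤ k * ℓ := mul_le_mul_of_nonneg_left hF hkR
    have : 0 ≤ k * F := mul_nonneg hkR hF0
    linarith
  rcases Nat.eq_zero_or_pos ℓ with hl | hl
  · have : F = 0 := by subst hl; simp at hF; linarith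
    subst this
    simp
  set L : List (ℕ × Fin k) := (List.range q).flatMap fun t => (List.finRange k).map fun i => (t, i)
    with hL
  have hY' : ((List.range q).flatMap fun t => row (Yb t)) =
      L.flatMap fun e => tag e.2 (Yb e.1 e.2) := by
    rw [hL, List.flatMap_assoc]
    simp only [List.flatMap_map, row]
  rw [hY'] at hZ
  obtain ⟨S, L2, P, n1, n2, h1, h2, h3, rfl⟩ := infix_flatMap (0, ⟨0, hk⟩) _ L Z hZ
  have hL2 : L2.length ≤ 2 * k := by
    simp only [List.length_append] at hlen
    rw [length_flatMap_const _ ℓ _ fun e _ => by simp [hY]] at hlen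
    have : L2.length * ℓ ≤ (2 * k) * ℓ := by nlinarith
    exact Nat.le_of_mul_le_mul_right this hl
  obtain ⟨S', L3, P', t1, t2, h4, h5, h6, h7⟩ := infix_flatMap 0 _ (List.range q) L2 h1
  have hL3 : L3.length ≤ 2 := by
    have := congrArg List.length h7
    simp only [List.length_append] at this
    rw [length_flatMap_const _ k _ fun e _ => by simp] at this
    have : L3.length * k ≤ 2 * k := by omega
    exact Nat.le_of_mul_le_mul_right this hk
  set T : Finset ℕ := ((t1 :: t2 :: L3).toFinset).filter (· < q) with hT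
  have hTc : T.card ≤ 4 := by
    refine (Finset.card_filter_le _ _).trans ((List.toFinset_card_le _).trans ?_)
    simp; omega
  have hmem : ∀ e ∈ L2, e.1 ∈ T := by
    intro e he
    have he' := h1.subset he
    rw [hL] at he'
    simp only [List.mem_flatMap, List.mem_range, List.mem_map] at he'
    obtain ⟨t, ht, i, -, rfl⟩ := he'
    rw [hT, Finset.mem_filter]
    refine ⟨?_, ht⟩
    rw [h7] at he
    simp only [List.mem_append, List.mem_flatMap, List.mem_map] at he
    simp only [List.mem_toFinset, List.mem_cons]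
    rcases he with (he | ⟨t', ht', j, -, he⟩) | he
    · have := h5.subset he
      simp only [List.mem_map, Prod.mk.injEq] at this
      obtain ⟨j, -, h, -⟩ := this
      exact Or.inl h.symm
    · simp only [Prod.mk.injEq] at he
      exact Or.inr (Or.inr (he.1 ▸ ht'))
    · have := h6.subset he
      simp only [List.mem_map, Prod.mk.injEq] at this
      obtain ⟨j, -, h, -⟩ := this
      exact Or.inr (Or.inl h.symm)
  set Bad : Finset (Fin k) := {n1.2, n2.2} ∪
    T.biUnion fun t => Finset.univ.filter fun i => (editDist (b i) (Yb t i) : ℝ) < F with hBad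
  have hBc : Bad.card ≤ 4 * w + 2 := by
    refine (Finset.card_union_le _ _).trans ?_
    have h8 : ({n1.2, n2.2} : Finset (Fin k)).card ≤ 2 := Finset.card_le_two
    have h9 := Finset.card_biUnion_le_card_mul T
      (fun t => Finset.univ.filter fun i => (editDist (b i) (Yb t i) : ℝ) < F) w
      fun t ht => hbad t (Finset.mem_filter.1 ht).2
    have : T.card * w ≤ 4 * w := Nat.mul_le_mul_right _ hTc
    omega
  have hgood : ∀ i, i ∉ Bad → F ≤ editDist ((row b).filter fun a => cls hk a = i)
      ((S ++ L2.flatMap (fun e => tag e.2 (Yb e.1 e.2)) ++ P).filter fun a => cls hk a = i) := by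
    intro i hi
    rw [hBad] at hi
    simp only [Finset.mem_union, Finset.mem_insert, Finset.mem_singleton, Finset.mem_biUnion,
      Finset.mem_filter, Finset.mem_univ, true_and, not_or, not_exists, not_and, not_lt] at hi
    obtain ⟨⟨hi1, hi2⟩, hi3⟩ := hi
    rw [filter_row, List.filter_append, List.filter_append,
      filter_infix_tag hk i _ _ S h2 (Ne.symm hi1), filter_infix_tag hk i _ _ P h3 (Ne.symm hi2),
      filter_flatMap_tag hk i L2 (fun e => e.2) (fun e => Yb e.1 e.2), List.nil_append,
      List.append_nil]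
    have hm : ∀ e ∈ L2.filter (fun e => decide (e.2 = i)), e.1 ∈ T ∧ e.2 = i := by
      intro e he
      rw [List.mem_filter] at he
      exact ⟨hmem e he.1, by simpa using he.2⟩
    generalize L2.filter (fun e => decide (e.2 = i)) = K at hm
    have hK := length_flatMap_const (fun e : ℕ × Fin k => tag e.2 (Yb e.1 e.2)) ℓ K
      fun e _ => by simp [hY]
    rcases K with _ | ⟨e, _ | ⟨e', K⟩⟩
    · have h8 := length_le (tag i (b i)) []
      simp only [tag_length, hb, List.length_nil, zero_add] at h8
      have : (ℓ : ℝ) ≤ editDist (tag i (b i)) [] := by exact_mod_cast h8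
      simpa using hF.trans this
    · obtain ⟨h8, h9⟩ := hm e (by simp)
      subst h9
      simp only [List.flatMap_cons, List.flatMap_nil, List.append_nil]
      refine (hi3 e.1 h8).trans ?_
      exact_mod_cast le_ed_tag _ _ _
    · have h8 := length_le' (tag i (b i))
        ((e :: e' :: K).flatMap fun e : ℕ × Fin k => tag e.2 (Yb e.1 e.2))
      rw [hK, tag_length, hb] at h8
      simp only [List.length_cons] at h8
      have h9 : ℓ ≤ editDist (tag i (b i))
        ((e :: e' :: K).flatMap fun e : ℕ × Fin k => tag e.2 (Yb e.1 e.2)) := by nlinarith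
      refine hF.trans ?_
      exact_mod_cast h9
  have h8 := ed_classes (cls hk) (row b) (S ++ L2.flatMap (fun e => tag e.2 (Yb e.1 e.2)) ++ P)
  have h9 : ((Badᶜ.card : ℕ) : ℝ) * F ≤ ∑ i : Fin k, (editDist ((row b).filter fun a => cls hk a = i)
      ((S ++ L2.flatMap (fun e => tag e.2 (Yb e.1 e.2)) ++ P).filter fun a => cls hk a = i) : ℝ) := by
    calc _ = ∑ i ∈ Badᶜ, F := by simp
      _ ≤ _ := (Finset.sum_le_sum fun i hi => hgood i (Finset.mem_compl.1 hi)).trans
          (Finset.sum_le_sum_of_subset_of_nonneg (Finset.subset_univ _) fun _ _ _ => by positivity)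
  have h10 : k ≤ 2 * Badᶜ.card := by
    rw [Finset.card_compl, Fintype.card_fin]
    omega
  have h11 : (k : ℝ) ≤ 2 * (Badᶜ.card : ℕ) := by exact_mod_cast h10
  have h12 : ∑ i : Fin k, (editDist ((row b).filter fun a => cls hk a = i)
      ((S ++ L2.flatMap (fun e => tag e.2 (Yb e.1 e.2)) ++ P).filter fun a => cls hk a = i) : ℝ) ≤
      2 * editDist (row b) (S ++ L2.flatMap (fun e => tag e.2 (Yb e.1 e.2)) ++ P) := by
    exact_mod_cast h8
  nlinarith

end Crest.Agent.Lead.Edit
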