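import Crest.Agent.Lead.EditRow
import Crest.Agent.Lead.EditFourier

set_option autoImplicit false

namespace Crest.Agent.Lead.Edit
open Crest.GeometryTopology.EditDistance

structure Good (m ℓ M : ℕ) (C F : ℝ) where
  G : Type
  [grp : AddCommGroup G]
  [fin : Fintype G]
  U : Type
  [finU : Fintype U]
  z : G
  E : G → List ℕ
  u : U → G
  wt : U → ℝ
  cost : U → ℝ
  hz : m • z = 0
  hlen : ∀ x, (E x).length = ℓ
  hsym : ∀ x, ∀ a ∈ E x, a < M
  hwt : ∀ a, 0 ≤ wt a
  hchar : ∀ χ : AddChar G ℂ, χ z ≠ 1 → 1 ≤ ∑ a, wt a * ‖1 - χ (u a)‖ ^ 2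
  hcost : ∀ a x, (editDist (E x) (E (x + u a)) : ℝ) ≤ cost a
  hsum : ∑ a, wt a * cost a ≤ C
  hlow : ∀ (s : ℤ) x, ¬ (m : ℤ) ∣ s → F ≤ editDist (E x) (E (x + s • z))

attribute [instance] Good.grp Good.fin Good.finU

lemma ed_pos {α : Type*} {u v : List α} (h : u ≠ v) : 1 ≤ editDist u v := by
  have := (conn (α := α)).pos_dist_of_ne h
  exact this

lemma avg_move {G : Type*} [AddCommGroup G] (χ : AddChar G ℂ) (g : G) (n R : ℕ) (hn : 0 < n)
    (h1 : χ g ^ n = 1) (hg : χ g ≠ 1) (hR : 2 * n ≤ R) :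
    1 ≤ ∑ r : Fin R, (1 / R : ℝ) * ‖1 - χ ((r : ℕ) • g)‖ ^ 2 := by
  have h := root_avg (χ g) n R hn h1 hg hR
  have hR0 : (0 : ℝ) < R := by exact_mod_cast (by omega : 0 < R)
  rw [← Finset.mul_sum]
  simp_rw [AddChar.map_nsmul_eq_pow]
  rw [Fin.sum_univ_eq_sum_range (fun r => ‖1 - χ g ^ r‖ ^ 2) R, one_div, le_inv_mul_iff₀ hR0]
  simpa using h

/-- base level -/
noncomputable def base (m R : ℕ) (hm : 0 < m) (hR : 2 * m ≤ R) : Good m 1 m 1 1 :=
  haveI : NeZero m := ⟨hm.ne'⟩
  { G := ZMod m
    U := Fin R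
    z := 1
    E := fun x => [x.val]
    u := fun r => (r : ℕ) • (1 : ZMod m)
    wt := fun _ => 1 / R
    cost := fun _ => 1
    hz := by simp
    hlen := fun _ => rfl
    hsym := fun x a ha => by
      simp only [List.mem_singleton] at ha
      rw [ha]; exact ZMod.val_lt x
    hwt := fun _ => by positivity
    hchar := fun χ h => avg_move χ 1 m R hm (by rw [← AddChar.map_nsmul_eq_pow]; simp) h hR
    hcost := fun a x => by exact_mod_cast ed_sub [] [] _ _
    hsum := by
      have hR0 : (0 : ℝ) < R := by exact_mod_cast (by omega : 0 < R)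
      simp only [mul_one, Finset.sum_const, Finset.card_univ, Fintype.card_fin, nsmul_eq_mul]
      rw [mul_one_div_cancel hR0.ne']
    hlow := fun s x hs => by
      have : [x.val] ≠ [(x + s • (1 : ZMod m)).val] := by
        intro h
        simp only [List.cons.injEq, and_true] at h
        have h2 := ZMod.val_injective m h
        simp only [zsmul_eq_mul, mul_one, left_eq_add] at h2
        exact hs ((ZMod.intCast_zmod_eq_zero_iff_dvd s m).1 h2)
      exact_mod_cast ed_pos this }

lemma few_divisors {k : ℕ} (p : Fin k → ℕ) (hp : ∀ i, 2 ≤ p i)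
    (hc : Pairwise fun i j => Nat.Coprime (p i) (p j)) (r : ℤ) (hr : r ≠ 0) (w : ℕ)
    (hw : r.natAbs < 2 ^ w) :
    (Finset.univ.filter fun i => (p i : ℤ) ∣ r).card ≤ w := by
  set S := Finset.univ.filter fun i => (p i : ℤ) ∣ r
  have h1 : ∏ i ∈ S, (p i : ℤ) ∣ r := by
    refine Finset.prod_dvd_of_coprime (fun i _ j _ hij => ?_) fun i hi => (Finset.mem_filter.1 hi).2
    exact Nat.isCoprime_iff_coprime.2 (hc hij)
  have h2 : ∏ i ∈ S, p i ∣ r.natAbs := by
    rw [← Int.natCast_dvd]
    push_cast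
    exact h1
  have h3 := Nat.le_of_dvd (Int.natAbs_pos.2 hr) h2
  have h4 := Finset.pow_card_le_prod S p 2 fun i _ => hp i
  have h5 : 2 ^ S.card < 2 ^ w := lt_of_le_of_lt (h4.trans h3) hw
  exact ((Nat.pow_lt_pow_iff_right (by norm_num)).1 h5).le

lemma addChar_sum {G ι : Type*} [AddCommGroup G] (χ : AddChar G ℂ) (s : Finset ι) (f : ι → G) :
    χ (∑ i ∈ s, f i) = ∏ i ∈ s, χ (f i) := by
  classical
  induction s using Finset.induction_on with
  | empty => simp
  | insert a s ha ih => rw [Finset.sum_insert ha, Finset.prod_insert ha, AddChar.map_add_eq_mul, ih]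

lemma ed_shift {α : Type*} (f : ℕ → List α) (c q r : ℕ) (hf : ∀ t, (f t).length = c) :
    editDist ((List.range q).flatMap f) ((List.range q).flatMap fun t => f (r + t)) ≤ 2 * r * c := by
  have h1 : (List.range (r + q)).flatMap f =
      (List.range r).flatMap f ++ (List.range q).flatMap fun t => f (r + t) := by
    rw [List.range_add, List.flatMap_append, List.flatMap_map]
  have h2 : (List.range (r + q)).flatMap f =
      (List.range q).flatMap f ++ (List.range r).flatMap fun t => f (q + t) := by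
    rw [add_comm, List.range_add, List.flatMap_append, List.flatMap_map]
  have h3 := ed_triangle ((List.range q).flatMap f) ((List.range (r + q)).flatMap f)
    ((List.range q).flatMap fun t => f (r + t))
  have h4 : editDist ((List.range q).flatMap f) ((List.range (r + q)).flatMap f) ≤ r * c := by
    rw [h2]
    have := ed_append_left ((List.range q).flatMap f) [] ((List.range r).flatMap fun t => f (q + t))
    have h5 := ed_nil ((List.range r).flatMap fun t => f (q + t))
    rw [length_flatMap_const _ c _ fun t _ => hf _, List.length_range] at h5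
    rw [List.append_nil] at this
    omega
  have h5 : editDist ((List.range (r + q)).flatMap f)
      ((List.range q).flatMap fun t => f (r + t)) ≤ r * c := by
    rw [h1, ed_comm]
    have := ed_append_right ((List.range q).flatMap fun t => f (r + t)) []
      ((List.range r).flatMap f)
    have h5 := ed_nil ((List.range r).flatMap f)
    rw [length_flatMap_const _ c _ fun t _ => hf _, List.length_range] at h5
    rw [List.nil_append] at this
    omega
  nlinarith

section step
variable {k m ℓ M : ℕ} {C F : ℝ} {p : Fin k → ℕ} (D : ∀ i, Good (m * p i) ℓ M C F)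

def stepRow (x : ∀ i, (D i).G) (t : ℕ) : List ℕ := row fun i => (D i).E (x i + t • (D i).z)

def stepE (q : ℕ) (x : ∀ i, (D i).G) : List ℕ := (List.range q).flatMap (stepRow D x)

def stepG : ∀ i, (D i).G := fun i => (D i).z

lemma stepRow_length (x : ∀ i, (D i).G) (t : ℕ) : (stepRow D x t).length = k * ℓ :=
  row_length _ fun i => (D i).hlen _

lemma step_cost1 (q r : ℕ) (x : ∀ i, (D i).G) :
    editDist (stepE D q x) (stepE D q (x + r • stepG D)) ≤ 2 * r * (k * ℓ) := by
  have : stepRow D (x + r • stepG D) = fun t => stepRow D x (r + t) := by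
    funext t
    simp only [stepRow, stepG, Pi.add_apply, Pi.smul_apply, add_smul, add_assoc]
  unfold stepE
  rw [this]
  exact ed_shift _ _ _ _ (stepRow_length D x)

lemma step_cost2 (q : ℕ) (x : ∀ i, (D i).G) (i : Fin k) (a : (D i).U) :
    (editDist (stepE D q x) (stepE D q (x + Pi.single i ((D i).u a))) : ℝ) ≤ q * (D i).cost a := by
  have h1 : ∀ t, (editDist (stepRow D x t) (stepRow D (x + Pi.single i ((D i).u a)) t) : ℝ) ≤
      (D i).cost a := by
    intro t
    have h2 := ed_row (fun j => (D j).E (x j + t • (D j).z))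
      (fun j => (D j).E ((x + Pi.single i ((D i).u a) : ∀ i, (D i).G) j + t • (D j).z))
    rw [Finset.sum_eq_single i (fun j _ hj => by simp [Pi.single_eq_of_ne hj]) (by simp)] at h2
    refine le_trans ?_ ((D i).hcost a (x i + t • (D i).z))
    simp only [Pi.add_apply, Pi.single_eq_same] at h2
    rw [add_right_comm] at h2
    exact_mod_cast h2
  have h2 := ed_flatMap (List.range q) (stepRow D x) (stepRow D (x + Pi.single i ((D i).u a)))
  have h3 : (((List.range q).map fun t => editDist (stepRow D x t)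
      (stepRow D (x + Pi.single i ((D i).u a)) t)).sum : ℝ) ≤ q * (D i).cost a := by
    induction q with
    | zero => simp
    | succ q ih =>
      rw [List.range_succ, List.map_append, List.sum_append]
      have := ih (ed_flatMap _ _ _)
      have := h1 q
      push_cast at *
      simp only [List.map_cons, List.map_nil, List.sum_cons, List.sum_nil, add_zero]
      linarith
  refine le_trans ?_ h3
  exact_mod_cast h2

lemma step_char (w₀ R P0 : ℕ) (hw : 0 < w₀) (hm : 0 < m) (hp : ∀ i, 2 ≤ p i) (hp' : ∀ i, p i ≤ P0)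
    (hP0 : 0 < P0) (hR : 2 * (m * P0 ^ w₀) ≤ R) (χ : AddChar (∀ i, (D i).G) ℂ)
    (hχ : χ (stepG D) ≠ 1) :
    1 ≤ ∑ r : Fin R, (1 / R : ℝ) * ‖1 - χ ((r : ℕ) • stepG D)‖ ^ 2 +
      ∑ a : (Σ i, (D i).U), ((D a.1).wt a.2 / w₀) * ‖1 - χ (Pi.single a.1 ((D a.1).u a.2))‖ ^ 2 := by
  classical
  set S := Finset.univ.filter fun i => χ (Pi.single i (D i).z) ≠ 1 with hS
  have hn1 : 0 ≤ ∑ r : Fin R, (1 / R : ℝ) * ‖1 - χ ((r : ℕ) • stepG D)‖ ^ 2 :=
    Finset.sum_nonneg fun _ _ => by positivity
  have hn2 : ∀ a : (Σ i, (D i).U), 0 ≤ ((D a.1).wt a.2 / w₀) *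
      ‖1 - χ (Pi.single a.1 ((D a.1).u a.2))‖ ^ 2 := fun a =>
    mul_nonneg (div_nonneg ((D a.1).hwt _) (by positivity)) (by positivity)
  by_cases hc : w₀ ≤ S.card
  · refine le_add_of_nonneg_of_le hn1 ?_
    rw [Fintype.sum_sigma]
    have hw' : (0 : ℝ) < w₀ := by exact_mod_cast hw
    calc (1 : ℝ) ≤ ∑ i ∈ S, (1 / w₀ : ℝ) := by
          simp only [Finset.sum_const, nsmul_eq_mul]
          rw [mul_one_div, le_div_iff₀ hw', one_mul]
          exact_mod_cast hc
      _ ≤ ∑ i ∈ S, ∑ a : (D i).U, ((D i).wt a / w₀) * ‖1 - χ (Pi.single i ((D i).u a))‖ ^ 2 := by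
          refine Finset.sum_le_sum fun i hi => ?_
          have := (D i).hchar (χ.compAddMonoidHom (AddMonoidHom.single (fun i => (D i).G) i))
            (Finset.mem_filter.1 hi).2
          simp only [AddChar.compAddMonoidHom_apply, AddMonoidHom.single_apply] at this
          simp_rw [div_mul_eq_mul_div, ← Finset.sum_div]
          exact div_le_div_of_nonneg_right this hw'.le
      _ ≤ _ := Finset.sum_le_sum_of_subset_of_nonneg (Finset.subset_univ _) fun i _ _ =>
          Finset.sum_nonneg fun a _ => hn2 ⟨i, a⟩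
  · refine le_add_of_le_of_nonneg ?_ (Finset.sum_nonneg fun a _ => hn2 a)
    have hprod : ∏ i ∈ S, p i ≤ P0 ^ w₀ :=
      (Finset.prod_le_pow_card S p P0 fun i _ => hp' i).trans
        (Nat.pow_le_pow_right hP0 (by omega))
    have hpos : 0 < ∏ i ∈ S, p i := Finset.prod_pos fun i _ => by have := hp i; omega
    refine avg_move χ (stepG D) (m * ∏ i ∈ S, p i) R (Nat.mul_pos hm hpos) ?_ hχ
      (le_trans (Nat.mul_le_mul_left _ (Nat.mul_le_mul_left _ hprod)) hR)
    have h1 : stepG D = ∑ i, Pi.single i (D i).z := (Finset.univ_sum_single _).symm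
    rw [h1, addChar_sum, ← Finset.prod_pow]
    refine Finset.prod_eq_one fun i _ => ?_
    by_cases hi : i ∈ S
    · obtain ⟨c, hc⟩ := Finset.dvd_prod_of_mem p hi
      rw [hc, ← mul_assoc, pow_mul, ← AddChar.map_nsmul_eq_pow, ← Pi.single_smul, (D i).hz]
      simp
    · simp only [hS, Finset.mem_filter, Finset.mem_univ, true_and, not_not] at hi
      rw [hi, one_pow]

lemma step_low (q w : ℕ) (hp : ∀ i, 2 ≤ p i) (hc : Pairwise fun i j => Nat.Coprime (p i) (p j))
    (hmc : ∀ i, Nat.Coprime m (p i)) (hq : q ≤ 2 ^ w) (hw : 2 * (4 * w + 2) ≤ k)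
    (hF0 : 0 ≤ F) (hF : F ≤ ℓ) (s : ℤ) (x : ∀ i, (D i).G) (hs : ¬ (m : ℤ) ∣ s) :
    q * (k * F / 4) ≤ editDist (stepE D q x) (stepE D q (x + s • ((∏ i, p i) • stepG D))) := by
  have h := ed_rows (k * F / 4) ((List.range q).map (stepRow D x))
    (stepE D q (x + s • ((∏ i, p i) • stepG D))) ?_
  · simpa [stepE, List.flatMap_def] using h
  intro R hR Z hZ
  simp only [List.mem_map, List.mem_range] at hR
  obtain ⟨t, ht, rfl⟩ := hR
  refine row_lower (q := q) (w := w) hF0 hF hw _
    (fun t' i => (D i).E ((x + s • ((∏ i, p i) • stepG D)) i + t' • (D i).z))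
    (fun i => (D i).hlen _) (fun t i => (D i).hlen _) (fun t' ht' => ?_) Z hZ
  have key : ∀ i, (editDist ((D i).E (x i + t • (D i).z))
      ((D i).E ((x + s • ((∏ i, p i) • stepG D)) i + t' • (D i).z)) : ℝ) < F →
      ((m * p i : ℕ) : ℤ) ∣ s * (∏ i, p i : ℕ) + (t' - t) := by
    intro i hi
    by_contra hcon
    have := (D i).hlow _ (x i + t • (D i).z) hcon
    have h2 : x i + t • (D i).z + (s * (∏ i, p i : ℕ) + (t' - t) : ℤ) • (D i).z =
        (x + s • ((∏ i, p i) • stepG D)) i + t' • (D i).z := by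
      simp only [Pi.add_apply, Pi.smul_apply, stepG, add_smul, sub_smul, mul_smul, natCast_zsmul]
      abel
    rw [h2] at this
    linarith
  by_cases hr : (t' : ℤ) - t = 0
  · rw [Finset.filter_eq_empty_iff.2]
    · simp
    intro i _ hi
    have h1 := key i hi
    rw [hr, add_zero] at h1
    apply hs
    have h2 : (m : ℤ) ∣ s * (∏ i, p i : ℕ) := (Dvd.intro _ (by push_cast; rfl)).trans h1
    refine IsCoprime.dvd_of_dvd_mul_right ?_ h2
    exact Nat.isCoprime_iff_coprime.2 (Nat.Coprime.prod_right fun i _ => hmc i)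
  · refine le_trans (Finset.card_le_card ?_) (few_divisors p hp hc _ hr w (by omega))
    intro i hi
    simp only [Finset.mem_filter, Finset.mem_univ, true_and] at hi ⊢
    have h1 := key i hi
    have h2 : (p i : ℤ) ∣ s * (∏ i, p i : ℕ) + (t' - t) :=
      (Dvd.intro_left _ (by push_cast; rfl)).trans h1
    have h3 : (p i : ℤ) ∣ s * (∏ i, p i : ℕ) :=
      Dvd.dvd.mul_left (Int.natCast_dvd_natCast.2 (Finset.dvd_prod_of_mem p (Finset.mem_univ i))) s
    exact (dvd_add_right h3).1 h2

noncomputable def step (q w w₀ R P0 : ℕ) (hw₀ : 0 < w₀) (hm : 0 < m) (hp : ∀ i, 2 ≤ p i)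
    (hp' : ∀ i, p i ≤ P0) (hP0 : 0 < P0) (hR : 2 * (m * P0 ^ w₀) ≤ R)
    (hc : Pairwise fun i j => Nat.Coprime (p i) (p j))
    (hmc : ∀ i, Nat.Coprime m (p i)) (hq : q ≤ 2 ^ w) (hw : 2 * (4 * w + 2) ≤ k)
    (hF0 : 0 ≤ F) (hF : F ≤ ℓ) :
    Good m (q * (k * ℓ)) (M * k) (2 * R * (k * ℓ) + k * (q * C / w₀)) (q * (k * F / 4)) where
  G := ∀ i, (D i).G
  U := Fin R ⊕ (Σ i, (D i).U)
  z := (∏ i, p i) • stepG D
  E := stepE D q
  u := Sum.elim (fun r => (r : ℕ) • stepG D) fun a => Pi.single a.1 ((D a.1).u a.2)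
  wt := Sum.elim (fun _ => 1 / R) fun a => (D a.1).wt a.2 / w₀
  cost := Sum.elim (fun _ => 2 * R * (k * ℓ)) fun a => q * (D a.1).cost a.2
  hz := by
    funext i
    obtain ⟨c, hc⟩ := Finset.dvd_prod_of_mem p (Finset.mem_univ i)
    simp only [Pi.smul_apply, stepG, Pi.zero_apply]
    rw [← mul_smul, hc, ← mul_assoc, mul_comm _ c, mul_smul, (D i).hz, smul_zero]
  hlen := fun x => by
    unfold stepE
    rw [length_flatMap_const _ (k * ℓ) _ fun t _ => stepRow_length D x t, List.length_range]
  hsym := fun x a ha => by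
    simp only [stepE, stepRow, row, tag, List.mem_flatMap, List.mem_map] at ha
    obtain ⟨t, -, i, -, b, hb, rfl⟩ := ha
    have h1 := (D i).hsym _ b hb
    have h2 := i.2
    nlinarith
  hwt := by
    rintro (r | a)
    · simp
    · exact div_nonneg ((D a.1).hwt _) (by positivity)
  hchar := fun χ hχ => by
    rw [Fintype.sum_sum_type]
    refine step_char D w₀ R P0 hw₀ hm hp hp' hP0 hR χ fun h => hχ ?_
    rw [AddChar.map_nsmul_eq_pow, h, one_pow]
  hcost := by
    rintro (r | a) x
    · have h1 := step_cost1 D q r x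
      have h2 : 2 * r * (k * ℓ) ≤ 2 * R * (k * ℓ) :=
        Nat.mul_le_mul_right _ (Nat.mul_le_mul_left _ r.2.le)
      simp only [Sum.elim_inl]
      exact_mod_cast h1.trans h2
    · exact step_cost2 D q x a.1 a.2
  hsum := by
    rw [Fintype.sum_sum_type]
    have hR0 : (0 : ℝ) < R := by
      have : 0 < m * P0 ^ w₀ := by positivity
      exact_mod_cast (by omega : 0 < R)
    have hw' : (0 : ℝ) < w₀ := by exact_mod_cast hw₀
    refine add_le_add (le_of_eq ?_) ?_
    · simp only [Sum.elim_inl, Finset.sum_const, Finset.card_univ, Fintype.card_fin, nsmul_eq_mul]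
      field_simp
    · rw [Fintype.sum_sigma]
      calc _ ≤ ∑ i : Fin k, (q * C / w₀) := by
            refine Finset.sum_le_sum fun i _ => ?_
            simp only [Sum.elim_inr]
            have := (D i).hsum
            calc _ = (q / w₀) * ∑ a, (D i).wt a * (D i).cost a := by
                  rw [Finset.mul_sum]
                  exact Finset.sum_congr rfl fun a _ => by ring
              _ ≤ (q / w₀) * C := mul_le_mul_of_nonneg_left this (by positivity)
              _ = _ := by ring
        _ = _ := by simp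
  hlow := fun s x hs => step_low D q w hp hc hmc hq hw hF0 hF s x hs

end step

end Crest.Agent.Lead.Edit
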