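import Mathlib

/-! Moore paths and squares. -/

namespace Crest.Agent.Lead.ZT

open unitInterval NNReal Set

/-! ### squares -/
section squares
variable {Z : Type} [TopologicalSpace Z]

instance : ContractibleSpace I := (convex_Icc (0 : ℝ) 1).contractibleSpace ⟨0, by simp⟩

/-- the sides of the unit square -/
def hor (v : I) : Path ((0, v) : I × I) (1, v) :=
  ⟨⟨fun t => (t, v), by fun_prop⟩, rfl, rfl⟩

def ver (u : I) : Path ((u, 0) : I × I) (u, 1) :=
  ⟨⟨fun t => (u, t), by fun_prop⟩, rfl, rfl⟩

def dia : Path ((0, 0) : I × I) (1, 1) :=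
  ⟨⟨fun t => (t, t), by fun_prop⟩, rfl, rfl⟩

theorem sq_comm (H : C(I × I, Z)) {p q r s : Z} (b : Path p q) (rt : Path q s) (l : Path p r)
    (tp : Path r s) (hb : ∀ t, b t = H (t, 0)) (hr : ∀ t, rt t = H (1, t))
    (hl : ∀ t, l t = H (0, t)) (ht : ∀ t, tp t = H (t, 1)) :
    (b.trans rt).Homotopic (l.trans tp) := by
  obtain rfl : p = H (0, 0) := by rw [← hb, b.source]
  obtain rfl : q = H (1, 0) := by rw [← hb, b.target]
  obtain rfl : r = H (0, 1) := by rw [← hl, l.target]
  obtain rfl : s = H (1, 1) := by rw [← hr, rt.target]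
  obtain rfl : b = (hor 0).map H.continuous := by ext t; exact hb t
  obtain rfl : rt = (ver 1).map H.continuous := by ext t; exact hr t
  obtain rfl : l = (ver 0).map H.continuous := by ext t; exact hl t
  obtain rfl : tp = (hor 1).map H.continuous := by ext t; exact ht t
  rw [← Path.map_trans, ← Path.map_trans]
  exact (SimplyConnectedSpace.paths_homotopic _ _).map H

theorem sq_diag (H : C(I × I, Z)) {p q s : Z} (b : Path p q) (rt : Path q s) (d : Path p s)
    (hb : ∀ t, b t = H (t, 0)) (hr : ∀ t, rt t = H (1, t)) (hd : ∀ t, d t = H (t, t)) :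
    (b.trans rt).Homotopic d := by
  obtain rfl : p = H (0, 0) := by rw [← hb, b.source]
  obtain rfl : q = H (1, 0) := by rw [← hb, b.target]
  obtain rfl : s = H (1, 1) := by rw [← hr, rt.target]
  obtain rfl : b = (hor 0).map H.continuous := by ext t; exact hb t
  obtain rfl : rt = (ver 1).map H.continuous := by ext t; exact hr t
  obtain rfl : d = dia.map H.continuous := by ext t; exact hd t
  rw [← Path.map_trans]
  exact (SimplyConnectedSpace.paths_homotopic _ _).map H

theorem sq_fill {p q r s : Z} (b : Path p q) (rt : Path q s) (l : Path p r) (tp : Path r s)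
    (h : (b.trans rt).Homotopic (l.trans tp)) :
    ∃ W : C(I × I, Z), (∀ t, W (t, 0) = b t) ∧ (∀ t, W (1, t) = rt t) ∧ (∀ t, W (0, t) = l t) ∧
      ∀ t, W (t, 1) = tp t := by
  obtain ⟨H⟩ := h
  let den : I × I → ℝ := fun z => z.2 * (1 - z.1) + z.1 * (1 - z.2)
  let v : I × I → I := fun z => projIcc 0 1 zero_le_one (z.2 * (1 - z.1) / den z)
  let u : I × I → I := fun z => ⟨(z.1 + z.2) / 2, by
    have := z.1.2.1; have := z.2.2.1; have := z.1.2.2; have := z.2.2.2
    constructor <;> linarith⟩
  have hu : Continuous u := by fun_prop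
  have hden : ∀ z : I × I, den z = 0 → u z = 0 ∨ u z = 1 := by
    rintro ⟨⟨a, a0, a1⟩, ⟨c, c0, c1⟩⟩ hz
    simp only [den] at hz
    have h1 : c * (1 - a) = 0 := by nlinarith [mul_nonneg c0 (sub_nonneg.2 a1), mul_nonneg a0 (sub_nonneg.2 c1)]
    have h2 : a * (1 - c) = 0 := by linarith
    rcases mul_eq_zero.1 h1 with h | h <;> rcases mul_eq_zero.1 h2 with k | k
    · left; apply Subtype.ext; simp [u, h, k]
    · exfalso; linarith
    · exfalso; linarith
    · right; apply Subtype.ext
      simp only [u, Icc.coe_one]; linarith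
  have hW : Continuous fun z => H (v z, u z) := by
    rw [continuous_iff_continuousAt]
    intro z
    by_cases hz : den z = 0
    · have hc : ∀ w, H (w, u z) = H (v z, u z) := by
        intro w
        rcases hden z hz with e | e <;> rw [e] <;> simp
      intro U hU
      have h1 : ∀ᶠ y in nhds (u z), ∀ w ∈ (univ : Set I), H (w, y) ∈ U := by
        refine isCompact_univ.eventually_forall_of_forall_eventually fun w _ => ?_
        have : ContinuousAt (fun x : I × I => H (x.2, x.1)) (u z, w) := by fun_prop
        exact this (by simpa only [hc w] using hU)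
      have h2 := hu.continuousAt.eventually h1
      exact Filter.mem_map.2 (h2.mono fun y hy => hy _ (mem_univ _))
    · have : ContinuousAt v z := by
        refine continuous_projIcc.continuousAt.comp (ContinuousAt.div ?_ ?_ hz) <;> fun_prop
      exact H.continuous.continuousAt.comp (this.prodMk hu.continuousAt)
  have e0 : ∀ z : I × I, (z.2 : ℝ) * (1 - z.1) = 0 → H (v z, u z) = (b.trans rt) (u z) := by
    intro z hz
    have : v z = 0 := by simp [v, hz]
    rw [this]; simp
  have e1 : ∀ z : I × I, (z.1 : ℝ) * (1 - z.2) = 0 → H (v z, u z) = (l.trans tp) (u z) := by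
    intro z hz
    by_cases h0 : den z = 0
    · rcases hden z h0 with e | e <;> rw [e] <;> simp
    · have : v z = 1 := by
        have h1 : den z = z.2 * (1 - z.1) := by simp only [den]; linarith
        simp only [v]
        rw [← h1, div_self h0]; simp
      rw [this]; simp
  have t1 : ∀ {x y w : Z} (f : Path x y) (g : Path y w) (t τ : I), (τ : ℝ) = t / 2 →
      (f.trans g) τ = f t := by
    intro x y w f g t τ h
    rw [Path.trans_apply, dif_pos (by have := t.2.2; linarith)]
    congr 1; apply Subtype.ext; simp only; linarith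
  have t2 : ∀ {x y w : Z} (f : Path x y) (g : Path y w) (t τ : I), (τ : ℝ) = (1 + t) / 2 →
      (f.trans g) τ = g t := by
    intro x y w f g t τ h
    rw [Path.trans_apply]
    split_ifs with k
    · have : t = 0 := by apply Subtype.ext; have := t.2.1; simp only [Icc.coe_zero]; linarith
      subst this
      have : (⟨2 * τ, (mul_pos_mem_iff zero_lt_two).2 ⟨τ.2.1, k⟩⟩ : I) = 1 := by
        apply Subtype.ext; simp only [Icc.coe_one, h, Icc.coe_zero]; norm_num
      rw [this]; simp
    · congr 1; apply Subtype.ext; simp only; linarith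
  refine ⟨⟨_, hW⟩, fun t => ?_, fun t => ?_, fun t => ?_, fun t => ?_⟩
  · exact (e0 (t, 0) (by simp)).trans (t1 _ _ _ _ (by simp [u]))
  · exact (e0 (1, t) (by simp)).trans (t2 _ _ _ _ (by simp [u]))
  · exact (e1 (0, t) (by simp)).trans (t1 _ _ _ _ (by simp [u]))
  · exact (e1 (t, 1) (by simp)).trans (t2 _ _ _ _ (by simp [u, add_comm]))

end squares

/-! ### Moore paths -/

/-- Moore paths -/
def MP (E : Type) [TopologicalSpace E] : Type :=
  {p : ℝ≥0 × C(ℝ≥0, E) // ∀ t, p.1 ≤ t → p.2 t = p.2 p.1}

variable {E : Type} [TopologicalSpace E]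

instance : TopologicalSpace (MP E) := instTopologicalSpaceSubtype

namespace MP

def len (m : MP E) : ℝ≥0 := m.1.1
def fn (m : MP E) : C(ℝ≥0, E) := m.1.2
def src (m : MP E) : E := m.fn 0
def tgt (m : MP E) : E := m.fn m.len

theorem fn_of_le (m : MP E) {t : ℝ≥0} (h : m.len ≤ t) : m.fn t = m.tgt := m.2 t h

theorem ext' {m m' : MP E} (h : m.len = m'.len) (h' : ∀ t, t ≤ m.len → m.fn t = m'.fn t) :
    m = m' := by
  apply Subtype.ext
  refine Prod.ext h (ContinuousMap.ext fun t => ?_)
  rcases le_total t m.len with k | k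
  · exact h' t k
  · change m.fn t = m'.fn t
    rw [m.fn_of_le k, m'.fn_of_le (h ▸ k), tgt, tgt, h' _ le_rfl, h]

@[fun_prop] theorem continuous_len : Continuous (len : MP E → ℝ≥0) :=
  continuous_fst.comp continuous_subtype_val

theorem continuous_fn {A : Type} [TopologicalSpace A] {f : A → MP E} {t : A → ℝ≥0}
    (hf : Continuous f) (ht : Continuous t) : Continuous fun a => (f a).fn (t a) :=
  continuous_eval.comp (((continuous_snd.comp continuous_subtype_val).comp hf).prodMk ht)

theorem continuous_tgt : Continuous (tgt : MP E → E) := continuous_fn continuous_id continuous_len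

theorem continuous_of {A : Type} [TopologicalSpace A] {f : A → MP E}
    (h1 : Continuous fun a => (f a).len) (h2 : Continuous fun p : A × ℝ≥0 => (f p.1).fn p.2) :
    Continuous f :=
  continuous_induced_rng.2 (h1.prodMk (ContinuousMap.continuous_of_continuous_uncurry _ h2))

/-- truncation of a ray -/
def mk' (L : ℝ≥0) (c : C(ℝ≥0, E)) : MP E :=
  ⟨(L, ⟨fun t => c (min t L), by fun_prop⟩), fun t ht => by simp [min_eq_right ht]⟩

@[simp] theorem len_mk' (L : ℝ≥0) (c : C(ℝ≥0, E)) : (mk' L c).len = L := rfl
theorem fn_mk' (L : ℝ≥0) (c : C(ℝ≥0, E)) (t) : (mk' L c).fn t = c (min t L) := rfl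
theorem fn_mk'_le {L : ℝ≥0} (c : C(ℝ≥0, E)) {t} (h : t ≤ L) : (mk' L c).fn t = c t := by
  rw [fn_mk', min_eq_left h]
@[simp] theorem src_mk' (L : ℝ≥0) (c : C(ℝ≥0, E)) : (mk' L c).src = c 0 := by simp [src, fn_mk']
@[simp] theorem tgt_mk' (L : ℝ≥0) (c : C(ℝ≥0, E)) : (mk' L c).tgt = c L := by simp [tgt, fn_mk']

theorem continuous_mk' {A : Type} [TopologicalSpace A] {L : A → ℝ≥0} {c : A → C(ℝ≥0, E)}
    (hL : Continuous L) (hc : Continuous fun p : A × ℝ≥0 => c p.1 p.2) :
    Continuous fun a => mk' (L a) (c a) :=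
  continuous_of hL (hc.comp (continuous_fst.prodMk (continuous_snd.min (hL.comp continuous_fst))))

/-- constant path -/
def one (x : E) : MP E := mk' 0 (ContinuousMap.const _ x)

@[simp] theorem len_one (x : E) : (one x).len = 0 := rfl
@[simp] theorem fn_one (x : E) (t) : (one x).fn t = x := rfl
@[simp] theorem src_one (x : E) : (one x).src = x := rfl
@[simp] theorem tgt_one (x : E) : (one x).tgt = x := rfl

open Classical in
/-- concatenation -/
noncomputable def mul (p q : MP E) : MP E :=
  if h : p.tgt = q.src then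
    ⟨(p.len + q.len, ⟨fun t => if t ≤ p.len then p.fn t else q.fn (t - p.len),
      Continuous.if_le p.fn.continuous (q.fn.continuous.comp (by fun_prop)) continuous_id
        continuous_const (fun t ht => by
          simp only [ht, tsub_self]; exact h)⟩), fun t ht => by
      have key : ∀ s, p.len ≤ s → (if s ≤ p.len then p.fn s else q.fn (s - p.len)) =
          q.fn (s - p.len) := by
        intro s hs
        split_ifs with k
        · rw [le_antisymm k hs, tsub_self]; exact h
        · rfl
      simp only [ContinuousMap.coe_mk] at ht ⊢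
      rw [key _ (le_self_add.trans ht), key _ le_self_add, add_tsub_cancel_left]
      exact q.fn_of_le (le_tsub_of_add_le_left ht)⟩
  else p

theorem len_mul {p q : MP E} (h : p.tgt = q.src) : (p.mul q).len = p.len + q.len := by
  simp only [mul, dif_pos h]; rfl

theorem fn_mul {p q : MP E} (h : p.tgt = q.src) (t) :
    (p.mul q).fn t = if t ≤ p.len then p.fn t else q.fn (t - p.len) := by
  simp only [mul, dif_pos h]; rfl

theorem fn_mul_le {p q : MP E} (h : p.tgt = q.src) {t} (ht : t ≤ p.len) :
    (p.mul q).fn t = p.fn t := by rw [fn_mul h, if_pos ht]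

theorem fn_mul_ge {p q : MP E} (h : p.tgt = q.src) {t} (ht : p.len ≤ t) :
    (p.mul q).fn t = q.fn (t - p.len) := by
  rw [fn_mul h]
  split_ifs with k
  · rw [le_antisymm k ht, tsub_self]; exact h
  · rfl

theorem src_mul {p q : MP E} (h : p.tgt = q.src) : (p.mul q).src = p.src :=
  fn_mul_le h zero_le

theorem tgt_mul {p q : MP E} (h : p.tgt = q.src) : (p.mul q).tgt = q.tgt := by
  rw [tgt, len_mul h, fn_mul_ge h le_self_add, add_tsub_cancel_left]; rfl

theorem continuous_mul {A : Type} [TopologicalSpace A] {f g : A → MP E} (hf : Continuous f)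
    (hg : Continuous g) (h : ∀ a, (f a).tgt = (g a).src) : Continuous fun a => (f a).mul (g a) := by
  refine continuous_of ?_ ?_
  · simp only [len_mul (h _)]
    exact (continuous_len.comp hf).add (continuous_len.comp hg)
  · simp only [fn_mul (h _)]
    refine Continuous.if_le (continuous_fn (hf.comp continuous_fst) continuous_snd)
      (continuous_fn (hg.comp continuous_fst)
        (continuous_snd.sub (continuous_len.comp (hf.comp continuous_fst)))) continuous_snd
      (continuous_len.comp (hf.comp continuous_fst)) ?_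
    intro p hp
    rw [hp, tsub_self]; exact h _

theorem one_mul {p : MP E} {x : E} (h : p.src = x) : (one x).mul p = p := by
  have h' : (one x).tgt = p.src := h.symm
  refine ext' (by simp [len_mul h']) fun t _ => ?_
  rw [fn_mul_ge h' (by simp)]; simp

theorem mul_zero_len {p q : MP E} (h : p.tgt = q.src) (hq : q.len = 0) : p.mul q = p := by
  refine ext' (by simp [len_mul h, hq]) fun t ht => ?_
  rw [len_mul h, hq, add_zero] at ht
  exact fn_mul_le h ht

theorem mul_one {p : MP E} {x : E} (h : p.tgt = x) : p.mul (one x) = p := mul_zero_len h rfl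

theorem mul_assoc {p q r : MP E} (h : p.tgt = q.src) (h' : q.tgt = r.src) :
    (p.mul q).mul r = p.mul (q.mul r) := by
  have h1 : (p.mul q).tgt = r.src := (tgt_mul h).trans h'
  have h2 : p.tgt = (q.mul r).src := h.trans (src_mul h').symm
  refine ext' (by rw [len_mul h1, len_mul h, len_mul h2, len_mul h', add_assoc]) fun t _ => ?_
  rcases le_total t p.len with k | k
  · rw [fn_mul_le h1 (by rw [len_mul h]; exact k.trans le_self_add), fn_mul_le h k, fn_mul_le h2 k]
  · rw [fn_mul_ge h2 k]
    rcases le_total t (p.len + q.len) with k' | k'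
    · rw [fn_mul_le h1 (by rwa [len_mul h]), fn_mul_ge h k, fn_mul_le h' (tsub_le_iff_left.2 k')]
    · rw [fn_mul_ge h1 (by rwa [len_mul h]), fn_mul_ge h' (le_tsub_of_add_le_left k'), len_mul h,
        tsub_add_eq_tsub_tsub]

/-- reversal -/
def rev (p : MP E) : MP E := mk' p.len ⟨fun t => p.fn (p.len - t), by fun_prop⟩

@[simp] theorem src_rev (p : MP E) : p.rev.src = p.tgt := by simp [rev, tgt]
@[simp] theorem tgt_rev (p : MP E) : p.rev.tgt = p.src := by simp [rev, src]

theorem rev_rev (p : MP E) : p.rev.rev = p := by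
  refine ext' rfl fun t ht => ?_
  have ht' : t ≤ p.len := ht
  change p.fn (p.len - min (p.len - min t p.len) p.len) = _
  rw [min_eq_left ht', min_eq_left tsub_le_self, tsub_tsub_cancel_of_le ht']

/-- paths with given ends -/
def S (x y : E) : Set (MP E) := {m | m.src = x ∧ m.tgt = y}

theorem mul_mem {x y z : E} {p q : MP E} (hp : p ∈ S x y) (hq : q ∈ S y z) : p.mul q ∈ S x z :=
  have h : p.tgt = q.src := hp.2.trans hq.1.symm
  ⟨(src_mul h).trans hp.1, (tgt_mul h).trans hq.2⟩

theorem one_mem (x : E) : one x ∈ S x x := ⟨rfl, rfl⟩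

theorem rev_mem {x y : E} {p : MP E} (hp : p ∈ S x y) : p.rev ∈ S y x :=
  ⟨p.src_rev.trans hp.2, p.tgt_rev.trans hp.1⟩

theorem joinedIn_of {x y : E} (f : I → MP E) (hf : Continuous f) (h : ∀ t, f t ∈ S x y)
    {p q : MP E} (h0 : f 0 = p) (h1 : f 1 = q) : JoinedIn (S x y) p q :=
  ⟨⟨⟨f, hf⟩, h0, h1⟩, h⟩

theorem joinedIn_mul_right {x y z : E} {p p' q : MP E} (h : JoinedIn (S x y) p p')
    (hq : q ∈ S y z) : JoinedIn (S x z) (p.mul q) (p'.mul q) := by
  obtain ⟨γ, hγ⟩ := h
  exact joinedIn_of (fun t => (γ t).mul q) (continuous_mul γ.continuous continuous_const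
    fun t => (hγ t).2.trans hq.1.symm) (fun t => mul_mem (hγ t) hq) (by simp) (by simp)

theorem joinedIn_mul_left {x y z : E} {p q q' : MP E} (hp : p ∈ S x y)
    (h : JoinedIn (S y z) q q') : JoinedIn (S x z) (p.mul q) (p.mul q') := by
  obtain ⟨γ, hγ⟩ := h
  exact joinedIn_of (fun t => p.mul (γ t)) (continuous_mul continuous_const γ.continuous
    fun t => hp.2.trans (hγ t).1.symm) (fun t => mul_mem hp (hγ t)) (by simp) (by simp)

theorem joinedIn_mul_rev {x y : E} {p : MP E} (hp : p ∈ S x y) :
    JoinedIn (S x x) (p.mul p.rev) (one x) := by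
  let a : I → ℝ≥0 := fun s => toNNReal s * p.len
  have ha : Continuous a := toNNReal_continuous.mul continuous_const
  have hx : p.fn 0 = x := hp.1
  refine (joinedIn_of (fun s => mk' (a s + a s) ⟨fun t => p.fn (min t (a s + a s - t)), by fun_prop⟩)
    (continuous_mk' (by fun_prop) ?_) (fun s => ⟨?_, ?_⟩) ?_ ?_).symm
  · exact p.fn.continuous.comp (by fun_prop)
  · simpa using hx
  · simpa using hx
  · have : a 0 = 0 := by simp [a]
    refine ext' (by simp [this]) fun t ht => ?_
    simp only [this, add_zero, len_mk', nonpos_iff_eq_zero] at ht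
    subst ht
    simpa [fn_mk'] using hx
  · have : a 1 = p.len := by simp [a]
    have h : p.tgt = p.rev.src := p.src_rev.symm
    refine ext' (by rw [len_mul h, len_mk', this]; rfl) fun t ht => ?_
    simp only [this, len_mk'] at ht ⊢
    rw [fn_mk'_le _ ht, ContinuousMap.coe_mk]
    rcases le_total t p.len with k | k
    · rw [fn_mul_le h k, min_eq_left (le_tsub_of_add_le_left (add_le_add k k))]
    · have k' : t - p.len ≤ p.len := tsub_le_iff_left.2 ht
      rw [fn_mul_ge h k, rev, fn_mk'_le _ k', min_eq_right (tsub_le_iff_left.2 (add_le_add k k))]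
      change p.fn _ = p.fn _
      congr 1
      apply NNReal.eq
      rw [NNReal.coe_sub ht, NNReal.coe_sub k', NNReal.coe_sub k]; push_cast; ring

theorem joinedIn_rev_mul {x y : E} {p : MP E} (hp : p ∈ S x y) :
    JoinedIn (S y y) (p.rev.mul p) (one y) := by
  have := joinedIn_mul_rev (rev_mem hp)
  rwa [rev_rev] at this

end MP

end Crest.Agent.Lead.ZT
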