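import Crest.Agent.Lead.ZT1

/-! The fundamental groupoids of Moore path spaces and the action of `π₂`. -/

namespace Crest.Agent.Lead.ZT

open unitInterval NNReal Set

variable {E : Type} [TopologicalSpace E]

/-- Moore paths from `x` to `y` -/
abbrev F (x y : E) : Type := ↥(MP.S x y)

/-- homotopy classes of paths -/
abbrev Q {Z : Type} [TopologicalSpace Z] (a b : Z) : Type := Path.Homotopic.Quotient a b

section
variable {Z : Type} [TopologicalSpace Z] {a b c : Z}

theorem Q.cancel_right {f g : Q a b} {h : Q b c} (e : f.trans h = g.trans h) : f = g := by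
  have := congrArg (fun k => Path.Homotopic.Quotient.trans k h.symm) e
  simpa only [Path.Homotopic.Quotient.trans_assoc, Path.Homotopic.Quotient.trans_symm, Path.Homotopic.Quotient.trans_refl] using this

theorem Q.trans_symm_cancel (f : Q a b) (g : Q a c) : f.trans (f.symm.trans g) = g := by
  rw [← Path.Homotopic.Quotient.trans_assoc, Path.Homotopic.Quotient.trans_symm, Path.Homotopic.Quotient.refl_trans]

theorem Q.symm_trans_cancel (f : Q a b) (g : Q b c) : f.symm.trans (f.trans g) = g := by
  rw [← Path.Homotopic.Quotient.trans_assoc, Path.Homotopic.Quotient.symm_trans, Path.Homotopic.Quotient.refl_trans]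

theorem Q.map_trans {Z' : Type} [TopologicalSpace Z'] (f : Q a b) (g : Q b c) (φ : C(Z, Z')) :
    (f.trans g).map φ = (f.map φ).trans (g.map φ) := by
  induction f using Path.Homotopic.Quotient.ind
  induction g using Path.Homotopic.Quotient.ind
  rw [← Path.Homotopic.Quotient.mk_trans, ← Path.Homotopic.Quotient.mk_map, Path.map_trans]; rfl

end

variable {x y z : E}

namespace F

noncomputable def mul (a : F x y) (b : F y z) : F x z := ⟨a.1.mul b.1, MP.mul_mem a.2 b.2⟩

def e (x : E) : F x x := ⟨MP.one x, MP.one_mem x⟩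

def rev (a : F x y) : F y x := ⟨a.1.rev, MP.rev_mem a.2⟩

theorem cmp (a : F x y) (b : F y z) : a.1.tgt = b.1.src := a.2.2.trans b.2.1.symm

theorem e_mul (a : F x y) : (e x).mul a = a := Subtype.ext (MP.one_mul a.2.1)

theorem mul_e (a : F x y) : a.mul (e y) = a := Subtype.ext (MP.mul_one a.2.2)

theorem massoc {w : E} (a : F x y) (b : F y z) (c : F z w) :
    (a.mul b).mul c = a.mul (b.mul c) := Subtype.ext (MP.mul_assoc (a.cmp b) (b.cmp c))

@[fun_prop] theorem continuous_mul {A : Type} [TopologicalSpace A] {f : A → F x y} {g : A → F y z}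
    (hf : Continuous f) (hg : Continuous g) : Continuous fun a => (f a).mul (g a) :=
  continuous_induced_rng.2 (MP.continuous_mul (continuous_subtype_val.comp hf)
    (continuous_subtype_val.comp hg) fun a => (f a).cmp (g a))

/-- right whiskering -/
noncomputable def Rc (x : E) (c : F y z) : C(F x y, F x z) := ⟨fun a => a.mul c, by fun_prop⟩

@[simp] theorem Rc_apply (c : F y z) (a : F x y) : Rc x c a = a.mul c := rfl

/-- right whiskering of a path -/
noncomputable def wr {a a' : F x y} (f : Path a a') (c : F y z) : Path (a.mul c) (a'.mul c) :=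
  f.map (Rc x c).continuous

theorem wr_apply {a a' : F x y} (f : Path a a') (c : F y z) (t) : wr f c t = (f t).mul c := rfl

/-- right whiskering of a class -/
noncomputable def WR {a a' : F x y} (f : Q a a') (c : F y z) : Q (a.mul c) (a'.mul c) :=
  f.map (Rc x c)

theorem mk_wr {a a' : F x y} (f : Path a a') (c : F y z) :
    Path.Homotopic.Quotient.mk (wr f c) = WR (Path.Homotopic.Quotient.mk f) c := rfl

theorem WR_trans {a a' a'' : F x y} (f : Q a a') (g : Q a' a'') (c : F y z) :
    WR (f.trans g) c = (WR f c).trans (WR g c) := Q.map_trans f g _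

end F

open F

/-- the action of the loops at the constant path -/
noncomputable def act (p : Q (e x) (e x)) (γ : F x y) : Q γ γ :=
  (p.map (Rc x γ)).cast (e_mul γ).symm (e_mul γ).symm

theorem act_trans (p q : Q (e x) (e x)) (γ : F x y) :
    act (p.trans q) γ = (act p γ).trans (act q γ) := by
  induction p using Path.Homotopic.Quotient.ind with | _ p => ?_
  induction q using Path.Homotopic.Quotient.ind with | _ q => ?_
  refine congrArg Path.Homotopic.Quotient.mk (Path.ext (funext fun t => ?_))
  simp only [Path.cast_coe, Path.map_coe, Function.comp_apply, Path.trans_apply]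
  split_ifs <;> rfl

theorem act_nat (p : Q (e x) (e x)) {γ γ' : F x y} (f : Q γ γ') :
    (act p γ).trans f = f.trans (act p γ') := by
  induction p using Path.Homotopic.Quotient.ind with | _ p => ?_
  induction f using Path.Homotopic.Quotient.ind with | _ f => ?_
  refine Path.Homotopic.Quotient.eq.2 (sq_comm ⟨fun w => (p w.1).mul (f w.2), by fun_prop⟩ _ _ _ _ ?_ ?_ ?_ ?_)
  · intro t; change (p t).mul γ = (p t).mul (f 0); simp
  · intro t; simp [e_mul]
  · intro t; simp [e_mul]
  · intro t; change (p t).mul γ' = (p t).mul (f 1); simp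

theorem map_act (p : Q (e x) (e x)) (γ : F x y) (β : F y z) :
    WR (act p γ) β = act p (γ.mul β) := by
  induction p using Path.Homotopic.Quotient.ind with | _ p => ?_
  refine congrArg Path.Homotopic.Quotient.mk (Path.ext (funext fun t => ?_))
  exact massoc (p t) γ β

theorem act_one (p : Q (e x) (e x)) : act p (e x) = p := by
  induction p using Path.Homotopic.Quotient.ind with | _ p => ?_
  refine congrArg Path.Homotopic.Quotient.mk (Path.ext (funext fun t => ?_))
  exact mul_e (p t)

theorem act_comm (p q : Q (e x) (e x)) : p.trans q = q.trans p := by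
  have := act_nat p q
  rwa [act_one] at this

theorem act_surj (γ : F x y) (k : Q γ γ) : ∃ p, act p γ = k := by
  obtain ⟨η⟩ : Joined (γ.mul γ.rev) (e x) := (MP.joinedIn_mul_rev γ.2).joined_subtype
  obtain ⟨η'⟩ : Joined (γ.rev.mul γ) (e y) := (MP.joinedIn_rev_mul γ.2).joined_subtype
  induction k using Path.Homotopic.Quotient.ind with | _ k => ?_
  let u : Path ((γ.mul γ.rev).mul γ) γ :=
    ⟨⟨fun t => (η t).mul γ, by fun_prop⟩, by simp, by simp [e_mul]⟩
  let v : Path ((γ.mul γ.rev).mul γ) γ :=
    ⟨⟨fun t => γ.mul (η' t), by fun_prop⟩, by simp [massoc], by simp [mul_e]⟩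
  let k' : Path (γ.mul γ.rev) (γ.mul γ.rev) :=
    ⟨⟨fun t => (k t).mul γ.rev, by fun_prop⟩, by simp, by simp⟩
  let k'' : Path ((γ.mul γ.rev).mul γ) ((γ.mul γ.rev).mul γ) :=
    ⟨⟨fun t => ((k t).mul γ.rev).mul γ, by fun_prop⟩, by simp, by simp⟩
  refine ⟨Path.Homotopic.Quotient.mk (η.symm.trans (k'.trans η)), ?_⟩
  have h1 : act (Path.Homotopic.Quotient.mk (η.symm.trans (k'.trans η))) γ =
      (Path.Homotopic.Quotient.mk u).symm.trans ((Path.Homotopic.Quotient.mk k'').trans (Path.Homotopic.Quotient.mk u)) := by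
    refine congrArg Path.Homotopic.Quotient.mk (Path.ext (funext fun t => ?_))
    simp only [Path.cast_coe, Path.map_coe, Function.comp_apply, Path.trans_apply]
    split_ifs <;> rfl
  have h2 : (Path.Homotopic.Quotient.mk k'').trans (Path.Homotopic.Quotient.mk v) = (Path.Homotopic.Quotient.mk v).trans (Path.Homotopic.Quotient.mk k) := by
    refine Path.Homotopic.Quotient.eq.2 (sq_comm ⟨fun w => (k w.1).mul (η' w.2), by fun_prop⟩ _ _ _ _ ?_ ?_ ?_ ?_)
      <;> intro t <;> simp [mul_e, massoc, k'', v]
  set p := Path.Homotopic.Quotient.mk (η.symm.trans (k'.trans η))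
  have h3 := act_nat p ((Path.Homotopic.Quotient.mk v).symm.trans (Path.Homotopic.Quotient.mk u))
  refine Q.cancel_right (h := (Path.Homotopic.Quotient.mk v).symm.trans (Path.Homotopic.Quotient.mk u)) ?_
  rw [h3, h1, Path.Homotopic.Quotient.trans_assoc, Q.trans_symm_cancel]
  have h4 : Path.Homotopic.Quotient.mk k'' = (Path.Homotopic.Quotient.mk v).trans ((Path.Homotopic.Quotient.mk k).trans (Path.Homotopic.Quotient.mk v).symm) := by
    rw [← Path.Homotopic.Quotient.trans_assoc, ← h2, Path.Homotopic.Quotient.trans_assoc, Path.Homotopic.Quotient.trans_symm,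
      Path.Homotopic.Quotient.trans_refl]
  rw [h4, Path.Homotopic.Quotient.trans_assoc, Q.symm_trans_cancel, Path.Homotopic.Quotient.trans_assoc]

/-- the abelian group of loops at the constant path -/
def Pi2 (x : E) : Type := Q (e x) (e x)

noncomputable instance : Add (Pi2 x) := ⟨fun p q => Path.Homotopic.Quotient.trans p q⟩
noncomputable instance : Zero (Pi2 x) := ⟨Path.Homotopic.Quotient.refl _⟩
noncomputable instance : Neg (Pi2 x) := ⟨fun p => Path.Homotopic.Quotient.symm p⟩

noncomputable instance : AddCommGroup (Pi2 x) where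
  add_assoc := Path.Homotopic.Quotient.trans_assoc
  zero_add := Path.Homotopic.Quotient.refl_trans
  add_zero := Path.Homotopic.Quotient.trans_refl
  neg_add_cancel := Path.Homotopic.Quotient.symm_trans
  add_comm := act_comm
  nsmul := nsmulRec
  zsmul := zsmulRec

theorem act_add (p q : Pi2 x) (γ : F x y) : act (p + q) γ = (act p γ).trans (act q γ) :=
  act_trans p q γ

/-- **Obstruction argument.** -/
theorem exists_coherent {G S R : Type} [Group G] (gen : S → G) (rel : R → S × S × S)
    (hrel : ∀ r, gen (rel r).1 * gen (rel r).2.1 = gen (rel r).2.2)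
    (ρ : G → S → (G × R →₀ ℤ)) (hρ : ∀ g r, ρ g (rel r).1 + ρ (g * gen (rel r).1) (rel r).2.1 -
      ρ g (rel r).2.2 = Finsupp.single (g, r) 1)
    (pt : G → E) (sg : ∀ g, F x (pt g)) (ε : ∀ g s h, g * gen s = h → F (pt g) (pt h))
    (hj : ∀ g s h hh, Joined ((sg g).mul (ε g s h hh)) (sg h))
    (δ : ∀ g r, Path (((sg g).mul (ε g (rel r).1 _ rfl)).mul (ε _ (rel r).2.1 (g * gen (rel r).2.2)
      (by rw [mul_assoc, hrel]))) ((sg g).mul (ε g (rel r).2.2 _ rfl))) :
    ∃ θ : ∀ g s h hh, Path ((sg g).mul (ε g s h hh)) (sg h), ∀ g r,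
      ((wr (θ g (rel r).1 _ rfl) (ε _ (rel r).2.1 (g * gen (rel r).2.2)
        (by rw [mul_assoc, hrel]))).trans (θ _ (rel r).2.1 _ _)).Homotopic
        ((δ g r).trans (θ g (rel r).2.2 _ rfl)) := by
  let θ₀ : ∀ g s h hh, Q ((sg g).mul (ε g s h hh)) (sg h) := fun g s h hh =>
    Path.Homotopic.Quotient.mk (hj g s h hh).somePath
  let A : ∀ g r, Q _ (sg (g * gen (rel r).2.2)) := fun g r =>
    (WR (θ₀ g (rel r).1 _ rfl) (ε _ (rel r).2.1 (g * gen (rel r).2.2)
        (by rw [mul_assoc, hrel]))).trans (θ₀ _ (rel r).2.1 _ _)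
  let B : ∀ g r, Q _ (sg (g * gen (rel r).2.2)) := fun g r =>
    (Path.Homotopic.Quotient.mk (δ g r)).trans (θ₀ g (rel r).2.2 _ rfl)
  choose o ho using fun j : G × R => act_surj _ ((B j.1 j.2).symm.trans (A j.1 j.2))
  let O : (G × R →₀ ℤ) →ₗ[ℤ] Pi2 x := Finsupp.linearCombination ℤ (fun j => (o j : Pi2 x))
  let d : G → S → Pi2 x := fun g s => - O (ρ g s)
  have hd : ∀ g r, (show Pi2 x from o (g, r)) + (d g (rel r).1 + d (g * gen (rel r).1) (rel r).2.1) =
      d g (rel r).2.2 := by
    intro g r
    have := congrArg O (hρ g r)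
    simp only [O, map_add, map_sub, Finsupp.linearCombination_single, one_smul] at this
    simp only [d, O]
    rw [← this]; abel
  choose θ hθ using fun g s h hh => Path.Homotopic.Quotient.mk_surjective ((θ₀ g s h hh).trans (act (d g s) (sg h)))
  refine ⟨θ, fun g r => Path.Homotopic.Quotient.eq.1 ?_⟩
  rw [Path.Homotopic.Quotient.mk_trans, Path.Homotopic.Quotient.mk_trans, mk_wr, hθ, hθ, hθ, WR_trans, map_act,
    ← hd, act_add, act_add, ho]
  simp only [Path.Homotopic.Quotient.trans_assoc]
  rw [← Path.Homotopic.Quotient.trans_assoc (Path.Homotopic.Quotient.mk (δ g r))]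
  change _ = (B g r).trans _
  rw [Q.trans_symm_cancel]
  simp only [A, Path.Homotopic.Quotient.trans_assoc]
  congr 1
  rw [← Path.Homotopic.Quotient.trans_assoc, ← Path.Homotopic.Quotient.trans_assoc]
  congr 1
  exact act_nat _ _

end Crest.Agent.Lead.ZT
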