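import Crest.Agent.Lead.ZT0
import Crest.Agent.Lead.ZT2

/-! Contractibility of the Cayley complex of an aspherical triangle presentation. -/

namespace Crest.Agent.Lead.ZT

open unitInterval NNReal Set Crest.Agent.H9.ZD MP

theorem trans_lo {Z : Type} [TopologicalSpace Z] {x y w : Z} (f : Path x y) (g : Path y w)
    (a t : I) (h : (t : ℝ) = 2 * a) : (f.trans g) a = f t := by
  rw [Path.trans_apply, dif_pos (by have := t.2.2; linarith)]
  congr 1; apply Subtype.ext; simp only; linarith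

theorem trans_hi {Z : Type} [TopologicalSpace Z] {x y w : Z} (f : Path x y) (g : Path y w)
    (a t : I) (h : (t : ℝ) = 2 * a - 1) : (f.trans g) a = g t := by
  rw [Path.trans_apply]
  split_ifs with k
  · have : t = 0 := by apply Subtype.ext; have := t.2.1; simp only [Icc.coe_zero]; linarith
    subst this
    have : (⟨2 * a, (mul_pos_mem_iff zero_lt_two).2 ⟨a.2.1, k⟩⟩ : I) = 1 := by
      apply Subtype.ext; simp only [Icc.coe_one, Icc.coe_zero] at h ⊢; linarith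
    rw [this]; simp
  · congr 1; apply Subtype.ext; simp only; linarith

theorem lo_or_hi (a : I) : (∃ t : I, (t : ℝ) = 2 * a) ∨ ∃ t : I, (t : ℝ) = 2 * a - 1 := by
  have := a.2.1; have := a.2.2
  rcases le_total (a : ℝ) (1 / 2) with h | h
  · exact Or.inl ⟨⟨2 * a, by constructor <;> linarith⟩, rfl⟩
  · exact Or.inr ⟨⟨2 * a - 1, by constructor <;> linarith⟩, rfl⟩

theorem homotopic_congr {Z : Type} [TopologicalSpace Z] {x y : Z} {p q p' q' : Path x y}
    (h : p'.Homotopic q') (e : p = p') (e' : q = q') : p.Homotopic q := e ▸ e' ▸ h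

/-- clamp -/
noncomputable def cl : C(ℝ≥0, I) :=
  ⟨fun τ => projIcc 0 1 zero_le_one (τ : ℝ), continuous_projIcc.comp NNReal.continuous_coe⟩

theorem cl_val {τ : ℝ≥0} (h : τ ≤ 1) : (cl τ : ℝ) = τ := by
  change ((projIcc 0 1 zero_le_one (τ : ℝ) : I) : ℝ) = τ
  rw [projIcc_of_mem zero_le_one (show (τ : ℝ) ∈ Icc (0 : ℝ) 1 from ⟨τ.2, h⟩)]

theorem cl_to (t : I) : cl (toNNReal t) = t := Subtype.ext (cl_val t.2.2)

theorem cl_zero : cl 0 = 0 := cl_to 0

noncomputable def h1 (t : I) : I := ⟨t / 2, by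
  have := t.2.1; have := t.2.2; constructor <;> linarith⟩

noncomputable def h2 (t : I) : I := ⟨(1 + t) / 2, by
  have := t.2.1; have := t.2.2; constructor <;> linarith⟩

@[fun_prop] theorem continuous_h1 : Continuous h1 := by unfold h1; fun_prop
@[fun_prop] theorem continuous_h2 : Continuous h2 := by unfold h2; fun_prop

theorem h1_zero : h1 0 = 0 := Subtype.ext (by simp [h1])
theorem h1_one : h1 1 = h2 0 := Subtype.ext (by simp [h1, h2])
theorem h2_one : h2 1 = 1 := Subtype.ext (by simp [h2])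

/-- interpolation -/
def ip (τ a b : I) : I := ⟨(1 - τ) * a + τ * b, by
  have := τ.2.1; have := τ.2.2; have := a.2.1; have := a.2.2; have := b.2.1; have := b.2.2
  constructor <;> nlinarith⟩

theorem continuous_ip {A : Type} [TopologicalSpace A] {τ a b : A → I} (h1 : Continuous τ)
    (h2 : Continuous a) (h3 : Continuous b) : Continuous fun x => ip (τ x) (a x) (b x) := by
  unfold ip; fun_prop

theorem ip_self (τ a : I) : ip τ a a = a := Subtype.ext (by simp only [ip]; ring)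
theorem ip_zero (a b : I) : ip 0 a b = a := Subtype.ext (by simp [ip])
theorem ip_one (a b : I) : ip 1 a b = b := Subtype.ext (by simp [ip])

/-- the collar reparametrisation -/
noncomputable def φp : Path (0 : I) 1 := (⟨ContinuousMap.id I, rfl, rfl⟩ : Path (0 : I) 1).trans
  (Path.refl 1)

/-- length of the horizontal slices of a square -/
def kk (u : I) : ℝ≥0 := 1 + toNNReal (σ u)

theorem kk_ne (u : I) : kk u ≠ 0 := by simp [kk]
@[fun_prop] theorem continuous_kk : Continuous kk := by unfold kk; fun_prop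
theorem kk_zero : kk 0 = 2 := by simp [kk, one_add_one_eq_two]
theorem kk_one : kk 1 = 1 := by simp [kk]

variable {G S R : Type} [Group G] {gen : S → G} {rel : R → S × S × S} {E : Type}
  [TopologicalSpace E] (χ : CM gen rel E)

/-- initial part of an edge -/
noncomputable def eg (g : G) (s : S) (v : I) : MP E := mk' (toNNReal v) ((χ.c1 g s).comp cl)

theorem eg_mem (g : G) (s : S) (v : I) : eg χ g s v ∈ MP.S (χ.pt g) (χ.c1 g s v) :=
  ⟨by simp [eg, cl_zero, χ.c1_zero], by simp [eg, cl_to]⟩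

theorem eg_one_mem (g : G) (s : S) : eg χ g s 1 ∈ MP.S (χ.pt g) (χ.pt (g * gen s)) :=
  χ.c1_one g s ▸ eg_mem χ g s 1

theorem continuous_eg (g : G) (s : S) : Continuous (eg χ g s) :=
  continuous_mk' toNNReal_continuous (by fun_prop)

/-- initial part of a horizontal slice of a square -/
noncomputable def Dm (g : G) (r : R) (z : I × I) : MP E :=
  mk' (toNNReal z.1 * kk z.2) ⟨fun τ => χ.c2 g r (cl (τ / kk z.2), z.2), by fun_prop⟩

theorem Dm_mem (g : G) (r : R) (z : I × I) : Dm χ g r z ∈ MP.S (χ.pt g) (χ.c2 g r z) :=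
  ⟨by simp [Dm, cl_zero, χ.c2_left], by simp [Dm, mul_div_cancel_right₀ _ (kk_ne _), cl_to]⟩

theorem continuous_Dm (g : G) (r : R) : Continuous (Dm χ g r) := by
  refine continuous_mk' (by fun_prop) ((χ.c2 g r).continuous.comp (Continuous.prodMk
    (cl.continuous.comp (Continuous.div continuous_snd (by fun_prop) fun p => kk_ne _))
    (by fun_prop)))

theorem Dm_lo (g : G) (r : R) (a t : I) (h : (t : ℝ) = 2 * a) :
    Dm χ g r (a, 0) = eg χ g (rel r).1 t := by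
  have hl : toNNReal a * kk 0 = toNNReal t := by
    apply NNReal.eq; simp [kk_zero, h, mul_comm]
  refine ext' hl fun τ hτ => ?_
  have hτ' : τ ≤ toNNReal t := hl ▸ hτ
  have h1 : τ ≤ 1 := hτ'.trans t.2.2
  rw [Dm, fn_mk'_le _ (hτ'.trans hl.ge), eg, fn_mk'_le _ hτ']
  refine χ.c2_bot1 g r _ _ ?_
  rw [cl_val h1, kk_zero, cl_val (by rw [div_le_one (by norm_num)]; exact h1.trans one_le_two)]
  push_cast; ring

theorem Dm_hi (g : G) (r : R) (a t : I) (h : (t : ℝ) = 2 * a - 1) :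
    Dm χ g r (a, 0) = (eg χ g (rel r).1 1).mul (eg χ (g * gen (rel r).1) (rel r).2.1 t) := by
  have hc := (eg_one_mem χ g (rel r).1).2.trans (eg_mem χ (g * gen (rel r).1) (rel r).2.1 t).1.symm
  have hl : toNNReal a * kk 0 = 1 + toNNReal t := by
    apply NNReal.eq; simp [kk_zero, h, mul_comm]
  refine ext' (by rw [len_mul hc]; exact hl) fun τ hτ => ?_
  have hτ' : τ ≤ 1 + toNNReal t := hl ▸ hτ
  have h2 : τ / 2 ≤ 1 := by
    rw [div_le_one (by norm_num)]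
    exact hτ'.trans (by rw [← one_add_one_eq_two]; exact add_le_add le_rfl t.2.2)
  rw [Dm, fn_mk'_le _ (hτ'.trans hl.ge)]
  rcases le_total τ 1 with k | k
  · rw [fn_mul_le hc k, eg, toNNReal_one, fn_mk'_le _ k]
    refine χ.c2_bot1 g r _ _ ?_
    rw [cl_val k, kk_zero, cl_val h2]
    push_cast; ring
  · have k' : τ - 1 ≤ toNNReal t := tsub_le_iff_left.2 hτ'
    rw [fn_mul_ge hc k, eg, eg, len_mk', toNNReal_one, fn_mk'_le _ k']
    refine χ.c2_bot2 g r _ _ ?_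
    rw [cl_val (k'.trans t.2.2), kk_zero, cl_val h2, NNReal.coe_sub k]
    push_cast; ring

theorem Dm_top (g : G) (r : R) (v : I) : Dm χ g r (v, 1) = eg χ g (rel r).2.2 v := by
  have hl : toNNReal v * kk 1 = toNNReal v := by simp [kk_one]
  refine ext' hl fun τ hτ => ?_
  have hτ' : τ ≤ toNNReal v := hl ▸ hτ
  rw [Dm, fn_mk'_le _ (hτ'.trans hl.ge), eg, fn_mk'_le _ hτ']
  simp [kk_one, χ.c2_top]

/-- full edges -/
noncomputable def ep (g : G) (s : S) (h : G) (hh : g * gen s = h) : F (χ.pt g) (χ.pt h) :=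
  ⟨eg χ g s 1, hh ▸ eg_one_mem χ g s⟩

theorem Dm_right_mem (g : G) (r : R) (u : I) :
    Dm χ g r (1, u) ∈ MP.S (χ.pt g) (χ.pt (g * gen (rel r).2.2)) :=
  χ.c2_right g r u ▸ Dm_mem χ g r (1, u)

theorem Dm_one_zero (g : G) (r : R) : Dm χ g r (1, 0) =
    (eg χ g (rel r).1 1).mul (eg χ (g * gen (rel r).1) (rel r).2.1 1) :=
  Dm_hi χ g r 1 1 (by norm_num)

/-- the space of Moore paths ending in the square of a cell -/
abbrev Zc (x : E) (g : G) (r : R) : Type :=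
  {p : MP E × (I × I) // p.1 ∈ MP.S x (χ.c2 g r p.2)}

theorem fill {x : E} (g : G) (r : R)
    (hh : g * gen (rel r).1 * gen (rel r).2.1 = g * gen (rel r).2.2) (s₀ : F x (χ.pt g)) (s₁ : F x (χ.pt (g * gen (rel r).1)))
    (s₂ : F x (χ.pt (g * gen (rel r).2.2)))
    (θa : Path (s₀.mul (ep χ g (rel r).1 _ rfl)) s₁)
    (θb : Path (s₁.mul (ep χ _ (rel r).2.1 _ hh)) s₂)
    (θc : Path (s₀.mul (ep χ g (rel r).2.2 _ rfl)) s₂)
    (δ : Path ((s₀.mul (ep χ g (rel r).1 _ rfl)).mul (ep χ _ (rel r).2.1 (g * gen (rel r).2.2)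
      hh)) (s₀.mul (ep χ g (rel r).2.2 _ rfl)))
    (hδ : ∀ u, (δ u).1 = s₀.1.mul (Dm χ g r (1, u)))
    (hc : ((F.wr θa (ep χ _ (rel r).2.1 (g * gen (rel r).2.2)
      hh)).trans θb).Homotopic (δ.trans θc)) :
    ∃ W : C(I × I, Zc χ x g r),
      (∀ b, (W (0, b)).1 = (s₀.1, (0, b))) ∧ (∀ b, (W (1, b)).1 = (s₂.1, (1, b))) ∧
      (∀ a t τ : I, (t : ℝ) = 2 * a → (τ : ℝ) = 2 * t →
        (W (a, 0)).1 = (s₀.1.mul (eg χ g (rel r).1 τ), (h1 τ, 0))) ∧
      (∀ a t τ : I, (t : ℝ) = 2 * a → (τ : ℝ) = 2 * t - 1 →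
        (W (a, 0)).1 = ((θa τ).1, (h1 1, 0))) ∧
      (∀ a t τ : I, (t : ℝ) = 2 * a - 1 → (τ : ℝ) = 2 * t →
        (W (a, 0)).1 = (s₁.1.mul (eg χ (g * gen (rel r).1) (rel r).2.1 τ), (h2 τ, 0))) ∧
      (∀ a t τ : I, (t : ℝ) = 2 * a - 1 → (τ : ℝ) = 2 * t - 1 →
        (W (a, 0)).1 = ((θb τ).1, (1, 0))) ∧
      (∀ a τ : I, (τ : ℝ) = 2 * a → (W (a, 1)).1 = (s₀.1.mul (eg χ g (rel r).2.2 τ), (τ, 1))) ∧
      (∀ a τ : I, (τ : ℝ) = 2 * a - 1 → (W (a, 1)).1 = ((θc τ).1, (1, 1))) := by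
  have b1 : ∀ t, χ.c2 g r (h1 t, 0) = χ.c1 g (rel r).1 t := fun t =>
    χ.c2_bot1 g r _ _ (by simp only [h1]; ring)
  have b2 : ∀ t, χ.c2 g r (h2 t, 0) = χ.c1 (g * gen (rel r).1) (rel r).2.1 t := fun t =>
    χ.c2_bot2 g r _ _ (by simp only [h2]; ring)
  -- the three squares
  let H₁ : C(I × I, Zc χ x g r) := ⟨fun w => ⟨((θa w.1).1.mul
      (eg χ (g * gen (rel r).1) (rel r).2.1 w.2), (h2 w.2, 0)),
      b2 w.2 ▸ mul_mem (θa w.1).2 (eg_mem χ _ _ _)⟩,
    continuous_induced_rng.2 ((MP.continuous_mul (by fun_prop) ((continuous_eg χ _ _).comp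
      continuous_snd) fun w => (θa w.1).2.2.trans (eg_mem χ _ _ _).1.symm).prodMk (by fun_prop))⟩
  let H₂ : C(I × I, Zc χ x g r) := ⟨fun w => ⟨(s₀.1.mul (Dm χ g r w), w),
      mul_mem s₀.2 (Dm_mem χ g r w)⟩,
    continuous_induced_rng.2 ((MP.continuous_mul continuous_const (continuous_Dm χ g r)
      fun w => s₀.2.2.trans (Dm_mem χ g r w).1.symm).prodMk continuous_id)⟩
  let J : C(F x (χ.pt (g * gen (rel r).2.2)) × I, Zc χ x g r) :=
    ⟨fun w => ⟨(w.1.1, (1, w.2)), (χ.c2_right g r w.2).symm ▸ w.1.2⟩,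
      continuous_induced_rng.2 (by fun_prop)⟩
  have z1 : ∀ {y} (m : F x (χ.pt y)) s, m.1.mul (eg χ y s 0) = m.1 := fun m s =>
    mul_zero_len (m.2.2.trans (eg_mem χ _ _ _).1.symm) rfl
  have z2 : ∀ u, s₀.1.mul (Dm χ g r (0, u)) = s₀.1 := fun u =>
    mul_zero_len (s₀.2.2.trans (Dm_mem χ g r _).1.symm) (by simp [Dm])
  have d0 := (hδ 0).symm
  have d1 := (hδ 1).symm
  rw [δ.source] at d0
  rw [δ.target] at d1
  have e01 : H₁ (0, 1) = H₂ (1, 0) := Subtype.ext (Prod.ext (by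
    change (θa 0).1.mul _ = s₀.1.mul _
    rw [θa.source, d0]; rfl) (by simp [H₁, H₂, h2_one]))
  have e11 : H₁ (1, 1) = J (s₁.mul (ep χ _ (rel r).2.1 _ hh), 0) :=
    Subtype.ext (Prod.ext (by
      change (θa 1).1.mul _ = _
      rw [θa.target]; rfl) (by simp [H₁, J, h2_one]))
  have eJ0 : J ((s₀.mul (ep χ g (rel r).1 _ rfl)).mul (ep χ _ (rel r).2.1 (g * gen (rel r).2.2)
      hh), 0) = H₂ (1, 0) := Subtype.ext (Prod.ext d0.symm rfl)
  have eJ1 : J (s₀.mul (ep χ g (rel r).2.2 _ rfl), 1) = H₂ (1, 1) := Subtype.ext (Prod.ext d1.symm rfl)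
  have eh : H₂ (h1 1, 0) = H₁ (0, 0) := Subtype.ext (Prod.ext (by
    change s₀.1.mul _ = (θa 0).1.mul _
    rw [z1, θa.source, Dm_lo χ g r (h1 1) 1 (by simp [h1])]; rfl) (by simp [H₁, H₂, h1_one]))
  -- the paths
  let Ga : Path (H₂ (0, 0)) (H₁ (0, 0)) :=
    ⟨⟨fun t => H₂ (h1 t, 0), by fun_prop⟩, by simp [h1_zero], eh⟩
  let Ta : Path (H₁ (0, 0)) (H₁ (1, 0)) := (hor 0).map H₁.continuous
  let Gb : Path (H₁ (1, 0)) (H₁ (1, 1)) := (ver 1).map H₁.continuous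
  let Gb' : Path (H₁ (0, 0)) (H₂ (1, 0)) := ⟨⟨fun t => H₁ (0, t), by fun_prop⟩, rfl, e01⟩
  let Ta' : Path (H₂ (1, 0)) (H₁ (1, 1)) := ⟨⟨fun t => H₁ (t, 1), by fun_prop⟩, e01, rfl⟩
  let Tb : Path (H₁ (1, 1)) (J (s₂, 0)) :=
    ⟨⟨fun t => J (θb t, 0), by fun_prop⟩, by simp [e11], by simp⟩
  let D' : Path (H₂ (1, 0)) (J (s₀.mul (ep χ g (rel r).2.2 _ rfl), 0)) :=
    ⟨⟨fun t => J (δ t, 0), by fun_prop⟩, by simp [eJ0], by simp⟩
  let Tc' : Path (J (s₀.mul (ep χ g (rel r).2.2 _ rfl), 0)) (J (s₂, 0)) :=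
    ⟨⟨fun t => J (θc t, 0), by fun_prop⟩, by simp, by simp⟩
  let Tc : Path (H₂ (1, 1)) (J (s₂, 1)) :=
    ⟨⟨fun t => J (θc t, 1), by fun_prop⟩, by simp [eJ1], by simp⟩
  let l' : Path (J (s₀.mul (ep χ g (rel r).2.2 _ rfl), 0)) (H₂ (1, 1)) :=
    ⟨⟨fun t => J (s₀.mul (ep χ g (rel r).2.2 _ rfl), t), by fun_prop⟩, rfl, eJ1⟩
  let l₁ : Path (J (s₂, 0)) (J (s₂, 1)) := ⟨⟨fun t => J (s₂, t), by fun_prop⟩, rfl, rfl⟩
  let l₀ : Path (H₂ (0, 0)) (H₂ (0, 1)) := (ver 0).map H₂.continuous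
  let D'' : Path (H₂ (1, 0)) (H₂ (1, 1)) := (ver 1).map H₂.continuous
  let Gc : Path (H₂ (0, 1)) (H₂ (1, 1)) := (hor 1).map H₂.continuous
  have r1 : (Ta.trans Gb).Homotopic (Gb'.trans Ta') :=
    sq_comm H₁ _ _ _ _ (fun _ => rfl) (fun _ => rfl) (fun _ => rfl) (fun _ => rfl)
  have r2 : (Ta'.trans Tb).Homotopic (D'.trans Tc') := by
    have := (hc.map (J.comp ⟨fun m => (m, 0), by fun_prop⟩)).pathCast eJ0.symm rfl
    refine homotopic_congr this ?_ ?_
    · refine Path.ext (funext fun t => ?_)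
      simp only [Path.cast_coe, Path.map_coe, Function.comp_apply, Path.trans_apply]
      split_ifs
      · exact Subtype.ext (Prod.ext rfl (Prod.ext h2_one rfl))
      · rfl
    · refine Path.ext (funext fun t => ?_)
      simp only [Path.cast_coe, Path.map_coe, Function.comp_apply, Path.trans_apply]
      split_ifs <;> rfl
  have r3 : ((Ga.trans Gb').trans D'').Homotopic (l₀.trans Gc) := by
    refine sq_comm H₂ _ _ _ _ (fun a => ?_) (fun _ => rfl) (fun _ => rfl) (fun _ => rfl)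
    rcases lo_or_hi a with ⟨t, ht⟩ | ⟨t, ht⟩
    · rw [trans_lo _ _ a t ht]
      change H₂ (h1 t, 0) = _
      congr 2; apply Subtype.ext; simp only [h1]; linarith
    · rw [trans_hi _ _ a t ht]
      refine Subtype.ext (Prod.ext ?_ (Prod.ext (Subtype.ext ?_) rfl))
      · change (θa 0).1.mul _ = s₀.1.mul _
        rw [θa.source, Dm_hi χ g r a t ht, ← MP.mul_assoc (s₀.2.2.trans (eg_mem χ _ _ _).1.symm)
          ((eg_one_mem χ _ _).2.trans (eg_mem χ _ _ _).1.symm)]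
        rfl
      · change (1 + t : ℝ) / 2 = a
        linarith
  have r4 : (Tc'.trans l₁).Homotopic (l'.trans Tc) :=
    sq_comm (J.comp ⟨fun w : I × I => (θc w.1, w.2), by fun_prop⟩) _ _ _ _ (fun _ => rfl)
      (fun _ => by simp [l₁]) (fun _ => by simp [l']) (fun _ => rfl)
  have r5 : (D'.trans l').Homotopic D'' :=
    sq_diag (J.comp ⟨fun w : I × I => (δ w.1, w.2), by fun_prop⟩) _ _ _ (fun _ => rfl)
      (fun _ => by simp [l']) (fun t => Subtype.ext (Prod.ext (hδ t).symm rfl))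
  have key : (((Ga.trans Ta).trans (Gb.trans Tb)).trans l₁).Homotopic (l₀.trans (Gc.trans Tc)) := by
    rw [← Path.Homotopic.Quotient.eq] at r1 r2 r3 r4 r5 ⊢
    simp only [Path.Homotopic.Quotient.mk_trans, Path.Homotopic.Quotient.trans_assoc]
      at r1 r2 r3 r4 r5 ⊢
    rw [← Path.Homotopic.Quotient.trans_assoc (.mk Ta), r1, Path.Homotopic.Quotient.trans_assoc,
      ← Path.Homotopic.Quotient.trans_assoc (.mk Ta'), r2, Path.Homotopic.Quotient.trans_assoc, r4,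
      ← Path.Homotopic.Quotient.trans_assoc (.mk D'), r5,
      ← Path.Homotopic.Quotient.trans_assoc (.mk l₀), ← r3]
    simp only [Path.Homotopic.Quotient.trans_assoc]
  obtain ⟨W, w1, w2, w3, w4⟩ := sq_fill _ _ _ _ key
  refine ⟨W, fun b => ?_, fun b => ?_, ?_, ?_, ?_, ?_, ?_, ?_⟩
  · rw [w3]; exact Prod.ext (z2 b) rfl
  · rw [w2]; rfl
  · intro a t τ ht hτ
    rw [w1, trans_lo _ _ a t ht, trans_lo _ _ t τ hτ]
    refine Prod.ext ?_ rfl
    change s₀.1.mul _ = s₀.1.mul _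
    rw [Dm_lo χ g r (h1 τ) τ (by simp only [h1]; ring)]
  · intro a t τ ht hτ
    rw [w1, trans_lo _ _ a t ht, trans_hi _ _ t τ hτ, h1_one]
    exact Prod.ext (z1 _ _) rfl
  · intro a t τ ht hτ
    rw [w1, trans_hi _ _ a t ht, trans_lo _ _ t τ hτ]
    refine Prod.ext ?_ rfl
    change (θa 1).1.mul _ = s₁.1.mul _
    rw [θa.target]; rfl
  · intro a t τ ht hτ
    rw [w1, trans_hi _ _ a t ht, trans_hi _ _ t τ hτ]; rfl
  · intro a τ hτ
    rw [w4, trans_lo _ _ a τ hτ]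
    refine Prod.ext ?_ rfl
    change s₀.1.mul (Dm χ g r (τ, 1)) = s₀.1.mul _
    rw [Dm_top]
  · intro a τ hτ
    rw [w4, trans_hi _ _ a τ hτ]; rfl

end Crest.Agent.Lead.ZT
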